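import Crest.Agent.N265.Fib.P1

/-!
# Row 265, fibrewise theory (helper2): elementary modifications

* `Elem x N M` : `m_x M ≤ N ≤ M`; `Elem.fc`, `Elem.len_eq`;
* `One x N M` : colength one at `x`; `One.len`, `FC.exists_top`, `FC.exists_bot`, `FC.one`;
* `modX M x P hP`, `mX x M = m_x M`, `van x e = Γ(m_x(e))`, `exists_up`;
* `FreeAt x M b`, `len_mX`, `One.len_homX`, `FC.len_homX`, exactness of `Hom(B, -)`.
-/

set_option autoImplicit false
set_option linter.unusedSectionVars false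
noncomputable section

namespace Crest.Agent.N265.Fib

open Crest.Agent.R274
open Cx_781 Defs_781 Ses_781 Lat_781 Ser_781 SnapA_99 SnapB_99 SnapC_99 SnapD_99 SnapE_99 Gen7_750
open Xs1_781 Filter SkDefs_474 Module Pnt

universe u

variable {k : Type u} [Field k] {F : Type u} [Field F] [Algebra k F] {n : ℕ}
  {X : Defs_781.Var k F n}
  {U : Type u} [AddCommGroup U] [Module k U] [Module F U] [IsScalarTower k F U]
  {V : Type u} [AddCommGroup V] [Module k V] [Module F V] [IsScalarTower k F V]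
  {W : Type u} [AddCommGroup W] [Module k W] [Module F W] [IsScalarTower k F W]

instance (x : Pnt X) : IsScalarTower k x.O V := IsScalarTower.of_algebraMap_smul fun c v =>
  algebraMap_smul F c v

theorem dimLT_one {R : Type*} [CommRing R] {J : Ideal R}
    (h : ∀ P Q : Ideal R, P.IsPrime → Q.IsPrime → J ≤ P → ¬ P < Q) : DimLT J 1 := fun l hl => by
  by_contra hc
  exact h _ _ l.head.2 (l ⟨1, by omega⟩).2 hl (l.strictMono (show (0 : Fin _) < ⟨1, by omega⟩ from
    Nat.one_pos))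

theorem Pnt.mem_m_smul {x : Pnt X} {P : Submodule x.O V} {a : F} (ha : a ∈ x.O) (h0 : x.val a = 0)
    {v : V} (hv : v ∈ P) : a • v ∈ x.m • P :=
  Submodule.smul_mem_smul (r := (⟨a, ha⟩ : x.O)) h0 hv

theorem Pnt.m_smul_le {x : Pnt X} {P Q : Submodule x.O V}
    (h : ∀ a ∈ x.O, x.val a = 0 → ∀ v ∈ P, a • v ∈ Q) : x.m • P ≤ Q :=
  Submodule.smul_le.2 fun a ha v hv => h a a.2 ha v hv

/-- modulo `m_x` functions are constants -/
theorem Pnt.smul_sub_mem {x : Pnt X} {P : Submodule x.O V} {a : F} (ha : a ∈ x.O) {v : V}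
    (hv : v ∈ P) : a • v - x.val a • v ∈ x.m • P := by
  rw [← algebraMap_smul F (x.val a), ← sub_smul]
  exact mem_m_smul (sub_mem ha (x.O.algebraMap_mem _)) (val_sub_const ha) hv

/-- `m_x M ≤ N ≤ M` -/
structure Elem (x : Pnt X) (N M : XLat X V) : Prop where
  le : N.toFam.LE M.toFam
  off : ∀ y : Pnt X, y ≠ x → y.loc M ≤ y.loc N
  m : x.m • x.loc M ≤ x.loc N

/-- `N ≤ M` of colength one at `x` -/
structure One (x : Pnt X) (N M : XLat X V) : Prop extends Elem x N M where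
  ex : ∃ v ∈ x.loc M, v ∉ x.loc N ∧ ∀ w ∈ x.loc M, ∃ c : k, w - c • v ∈ x.loc N

/-! ### constructions -/

/-- the sublattice with stalk `M_x ∩ P` at `x` -/
def modX (M : XLat X V) (x : Pnt X) (P : Submodule x.O V) (hP : x.m • x.loc M ≤ P) : XLat X V :=
  subLat M (fun J => M.M J ⊓ ⨅ _ : x.In J, P.restrictScalars k) (fun _ => inf_le_left)
    (fun hI hIJ _ hv => ⟨M.mono hI hIJ hv.1, (Submodule.mem_iInf _).2 fun h =>
      (Submodule.mem_iInf _).1 hv.2 (h.mono hI hIJ)⟩)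
    (fun hI a ha v hv => ⟨M.A_smul hI a ha v hv.1, (Submodule.mem_iInf _).2 fun h =>
      P.smul_mem ⟨a, h ha⟩ ((Submodule.mem_iInf _).1 hv.2 h)⟩)
    fun {I} hI i hi j v hv => by
      obtain ⟨N, hN⟩ := M.loc hI i hi j v hv.1
      refine ⟨1 + N, pow_smul_mem M hI hi j hN 1, (Submodule.mem_iInf _).2 fun h => ?_⟩
      by_cases h0 : x.val (X.t j / X.t i) = 0
      · rw [pow_add, mul_smul, pow_one]
        exact hP (mem_m_smul (h.div_mem hi j) h0 (h.mem_loc hI hN))
      · exact P.smul_mem ⟨_, pow_mem (h.div_mem hi j) _⟩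
          ((Submodule.mem_iInf _).1 hv.2 (h.insert hi h0))

section Mod
variable {M N : XLat X V} {x : Pnt X} {P : Submodule x.O V} {hP : x.m • x.loc M ≤ P}

theorem mem_modX {J : Finset (Fin (n + 1))} {v : V} :
    v ∈ (modX M x P hP).M J ↔ v ∈ M.M J ∧ (x.In J → v ∈ P) :=
  and_congr_right fun _ => Submodule.mem_iInf _

theorem modX_le : (modX M x P hP).toFam.LE M.toFam := fun _ _ _ h => h.1

theorem loc_modX : x.loc (modX M x P hP) = x.loc M ⊓ P :=
  le_antisymm (fun _ ⟨b, hb, h0, h⟩ => ⟨⟨b, hb, h0, h.1⟩, of_smul_mem h0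
    ((mem_modX.1 h).2 x.in_i)⟩) fun _ ⟨⟨b, hb, h0, h⟩, h'⟩ =>
      ⟨b, hb, h0, mem_modX.2 ⟨h, fun _ => P.smul_mem ⟨b, x.in_i hb⟩ h'⟩⟩

theorem loc_modX_ne {y : Pnt X} (hy : y ≠ x) : y.loc (modX M x P hP) = y.loc M := by
  refine le_antisymm (loc_mono modX_le) fun v ⟨b, hb, h0, h⟩ => ?_
  by_cases hx : x.In {y.i}
  · obtain ⟨a, ha, h1, h2⟩ := exists_sep hy (sne _) hx y.in_i
    refine ⟨a * b, mul_mem ha hb, val_mul_ne h2 h0, ?_⟩
    rw [mul_smul]
    exact mem_modX.2 ⟨M.A_smul (sne _) _ ha _ h, fun _ =>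
      hP (mem_m_smul (hx ha) h1 (hx.mem_loc (sne _) h))⟩
  · exact ⟨b, hb, h0, mem_modX.2 ⟨h, fun h => absurd h hx⟩⟩

theorem elem_modX : Elem x (modX M x P hP) M :=
  ⟨modX_le, fun _ hy => (loc_modX_ne hy).ge, by
    rw [loc_modX]; exact le_inf Submodule.smul_le_right hP⟩

theorem le_modX (h : N.toFam.LE M.toFam) (h' : x.loc N ≤ P) : N.toFam.LE (modX M x P hP).toFam :=
  fun I hI _ hv => mem_modX.2 ⟨h I hI hv, fun hx => h' (hx.mem_loc hI hv)⟩

theorem mem_Gm_modX {e : ℤ} {v : V} :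
    v ∈ Gm (modX M x P hP).toLat e ↔ v ∈ Gm M.toLat e ∧ X.t x.i ^ (-e) • v ∈ P := by
  refine ⟨fun h => ⟨Gm_mono modX_le e h, (mem_modX.1 (mem_Gm.1 h _)).2 x.in_i⟩, fun ⟨h, h'⟩ =>
    mem_Gm.2 fun j => mem_modX.2 ⟨mem_Gm.1 h j, fun hj => ?_⟩⟩
  refine of_smul_mem (val_zpow_ne (hj.val_div x.in_i (Finset.mem_singleton_self _)
    (Finset.mem_singleton_self _)) e) ?_
  rwa [smul_smul, div_zpow, div_mul_eq_mul_div, ← zpow_add₀ (X.t_ne j), add_neg_cancel, zpow_zero,
    one_div, ← zpow_neg]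

end Mod

/-- `m_x M` -/
def mX (x : Pnt X) (M : XLat X V) : XLat X V := modX M x (x.m • x.loc M) le_rfl

theorem loc_mX (x : Pnt X) (M : XLat X V) : x.loc (mX x M) = x.m • x.loc M :=
  loc_modX.trans (inf_eq_right.2 Submodule.smul_le_right)
theorem loc_mX_ne {x y : Pnt X} (h : y ≠ x) (M : XLat X V) : y.loc (mX x M) = y.loc M :=
  loc_modX_ne h
theorem elem_mX (x : Pnt X) (M : XLat X V) : Elem x (mX x M) M := elem_modX
theorem mem_Gm_mX {x : Pnt X} {M : XLat X V} {e : ℤ} {v : V} : v ∈ Gm (mX x M).toLat e ↔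
    v ∈ Gm M.toLat e ∧ X.t x.i ^ (-e) • v ∈ x.m • x.loc M := mem_Gm_modX

theorem mem_m_smul_OX {x : Pnt X} {f : F} : f ∈ x.m • x.loc (OX X) ↔ f ∈ x.O ∧ x.val f = 0 := by
  constructor
  · intro h
    refine Submodule.smul_induction_on (p := fun f => f ∈ x.O ∧ x.val f = 0) h
      (fun a ha g hg => ?_) fun a b ha hb =>
        ⟨add_mem ha.1 hb.1, by rw [val_add ha.1 hb.1, ha.2, hb.2, add_zero]⟩
    rw [mem_loc_OX] at hg
    exact ⟨mul_mem a.2 hg, (val_mul a.2 hg).trans (by rw [mem_m.1 ha, zero_mul])⟩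
  · intro h
    simpa using mem_m_smul h.1 h.2 (mem_loc_OX.2 (one_mem _))

/-- forms of degree `e` that vanish at `x` -/
def van (x : Pnt X) (e : ℤ) : Submodule k F := Gm (mX x (OX X)).toLat e

theorem mem_van {x : Pnt X} {e : ℤ} {a : F} :
    a ∈ van x e ↔ a ∈ AA X e ∧ x.val (X.t x.i ^ (-e) * a) = 0 :=
  mem_Gm_mX.trans (and_congr_right fun h => mem_m_smul_OX.trans (and_iff_right (AA_mem_O h)))

theorem van_le (x : Pnt X) (e : ℤ) : van x e ≤ AA X e := fun _ h => (mem_van.1 h).1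

theorem van_smul_mem {x : Pnt X} {M : XLat X V} {e f : ℤ} {a : F} (ha : a ∈ van x e) {v : V}
    (hv : v ∈ Gm M.toLat f) : a • v ∈ Gm (mX x M).toLat (e + f) := by
  refine mem_Gm_mX.2 ⟨AA_smul_mem (van_le x e ha) hv, ?_⟩
  have := mem_m_smul (AA_mem_O (van_le x e ha)) (mem_van.1 ha).2 (Gm_mem_loc (x := x) hv)
  rwa [smul_smul, mul_right_comm, ← zpow_add₀ (X.t_ne _), ← neg_add, mul_smul] at this

theorem van_smul_le (x : Pnt X) (M : XLat X V) (e f : ℤ) :
    van x e • Gm M.toLat f ≤ Gm (mX x M).toLat (e + f) :=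
  Submodule.smul_le.2 fun _ ha _ hv => van_smul_mem ha hv

/-- `M` is free at `x` with basis `b` -/
def FreeAt (x : Pnt X) (M : XLat X V) {ι : Type} (b : Basis ι F V) : Prop :=
  ∀ v, v ∈ x.loc M ↔ ∀ a, b.repr v a ∈ x.O

/-- locally free -/
def LocF (M : XLat X V) : Prop := ∀ x : Pnt X, ∃ b : Basis (Fin (finrank F V)) F V, FreeAt x M b

theorem FreeAt.basis_mem {x : Pnt X} {M : XLat X V} {ι : Type} {b : Basis ι F V} (h : FreeAt x M b)
    (a : ι) : b a ∈ x.loc M := (h _).2 fun c => by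
  classical
  rw [b.repr_self, Finsupp.single_apply]
  split_ifs
  exacts [one_mem _, zero_mem _]

theorem FreeAt.mem_m {x : Pnt X} {M : XLat X V} {ι : Type} [Finite ι] {b : Basis ι F V}
    (h : FreeAt x M b) {v : V} :
    v ∈ x.m • x.loc M ↔ ∀ a, b.repr v a ∈ x.O ∧ x.val (b.repr v a) = 0 := by
  have := Fintype.ofFinite ι
  constructor
  · intro hv a
    refine Submodule.smul_induction_on (p := fun v => b.repr v a ∈ x.O ∧ x.val (b.repr v a) = 0) hv
      (fun c hc w hw => ?_) fun v w hv hw => ?_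
    · have h1 := (h w).1 hw a
      rw [Subalgebra.smul_def, map_smul, Finsupp.smul_apply, smul_eq_mul]
      exact ⟨mul_mem c.2 h1, by rw [val_mul c.2 h1, Pnt.mem_m.1 hc, zero_mul]⟩
    · rw [map_add, Finsupp.add_apply]
      exact ⟨add_mem hv.1 hw.1, by rw [val_add hv.1 hw.1, hv.2, hw.2, add_zero]⟩
  · intro hv
    rw [← b.sum_repr v]
    exact Submodule.sum_mem _ fun a _ => mem_m_smul (hv a).1 (hv a).2 (h.basis_mem a)

theorem FreeAt.mem_homX {x : Pnt X} {M : XLat X V} {ι : Type} [Finite ι] {b : Basis ι F V}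
    (h : FreeAt x M b) {hM : XFull M} {N : XLat X W} {φ : V →ₗ[F] W} :
    φ ∈ x.loc (homX M hM N) ↔ ∀ a, φ (b a) ∈ x.loc N := by
  have := Fintype.ofFinite ι
  refine mem_loc_homX.trans ⟨fun H a => H _ (h.basis_mem a), fun H v hv => ?_⟩
  rw [← b.sum_repr v, map_sum]
  exact Submodule.sum_mem _ fun a _ => by rw [map_smul]; exact smul_loc ((h v).1 hv a) (H a)

theorem xfull_of_single {M : XLat X V} {i : Fin (n + 1)}
    (h : Submodule.span F (M.M {i} : Set V) = ⊤) : XFull M := fun I hI => by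
  classical
  refine eq_top_iff.2 (h.ge.trans (Submodule.span_le.2 fun v hv => ?_))
  obtain ⟨N, hN⟩ := loc_set M.toLat hI.choose_spec (Finset.subset_union_right (s₁ := {i}))
    (M.mono (sne i) Finset.subset_union_left hv)
  exact (Submodule.smul_mem_iff _ (pow_ne_zero _ (Finset.prod_ne_zero_iff.2 fun j _ =>
    div_ne_zero (X.t_ne _) (X.t_ne _)))).1 (Submodule.subset_span (hN N le_rfl))

theorem xfull_of_loc {x : Pnt X} {M : XLat X V} (h : Submodule.span F (x.loc M : Set V) = ⊤) :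
    XFull M := xfull_of_single (i := x.i) (eq_top_iff.2 (h.ge.trans (Submodule.span_le.2
      fun _ ⟨_, _, h0, hv⟩ => (Submodule.smul_mem_iff _ (ne_of_val h0)).1
        (Submodule.subset_span hv))))

theorem FreeAt.xfull {x : Pnt X} {M : XLat X V} {ι : Type} {b : Basis ι F V} (h : FreeAt x M b) :
    XFull M := xfull_of_loc (x := x) (eq_top_iff.2 (b.span_eq.ge.trans (Submodule.span_mono
      (Set.range_subset_iff.2 h.basis_mem))))

theorem XFull.span_loc {M : XLat X V} (h : XFull M) (x : Pnt X) :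
    Submodule.span F (x.loc M : Set V) = ⊤ :=
  eq_top_iff.2 ((h _ (sne x.i)).ge.trans (Submodule.span_mono fun _ hv => mem_loc_i hv))

theorem div_ne_const {i j : Fin (n + 1)} (hj : j ≠ i) (c : k) :
    X.t j / X.t i - algebraMap k F c ≠ 0 := fun h => by
  classical
  have h3 : ∏ l, X.t l ^ (Pi.single j 1 - Pi.single i 1 : Fin (n + 1) → ℤ) l
      = X.t j / X.t i := by
    simp only [Pi.sub_apply, zpow_sub₀ (X.t_ne _), Finset.prod_div_distrib, Pi.single_apply]
    simp [apply_ite]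
  have h4 := (X.indep.comp ![⟨Pi.single j 1 - Pi.single i 1, by simp [Finset.sum_sub_distrib]⟩,
    ⟨0, by simp⟩] (by
      intro a b hab
      have : (Pi.single j 1 - Pi.single i 1 : Fin (n + 1) → ℤ) ≠ 0 := fun h => by
        simpa [hj] using congrFun h j
      fin_cases a <;> fin_cases b <;> simp_all))
  have h5 := (Fintype.linearIndependent_iff.1 h4) ![1, -c] (by
    simp only [Fin.sum_univ_two, Function.comp_apply, Matrix.cons_val_zero, Matrix.cons_val_one, h3]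
    simpa [Algebra.algebraMap_eq_smul_one, sub_eq_add_neg] using h) 0
  simp at h5

theorem Pnt.exists_m_ne (hn : 0 < n) (x : Pnt X) : ∃ a ∈ x.O, x.val a = 0 ∧ a ≠ 0 := by
  have : Nontrivial (Fin (n + 1)) := Fin.nontrivial_iff_two_le.2 (by omega)
  obtain ⟨j, hj⟩ := exists_ne x.i
  have h1 := x.in_i.div_mem (Finset.mem_singleton_self _) j
  exact ⟨_, sub_mem h1 (x.O.algebraMap_mem _), val_sub_const h1, div_ne_const hj _⟩

theorem xfull_mX (hn : 0 < n) (x : Pnt X) {M : XLat X V} (h : XFull M) : XFull (mX x M) := by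
  obtain ⟨a, h1, h2, h3⟩ := x.exists_m_ne hn
  refine xfull_of_loc (x := x) (eq_top_iff.2 ((XFull.span_loc h x).ge.trans
    (Submodule.span_le.2 fun v hv => (Submodule.smul_mem_iff _ h3).1 (Submodule.subset_span ?_))))
  rw [loc_mX]
  exact mem_m_smul h1 h2 hv

variable [IsAlgClosed k]

namespace Elem
variable {x : Pnt X} {N M : XLat X V}

theorem fc (h : Elem x N M) : FC N M := by
  refine ⟨h.le, fun i => ?_⟩
  have H : ∀ a : X.A {i}, (x.In {i} → x.val a = 0) → a ∈ ann N M i := fun a ha v hv =>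
    mem_of_loc (sne i) fun y hy => by
      by_cases e : y = x
      · subst e
        exact h.m (mem_m_smul (hy a.2) (ha hy) (hy.mem_loc (sne i) hv))
      · exact h.off y e (smul_loc (hy a.2) (hy.mem_loc (sne i) hv))
  by_cases hx : x.In {i}
  · let ψ : X.A {i} →ₐ[k] k := x.ev.comp (Subalgebra.inclusion hx)
    have hm := RingHom.ker_isMaximal_of_surjective ψ fun c => ⟨algebraMap k _ c, ψ.commutes c⟩
    refine dimLT_one fun P Q _ hQ h1 h2 => hQ.ne_top (hm.1.2 _ (lt_of_le_of_lt ?_ h2))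
    exact le_trans (fun a ha => H a fun _ => ha) h1
  · exact (dimLT_top 1).mono (fun a _ => H a fun h => absurd h hx) le_rfl

theorem mem_Gm (h : Elem x N M) {e : ℤ} {v : V} :
    v ∈ Gm N.toLat e ↔ v ∈ Gm M.toLat e ∧ X.t x.i ^ (-e) • v ∈ x.loc N :=
  ⟨fun hv => ⟨Gm_mono h.le e hv, Gm_mem_loc hv⟩, fun hv => mem_Gm_of_loc fun y => by
    by_cases e : y = x
    · exact e ▸ hv.2
    · exact h.off y e (Gm_mem_loc hv.1)⟩

theorem mX_le (h : Elem x N M) : (mX x M).toFam.LE N.toFam := le_of_loc fun y => by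
  by_cases e : y = x
  · subst e
    exact (loc_mX y M).le.trans h.m
  · exact (loc_mX_ne e M).le.trans (h.off y e)

/-- sections of large degree fill `M_x / N_x` -/
theorem ev_surj (h : Elem x N M) : ∀ᶠ e in atTop, ∀ v ∈ x.loc M, ∃ g ∈ Gm M.toLat e,
    v - X.t x.i ^ (-e) • g ∈ x.loc N := by
  obtain ⟨e, r, g, hg, hle⟩ := exists_gens M
  refine (eventually_ge_atTop e).mono fun e' he v hv => ?_
  obtain ⟨j, rfl⟩ : ∃ j : ℕ, e' = j + e := ⟨(e' - e).toNat, by omega⟩
  obtain ⟨c, hc, rfl⟩ := mem_loc_genX.1 (loc_mono hle hv)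
  refine ⟨∑ a, x.val (c a) • X.t x.i ^ j • g a, Submodule.sum_mem _ fun a _ =>
    Submodule.smul_mem _ _ (AA_smul_mem (T1_pow_le_AA j
      (Submodule.pow_mem_pow _ (t_mem_T1 x.i) j)) (hg a)), ?_⟩
  rw [Finset.smul_sum, ← Finset.sum_sub_distrib]
  refine Submodule.sum_mem _ fun a _ => ?_
  rw [smul_comm (_ ^ (-(j + e))), smul_smul _ (_ ^ j), ← zpow_natCast, ← zpow_add₀ (X.t_ne _),
    show -(j + e) + j = -e by ring]
  exact h.m (smul_sub_mem (hc a) (Gm_mem_loc (hg a)))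

/-- **the colength is the codimension of the stalks** -/
theorem len_eq (h : Elem x N M) {E : Type*} [AddCommGroup E] [Module k E]
    (lam : x.loc M →ₗ[k] E) (hs : Function.Surjective lam)
    (hk : ∀ v, lam v = 0 ↔ v.1 ∈ x.loc N) : len N M = finrank k E := by
  obtain ⟨e, h1, h2⟩ := (h.fc.ev_finrank.and h.ev_surj).exists
  let ρ : Gm M.toLat e →ₗ[k] x.loc M :=
    { toFun := fun g => ⟨_, Gm_mem_loc g.2⟩
      map_add' := fun _ _ => Subtype.ext (smul_add _ _ _)
      map_smul' := fun _ _ => Subtype.ext (smul_comm _ _ _) }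
  have h3 := (lam ∘ₗ ρ).finrank_range_add_finrank_ker
  have h4 : LinearMap.range (lam ∘ₗ ρ) = ⊤ := LinearMap.range_eq_top.2 fun z => by
    obtain ⟨v, rfl⟩ := hs z
    obtain ⟨g, hg, h5⟩ := h2 v v.2
    exact ⟨⟨g, hg⟩, (sub_eq_zero.1 ((map_sub lam _ _).symm.trans ((hk _).2 h5))).symm⟩
  have h5 : LinearMap.ker (lam ∘ₗ ρ) = (Gm N.toLat e).comap (Gm M.toLat e).subtype :=
    Submodule.ext fun g => (hk _).trans (h.mem_Gm.trans (and_iff_right g.2)).symm
  rw [h4, h5, finrank_top, (Submodule.comapSubtypeEquivOfLe (Gm_mono h.le e)).finrank_eq] at h3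
  omega

theorem congr {N' M' : XLat X V} (h : Elem x N M) (e : Eqv N.toFam N'.toFam)
    (e' : Eqv M.toFam M'.toFam) : Elem x N' M' :=
  ⟨(e.symm.le.trans h.le).trans e'.le, fun y hy => by
    rw [← loc_congr e, ← loc_congr e']; exact h.off y hy,
    by rw [← loc_congr e, ← loc_congr e']; exact h.m⟩

end Elem

theorem len_mX {x : Pnt X} {M : XLat X V} {ι : Type} [Fintype ι] {b : Basis ι F V}
    (h : FreeAt x M b) : len (mX x M) M = Fintype.card ι := by
  let lam : x.loc M →ₗ[k] ι → k :=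
    { toFun := fun v a => x.val (b.repr v a)
      map_add' := fun v w => funext fun a => by
        simp only [Submodule.coe_add, map_add, Finsupp.add_apply, Pi.add_apply]
        exact val_add ((h _).1 v.2 a) ((h _).1 w.2 a)
      map_smul' := fun c v => funext fun a => by
        change x.val (b.repr (c • v.1) a) = _
        rw [← algebraMap_smul F c, map_smul, Finsupp.smul_apply, algebraMap_smul]
        exact val_smul c ((h _).1 v.2 a) }
  have hr : ∀ (c : ι → F) a, b.repr (b.equivFun.symm c) a = c a := fun c a =>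
    congrFun (b.equivFun.apply_symm_apply c) a
  rw [(elem_mX x M).len_eq lam (fun c => ⟨⟨b.equivFun.symm fun a => algebraMap k F (c a),
    (h _).2 fun a => (hr _ a).symm ▸ x.O.algebraMap_mem _⟩, funext fun a =>
      (congrArg x.val (hr _ a)).trans (val_const _)⟩) fun v => by
      rw [loc_mX, h.mem_m, funext_iff]
      exact forall_congr' fun a => (and_iff_right ((h _).1 v.2 a)).symm, finrank_fintype_fun_eq_card]

namespace One
variable {x : Pnt X} {N M : XLat X V}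

/-- the functional that cuts out `N` -/
theorem exists_fun (h : One x N M) : ∃ μ : x.loc M →ₗ[k] k, Function.Surjective μ ∧
    (∀ v, μ v = 0 ↔ v.1 ∈ x.loc N) ∧ ∀ (a : x.O) v, μ (a • v) = x.val a * μ v := by
  obtain ⟨v, hv, h1, h2⟩ := h.ex
  choose c hc using h2
  have hu : ∀ w hw d, w - d • v ∈ x.loc N → c w hw = d := fun w hw d hd => by
    by_contra hne
    have := csmul_mem (c w hw - d)⁻¹ (sub_mem hd (hc w hw))
    rw [sub_sub_sub_cancel_left, ← sub_smul, smul_smul, inv_mul_cancel₀ (sub_ne_zero.2 hne),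
      one_smul] at this
    exact h1 this
  refine ⟨⟨⟨fun w => c w w.2, fun w w' => hu _ _ _ ?_⟩, fun d w => hu _ _ _ ?_⟩,
    fun d => ⟨⟨_, csmul_mem d hv⟩, hu _ _ _ (by simp)⟩, fun w => ⟨fun h0 => ?_, fun h0 =>
      hu _ w.2 _ (by simpa using h0)⟩, fun a w => hu _ _ _ ?_⟩
  · convert add_mem (hc _ w.2) (hc _ w'.2) using 1
    rw [add_smul, Submodule.coe_add]
    abel
  · convert csmul_mem d (hc _ w.2) using 1
    simp [smul_sub, mul_smul]
  · have := hc _ w.2
    rwa [show c w w.2 = 0 from h0, zero_smul, sub_zero] at this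
  · convert add_mem (h.m (smul_sub_mem a.2 w.2)) (csmul_mem (x.val a) (hc _ w.2)) using 1
    simp [smul_sub, mul_smul, Subalgebra.smul_def]

theorem fc (h : One x N M) : FC N M := h.toElem.fc

theorem len (h : One x N M) : len N M = 1 := by
  obtain ⟨μ, h1, h2, -⟩ := h.exists_fun
  rw [h.len_eq μ h1 h2, finrank_self]

theorem congr {N' M' : XLat X V} (h : One x N M) (e : Eqv N.toFam N'.toFam)
    (e' : Eqv M.toFam M'.toFam) : One x N' M' :=
  ⟨h.toElem.congr e e', by rw [← loc_congr e, ← loc_congr e']; exact h.ex⟩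

theorem of_fun (h : Elem x N M) (μ : x.loc M →ₗ[k] k) (hs : μ ≠ 0)
    (hk : ∀ v, μ v = 0 ↔ v.1 ∈ x.loc N) : One x N M := by
  obtain ⟨v, hv⟩ := DFunLike.ne_iff.1 hs
  exact ⟨h, v, v.2, fun h => hv ((hk v).2 h), fun w hw => ⟨μ ⟨w, hw⟩ / μ v,
    (hk (⟨w, hw⟩ - _ • v)).1 (by rw [map_sub, map_smul, smul_eq_mul, div_mul_cancel₀ _ hv, sub_self])⟩⟩

end One

/-- a hyperplane of the fibre gives a sublattice of colength one -/
theorem exists_one_of_fun {x : Pnt X} {M : XLat X V} (μ : x.loc M →ₗ[k] k) (h0 : μ ≠ 0)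
    (hm : ∀ v : x.loc M, v.1 ∈ x.m • x.loc M → μ v = 0) :
    ∃ N, One x N M ∧ ∀ v, μ v = 0 ↔ v.1 ∈ x.loc N := by
  let P : Submodule x.O V :=
    { carrier := {v | ∃ h : v ∈ x.loc M, μ ⟨v, h⟩ = 0}
      zero_mem' := ⟨zero_mem _, map_zero μ⟩
      add_mem' := fun ⟨h, e⟩ ⟨h', e'⟩ =>
        ⟨add_mem h h', (map_add μ ⟨_, h⟩ ⟨_, h'⟩).trans (by rw [e, e', add_zero])⟩
      smul_mem' := fun a v ⟨h, e⟩ => ⟨smul_loc a.2 h, by
        have := hm (a • ⟨v, h⟩ - x.val a • ⟨v, h⟩) (smul_sub_mem a.2 h)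
        rwa [map_sub, map_smul μ (x.val a), e, smul_zero, sub_zero] at this⟩ }
  have hP : x.m • x.loc M ≤ P := fun v hv => ⟨Submodule.smul_le_right hv, hm _ hv⟩
  have hk : ∀ v, μ v = 0 ↔ v.1 ∈ x.loc (modX M x P hP) := fun v => by
    rw [loc_modX]
    exact ⟨fun h => ⟨v.2, v.2, h⟩, fun h => h.2.2⟩
  exact ⟨_, One.of_fun elem_modX μ h0 hk, hk⟩

/-- a socle vector gives an overlattice of colength one -/
theorem exists_up (hn : 0 < n) {x : Pnt X} {N : XLat X V} {v : V} (hv : v ∉ x.loc N)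
    (hm : ∀ a ∈ x.O, x.val a = 0 → a • v ∈ x.loc N) : ∃ M, One x N M ∧ v ∈ x.loc M := by
  let g : V →ₗ[F] F →ₗ[F] V := (LinearMap.lsmul F V).flip
  have hg : Function.Injective g := fun v w h => by simpa [g] using DFunLike.congr_fun h 1
  let S := comapX (homX _ (xfull_mX hn x OX_full) N) g hg
  have hS : ∀ (y : Pnt X) w, w ∈ y.loc S ↔ ∀ a ∈ y.loc (mX x (OX X)), a • w ∈ y.loc N :=
    fun y w => mem_loc_comapX.trans mem_loc_homX
  have hx : ∀ w, w ∈ x.loc S ↔ ∀ a ∈ x.O, x.val a = 0 → a • w ∈ x.loc N := fun w => by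
    simp only [hS, loc_mX, mem_m_smul_OX, and_imp]
  have hle : N.toFam.LE S.toFam := le_of_loc fun y w hw => (hS y w).2 fun a ha =>
    smul_loc (mem_loc_OX.1 (loc_mono (elem_mX x _).le ha)) hw
  have h1 : x.m • x.loc S ≤ x.loc N := m_smul_le fun a ha h0 w hw => (hx w).1 hw a ha h0
  have hP : x.m • x.loc S ≤ x.loc N ⊔ Submodule.span x.O {v} := h1.trans le_sup_left
  have h2 : v ∈ x.loc (modX S x _ hP) := by
    rw [loc_modX]
    exact ⟨(hx v).2 hm, Submodule.mem_sup_right (Submodule.mem_span_singleton_self v)⟩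
  refine ⟨_, ⟨⟨le_modX hle le_sup_left, fun y hy w hw => ?_,
    (smul_mono_right _ (loc_mono modX_le)).trans h1⟩, v, h2, hv, fun w hw => ?_⟩, h2⟩
  · simpa using (hS y w).1 (loc_mono modX_le hw) 1 (by
      rw [loc_mX_ne hy, mem_loc_OX]; exact one_mem _)
  · rw [loc_modX] at hw
    obtain ⟨y, hy, z, hz, rfl⟩ := Submodule.mem_sup.1 hw.2
    obtain ⟨a, rfl⟩ := Submodule.mem_span_singleton.1 hz
    refine ⟨x.val a, ?_⟩
    rw [add_sub_assoc]
    exact add_mem hy (h1 (smul_sub_mem a.2 ((hx v).2 hm)))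

/-- an overlattice of colength one is determined by one new vector -/
theorem One.eqv_up {x : Pnt X} {N M M' : XLat X V} (h : One x N M) (h' : One x N M') {v : V}
    (hv : v ∉ x.loc N) (h1 : v ∈ x.loc M) (h2 : v ∈ x.loc M') : Eqv M.toFam M'.toFam := by
  have key : ∀ {M M' : XLat X V}, One x N M → One x N M' → v ∈ x.loc M → v ∈ x.loc M' →
      M.toFam.LE M'.toFam := fun {M M'} h h' h1 h2 => le_of_loc fun y w hw => by
    by_cases e : y = x
    · subst e
      obtain ⟨μ, -, hk, -⟩ := h.exists_fun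
      have h3 : μ ⟨v, h1⟩ ≠ 0 := fun h0 => hv ((hk _).1 h0)
      have h4 := (hk (⟨w, hw⟩ - (μ ⟨w, hw⟩ / μ ⟨v, h1⟩) • ⟨v, h1⟩)).1 (by
        rw [map_sub, map_smul, smul_eq_mul, div_mul_cancel₀ _ h3, sub_self])
      simpa using add_mem (loc_mono h'.le h4) (csmul_mem (μ ⟨w, hw⟩ / μ ⟨v, h1⟩) h2)
    · exact loc_mono h'.le (h.off y e hw)
  exact eqv_of_le (key h h' h1 h2) (key h' h h2 h1)

/-! ### chains -/

theorem exists_one_top {N M : XLat X V} (h : N.toFam.LE M.toFam) (hne : ¬ M.toFam.LE N.toFam) :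
    ∃ x M', One x M' M ∧ N.toFam.LE M'.toFam := by
  obtain ⟨x, hx⟩ := not_forall.1 fun H => hne (le_of_loc H)
  obtain ⟨v, hv, h1⟩ := SetLike.not_le_iff_exists.1 fun H => hx (nak (fg_loc M) H)
  obtain ⟨f, hf, h2⟩ := Submodule.exists_dual_map_eq_bot_of_notMem
    (p := (x.loc N ⊔ x.m • x.loc M).restrictScalars k) h1 inferInstance
  have h3 : ∀ w ∈ x.loc N ⊔ x.m • x.loc M, f w = 0 := fun w hw =>
    (Submodule.mem_bot k).1 (h2 ▸ Submodule.mem_map_of_mem hw)
  obtain ⟨M', h4, h5⟩ := exists_one_of_fun (f ∘ₗ ((x.loc M).subtype.restrictScalars k))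
    (fun h0 => hf (DFunLike.congr_fun h0 ⟨v, hv⟩)) fun w hw => h3 _ (Submodule.mem_sup_right hw)
  refine ⟨x, M', h4, le_of_loc fun y w hw => ?_⟩
  by_cases e : y = x
  · subst e
    exact (h5 ⟨w, loc_mono h hw⟩).1 (h3 _ (Submodule.mem_sup_left hw))
  · exact h4.off y e (loc_mono h hw)

namespace FC
variable {N M : XLat X V}

theorem exists_top (h : FC N M) {l : ℕ} (hl : len N M = l + 1) :
    ∃ x M', One x M' M ∧ FC N M' ∧ len N M' = l := by
  obtain ⟨x, M', h1, h2⟩ := exists_one_top h.le fun H => by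
    rw [len_congr h.le (eqv_of_le h.le H) (fun _ _ => rfl), len_self] at hl
    omega
  have h3 := h.left h2 h1.le
  have h4 := h3.len_trans h1.fc
  rw [h1.len] at h4
  exact ⟨x, M', h1, h3, by omega⟩

theorem one (h : FC N M) (hl : len N M = 1) : ∃ x, One x N M :=
  let ⟨x, _, h1, h2, h3⟩ := h.exists_top (l := 0) hl
  ⟨x, h1.congr (h2.eqv_of_len h3).symm fun _ _ => rfl⟩

theorem exists_bot (h : FC N M) {l : ℕ} (hl : len N M = l + 1) :
    ∃ x N', One x N N' ∧ FC N' M ∧ len N' M = l := by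
  induction l generalizing M with
  | zero =>
    obtain ⟨x, hx⟩ := h.one hl
    exact ⟨x, M, hx, refl M, len_self M⟩
  | succ l ih =>
    obtain ⟨y, M', h1, h2, h3⟩ := h.exists_top hl
    obtain ⟨x, N', h4, h5, h6⟩ := ih h2 h3
    exact ⟨x, N', h4, h5.trans h1.fc, by rw [h5.len_trans h1.fc, h6, h1.len]⟩

end FC

/-! ### `Hom(B, -)` for locally free `B` -/

theorem One.len_homX {x : Pnt X} {N M : XLat X W} (h : One x N M) {B : XLat X V} {ι : Type}
    [Fintype ι] {b : Basis ι F V} (hb : FreeAt x B b) (hB : XFull B) :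
    Fib.len (homX B hB N) (homX B hB M) = Fintype.card ι := by
  obtain ⟨μ, h1, h2, -⟩ := h.exists_fun
  have E : Elem x (homX B hB N) (homX B hB M) := ⟨homX_mono h.le, fun y hy φ hφ =>
    mem_loc_homX.2 fun v hv => h.off y hy (mem_loc_homX.1 hφ v hv), m_smul_le fun a ha h0 φ hφ =>
      mem_loc_homX.2 fun v hv => h.m (mem_m_smul ha h0 (mem_loc_homX.1 hφ v hv))⟩
  let lam : x.loc (homX B hB M) →ₗ[k] ι → k :=
    { toFun := fun φ a => μ ⟨φ.1 (b a), hb.mem_homX.1 φ.2 a⟩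
      map_add' := fun φ ψ => funext fun a => map_add μ ⟨_, _⟩ ⟨_, _⟩
      map_smul' := fun c φ => funext fun a => map_smul μ c ⟨_, _⟩ }
  rw [E.len_eq lam (fun c => ?_) fun φ => ?_, finrank_fintype_fun_eq_card]
  · choose v hv using fun a => h1 (c a)
    exact ⟨⟨b.constr F fun a => v a, hb.mem_homX.2 fun a => by
      rw [b.constr_basis]; exact (v a).2⟩, funext fun a => (congrArg μ
        (Subtype.ext (b.constr_basis F _ a))).trans (hv a)⟩
  · rw [hb.mem_homX, funext_iff]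
    exact forall_congr' fun a => h2 _

theorem FC.len_homX [FiniteDimensional F V] {N M : XLat X W} (h : FC N M) {B : XLat X V}
    (hb : LocF B) (hB : XFull B) :
    len (Fib.homX B hB N) (Fib.homX B hB M) = finrank F V * len N M := by
  generalize hl : len N M = l
  induction l generalizing M with
  | zero =>
    have := h.eqv_of_len hl
    rw [len_congr (homX_mono h.le) (eqv_of_le (homX_mono h.le) (homX_mono this.symm.le))
      fun _ _ => rfl, len_self, mul_zero]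
  | succ l ih =>
    obtain ⟨x, M', h1, h2, h3⟩ := h.exists_top hl
    obtain ⟨b, hb'⟩ := hb x
    rw [h2.homX.len_trans h1.fc.homX, ih h2 h3, h1.len_homX hb', Fintype.card_fin, mul_add_one]

/-- `Hom(B, -)` preserves surjections -/
theorem LocF.surj_homX [FiniteDimensional F V] {B : XLat X V} (hb : LocF B) (hB : XFull B)
    {M : XLat X U} {N : XLat X W} {g : U →ₗ[F] W}
    (h : ∀ x : Pnt X, ∀ w ∈ x.loc N, ∃ v ∈ x.loc M, g v = w) (x : Pnt X) :
    ∀ ψ ∈ x.loc (homX B hB N), ∃ φ ∈ x.loc (homX B hB M), g ∘ₗ φ = ψ := fun ψ hψ => by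
  obtain ⟨b, hb'⟩ := hb x
  choose v h1 h2 using fun a => h x _ (hb'.mem_homX.1 hψ a)
  exact ⟨b.constr F v, hb'.mem_homX.2 fun a => by rw [b.constr_basis]; exact h1 a,
    b.ext fun a => by rw [LinearMap.comp_apply, b.constr_basis, h2]⟩

end Crest.Agent.N265.Fib
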