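import Crest.Agent.N265.Fib.Kos
import Crest.Agent.N265.Fib.P2
import Crest.Agent.N265.Ch.Top2

/-!
# Row 265, fibrewise theory (helper42): maps that send relations into a sublattice

* `fc_of_places` : finite colength is tested at the prime divisors; `exists_proj` : subspaces of
  `F^ι` split over a valuation ring;
* `capX X W = O^α ∩ W`, `MtX W M N = {φ : α → M | ∑ c a • φ a ∈ N for c ∈ O^α ∩ W}`;
* `van_MtX` : `H^i = 0`; `ev_MtX_sup`, `ev_MtX_surj` : exactness in large degree.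
-/

set_option autoImplicit false
set_option linter.unusedSectionVars false
noncomputable section

namespace Crest.Agent.N265.Fib.Hz

open Crest.Agent.R274
open Cx_781 Defs_781 Ses_781 Lat_781 Ser_781 SnapA_99 SnapB_99 SnapC_99 SnapD_99 SnapE_99 Gen7_750
open Xs1_781 Filter SkDefs_474 Module Pnt

universe u

variable {k : Type u} [Field k] {F : Type u} [Field F] [Algebra k F] {n : ℕ}
  {X : Defs_781.Var k F n}
  {U : Type u} [AddCommGroup U] [Module k U] [Module F U] [IsScalarTower k F U]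
  {V : Type u} [AddCommGroup V] [Module k V] [Module F V] [IsScalarTower k F V]

theorem XFull.exists_den {N : XLat X V} (h : XFull N) {I : Finset (Fin (n + 1))} (hI : I.Nonempty)
    (x : V) : ∃ b ∈ X.A I, b ≠ 0 ∧ b • x ∈ N.M I := by
  have hx : x ∈ Submodule.span F (N.M I : Set V) := (h I hI).ge trivial
  induction hx using Submodule.span_induction with
  | mem x hx => exact ⟨1, one_mem _, one_ne_zero, by rwa [one_smul]⟩
  | zero => exact ⟨1, one_mem _, one_ne_zero, by simp⟩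
  | add x y _ _ hx hy =>
    obtain ⟨b, hb, h0, hx⟩ := hx
    obtain ⟨c, hc, h1, hy⟩ := hy
    refine ⟨b * c, mul_mem hb hc, mul_ne_zero h0 h1, ?_⟩
    rw [smul_add]
    exact add_mem (by rw [mul_comm, mul_smul]; exact N.A_smul hI _ hc _ hx)
      (by rw [mul_smul]; exact N.A_smul hI _ hb _ hy)
  | smul a x _ hx =>
    obtain ⟨b, hb, h0, hx⟩ := hx
    obtain ⟨c, hc, d, hd, h1, rfl⟩ := X.frac hI a
    refine ⟨b * d, mul_mem hb hd, mul_ne_zero h0 h1, ?_⟩
    rw [smul_smul, mul_assoc, mul_div_cancel₀ _ h1, mul_comm, mul_smul]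
    exact N.A_smul hI _ hc _ hx

theorem xfull_of_den {N : XLat X V} {i : Fin (n + 1)}
    (h : ∀ x : V, ∃ b : F, b ≠ 0 ∧ b • x ∈ N.M {i}) : XFull N :=
  xfull_of_single (i := i) (eq_top_iff.2 fun x _ =>
    let ⟨_, h0, hx⟩ := h x
    (Submodule.smul_mem_iff _ h0).1 (Submodule.subset_span hx))

theorem XFull.of_le {N M : XLat X V} (h : XFull N) (le : N.toFam.LE M.toFam) : XFull M :=
  fun I hI => eq_top_iff.2 ((h I hI).ge.trans (Submodule.span_mono (le I hI)))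

theorem XFull.twX {N : XLat X V} (h : XFull N) (e : ℤ) : XFull (twX N e) :=
  xfull_of_den (i := 0) fun x =>
    let ⟨b, _, h0, hx⟩ := XFull.exists_den h (sne 0) (X.t 0 ^ (-e) • x)
    ⟨b, h0, (mem_twX (Finset.mem_singleton_self _)).2 (by rwa [smul_comm])⟩

/-- a common denominator with a multiplicative property -/
theorem common_den {ι : Type*} [Finite ι] {M : ι → XLat X V} {I : Finset (Fin (n + 1))}
    (hI : I.Nonempty) {p : F → Prop} (h1 : p 1) (hm : ∀ a b, p a → p b → p (a * b)) {v : ι → V}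
    (h : ∀ a, ∃ b ∈ X.A I, p b ∧ b • v a ∈ (M a).M I) :
    ∃ b ∈ X.A I, p b ∧ ∀ a, b • v a ∈ (M a).M I := by
  classical
  have := Fintype.ofFinite ι
  choose b h2 h3 h4 using h
  refine ⟨∏ a, b a, prod_mem fun a _ => h2 a, Finset.prod_induction _ p hm h1 fun a _ => h3 a,
    fun a => ?_⟩
  rw [← Finset.prod_erase_mul _ _ (Finset.mem_univ a), mul_smul]
  exact (M a).A_smul hI _ (prod_mem fun a _ => h2 a) _ (h4 a)

theorem XFull.piX {ι : Type} [Finite ι] {N : ι → XLat X V} (h : ∀ a, XFull (N a)) :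
    XFull (piX N) := xfull_of_den (i := 0) fun x =>
  let ⟨b, _, h0, hx⟩ := common_den (sne 0) (p := (· ≠ 0)) one_ne_zero
    (fun _ _ => mul_ne_zero) fun a => XFull.exists_den (h a) (sne 0) (x a)
  ⟨b, h0, mem_piFam.2 hx⟩

theorem exists_ann {N M : XLat X V} (i : Fin (n + 1)) {p : F → Prop} (h1 : p 1)
    (hm : ∀ a b, p a → p b → p (a * b))
    (h : ∀ x ∈ M.M {i}, ∃ b ∈ X.A {i}, p b ∧ b • x ∈ N.M {i}) : ∃ b ∈ ann N M i, p b := by
  obtain ⟨e, r, g, hg, hle⟩ := exists_gens M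
  obtain ⟨b, hb, h2, h3⟩ := common_den (M := fun _ => N) (sne i) h1 hm
    fun a => h _ (mem_Gm.1 (hg a) i)
  refine ⟨⟨b, hb⟩, fun x hx => ?_, h2⟩
  obtain ⟨c, hc, rfl⟩ := (mem_genX (Finset.mem_singleton_self i)).1 (hle _ (sne i) hx)
  rw [Finset.smul_sum]
  exact Submodule.sum_mem _ fun a _ => by
    rw [smul_comm]; exact N.A_smul (sne i) _ (hc a) _ (h3 a)

/-! ### prime divisors -/

section Places
variable (S : SmV k F n)

theorem mem_A_iff {i : Fin (n + 1)} {x : F} :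
    x ∈ S.X.A {i} ↔ ∀ v, S.on v {i} → x ∈ (S.pl.pl v).O := by
  rw [← mem_aI, ← S.T.zero (sne i), S.mem_O 0 (sne i)]
  simp only [Finsupp.zero_apply, add_zero, Ad1_269.Pl.mem_O]

/-- the prime ideal of a place -/
def plI {i : Fin (n + 1)} {v : S.P} (hv : S.on v {i}) : Ideal (S.X.A {i}) where
  carrier := {a | ¬ (a.1 ≠ 0 ∧ (S.pl.pl v).ord a = 0)}
  zero_mem' := fun h => h.1 rfl
  add_mem' := fun {a b} ha hb h => by
    by_cases ha0 : a.1 = 0
    · exact hb (by simpa [ha0] using h)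
    by_cases hb0 : b.1 = 0
    · exact ha (by simpa [hb0] using h)
    have h1 := (S.pl.pl v).ord_nonneg ((mem_A_iff S).1 a.2 v hv) ha0
    have h2 := (S.pl.pl v).ord_nonneg ((mem_A_iff S).1 b.2 v hv) hb0
    have h3 := (S.pl.pl v).ord_add ha0 hb0 h.1
    have h4 : (S.pl.pl v).ord (a.1 + b.1) = 0 := h.2
    have h5 : (S.pl.pl v).ord a ≠ 0 := fun h => ha ⟨ha0, h⟩
    have h6 : (S.pl.pl v).ord b ≠ 0 := fun h => hb ⟨hb0, h⟩
    omega
  smul_mem' := fun b a ha h => by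
    obtain ⟨hb0, ha0⟩ := mul_ne_zero_iff.1 (show b.1 * a.1 ≠ 0 from h.1)
    have h1 := (S.pl.pl v).ord_nonneg ((mem_A_iff S).1 a.2 v hv) ha0
    have h2 := (S.pl.pl v).ord_nonneg ((mem_A_iff S).1 b.2 v hv) hb0
    have h3 := (S.pl.pl v).ord_mul hb0 ha0
    have h4 : (S.pl.pl v).ord (b.1 * a.1) = 0 := h.2
    exact ha ⟨ha0, by omega⟩

theorem unit_mul (v : S.P) (a b : F) (ha : a ≠ 0 ∧ (S.pl.pl v).ord a = 0)
    (hb : b ≠ 0 ∧ (S.pl.pl v).ord b = 0) : a * b ≠ 0 ∧ (S.pl.pl v).ord (a * b) = 0 :=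
  ⟨mul_ne_zero ha.1 hb.1, by rw [(S.pl.pl v).ord_mul ha.1 hb.1, ha.2, hb.2, add_zero]⟩

theorem plI_prime {i : Fin (n + 1)} {v : S.P} (hv : S.on v {i}) : (plI S hv).IsPrime :=
  ⟨(Ideal.ne_top_iff_one _).2 fun h => h ⟨one_ne_zero, (S.pl.pl v).ord_one⟩, fun {a b} h => by
    by_contra hc
    rw [not_or] at hc
    exact h (unit_mul S v _ _ (not_not.1 hc.1) (not_not.1 hc.2))⟩

/-- a prime that contains `f ≠ 0` contains a prime divisor of `f` -/
theorem exists_plI_le {i : Fin (n + 1)} {f : S.X.A {i}} (hf : f.1 ≠ 0) {P : Ideal (S.X.A {i})}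
    (hP : P.IsPrime) (hfP : f ∈ P) : ∃ v, ∃ hv : S.on v {i}, f ∈ plI S hv ∧ plI S hv ≤ P := by
  classical
  by_contra hc
  have H : ∀ v, ∃ a : S.X.A {i}, a ∉ P ∧ ∀ hv : S.on v {i}, f ∈ plI S hv → a ∈ plI S hv := fun v => by
    by_cases h : ∃ hv : S.on v {i}, f ∈ plI S hv
    · obtain ⟨hv, h⟩ := h
      obtain ⟨a, h1, h2⟩ := SetLike.not_le_iff_exists.1 fun h' => hc ⟨v, hv, h, h'⟩
      exact ⟨a, h2, fun _ _ => h1⟩
    · exact ⟨1, (Ideal.ne_top_iff_one _).1 hP.ne_top, fun hv h' => absurd ⟨hv, h'⟩ h⟩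
  choose a h1 h2 using H
  let T := (S.pl.fin f hf).toFinset
  let c : S.X.A {i} := ∏ v ∈ T, a v ^ ((S.pl.pl v).ord f).toNat
  have ha0 : ∀ v, (a v).1 ≠ 0 := fun v h =>
    h1 v ((show a v = 0 from Subtype.ext h).symm ▸ P.zero_mem)
  have hcP : c ∉ P := Finset.prod_induction _ (· ∉ P)
    (fun _ _ h h' h'' => (hP.mem_or_mem h'').elim h h') ((Ideal.ne_top_iff_one _).1 hP.ne_top)
    fun v _ h => h1 v (hP.mem_of_pow_mem _ h)
  have hm : c.1 / f.1 ∈ S.X.A {i} := (mem_A_iff S).2 fun v hv => by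
    by_cases h : v ∈ T
    · have e : c.1 = (∏ w ∈ T.erase v, a w ^ ((S.pl.pl w).ord f).toNat : S.X.A {i}).1 *
          (a v).1 ^ ((S.pl.pl v).ord f).toNat := by
        rw [← SubmonoidClass.coe_pow, ← MulMemClass.coe_mul, Finset.prod_erase_mul _ _ h]
      rw [e, mul_div_assoc]
      refine mul_mem ((mem_A_iff S).1 (Subtype.prop _) v hv) ((S.pl.pl v).mem_O_of ?_)
      have h3 := (S.pl.pl v).ord_nonneg ((mem_A_iff S).1 f.2 v hv) hf
      have h4 := (S.pl.pl v).ord_nonneg ((mem_A_iff S).1 (a v).2 v hv) (ha0 v)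
      have h5 : (S.pl.pl v).ord (a v) ≠ 0 := fun h0 => h2 v hv
        (fun h' => (Set.Finite.mem_toFinset _).1 h h'.2) ⟨ha0 v, h0⟩
      rw [(S.pl.pl v).ord_div (pow_ne_zero _ (ha0 v)) hf, (S.pl.pl v).ord_pow (ha0 v),
        Int.toNat_of_nonneg h3]
      nlinarith [show 1 ≤ (S.pl.pl v).ord (a v) by omega]
    · rw [div_eq_mul_inv]
      refine mul_mem ((mem_A_iff S).1 c.2 v hv) ((S.pl.pl v).mem_O_of ?_)
      rw [(S.pl.pl v).ord_inv hf, not_not.1 fun h' => h ((Set.Finite.mem_toFinset _).2 h'), neg_zero]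
  exact hcP ((Subtype.ext (div_mul_cancel₀ _ hf).symm : c = ⟨_, hm⟩ * f) ▸ P.mul_mem_left _ hfP)

end Places

/-- **finite colength is tested at the prime divisors** -/
theorem fc_of_places (S : SmV k F 2) {N M : XLat S.X V} (h : N.toFam.LE M.toFam) (hN : XFull N)
    (hp : ∀ i v, S.on v {i} → ∀ x ∈ M.M {i},
      ∃ b ∈ S.X.A {i}, (b ≠ 0 ∧ (S.pl.pl v).ord b = 0) ∧ b • x ∈ N.M {i}) : FC N M := by
  refine ⟨h, fun i => ?_⟩
  obtain ⟨f, hf, h0⟩ := exists_ann (N := N) (M := M) i (p := (· ≠ 0)) one_ne_zero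
    (fun _ _ => mul_ne_zero) fun x _ => XFull.exists_den hN (sne i) x
  have h1 : DimLT (Ideal.span {f}) 2 := (dimA S.X i ⊥).drop bot_le fun P hP hle => by
    rw [Ideal.minimalPrimes_eq_subsingleton_self] at hP
    exact h0 (congrArg Subtype.val (show f = 0 from
      hP.le (hle (Ideal.mem_span_singleton_self f))))
  refine h1.drop ((Ideal.span_singleton_le_iff_mem _).2 hf) fun P hP hle => ?_
  obtain ⟨v, hv, h2, h3⟩ := exists_plI_le S h0 hP.1.1 (hP.1.2 (Ideal.mem_span_singleton_self f))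
  obtain ⟨b, hb, h4⟩ := exists_ann i ⟨one_ne_zero, (S.pl.pl v).ord_one⟩ (unit_mul S v) (hp i v hv)
  exact hP.2 ⟨plI_prime S hv, (Ideal.span_singleton_le_iff_mem _).2 h2⟩ h3 (hle hb) h4

/-- subspaces of `F^ι` split over a valuation ring -/
theorem exists_proj (v : Ad1_269.Pl F) {ι : Type} [Fintype ι] (W : Submodule F (ι → F)) :
    ∃ π : (ι → F) →ₗ[F] (ι → F), (∀ x, π x ∈ W) ∧ (∀ w ∈ W, π w = w) ∧
      ∀ x, (∀ l, x l ∈ v.O) → ∀ l, π x l ∈ v.O := by
  classical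
  induction hd : finrank F W using Nat.strong_induction_on generalizing W with | _ d ih => ?_
  by_cases h0 : W = ⊥
  · exact ⟨0, fun _ => zero_mem _, fun w hw => ((Submodule.mem_bot F).1 (h0 ▸ hw)).symm,
      fun _ _ _ => zero_mem _⟩
  obtain ⟨w, hw, hw0⟩ := Submodule.exists_mem_ne_zero_of_ne_bot h0
  obtain ⟨i, hi, hmin⟩ := Finset.exists_min_image (Finset.univ.filter fun l => w l ≠ 0)
    (fun l => v.ord (w l)) (let ⟨l, hl⟩ := Function.ne_iff.1 hw0; ⟨l, by simpa using hl⟩)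
  have hi0 : w i ≠ 0 := (Finset.mem_filter.1 hi).2
  let w' := (w i)⁻¹ • w
  have h1 : w' ∈ W := W.smul_mem _ hw
  have h2 : w' i = 1 := inv_mul_cancel₀ hi0
  have h3 : ∀ l, w' l ∈ v.O := fun l => by
    by_cases hl : w l = 0
    · exact Or.inl (by simp [w', hl])
    · refine v.mem_O_of ?_
      have := hmin l (by simpa using hl)
      rw [show w' l = w l / w i from (div_eq_inv_mul _ _).symm, v.ord_div hl hi0]
      omega
  let τ : (ι → F) →ₗ[F] (ι → F) := (LinearMap.proj i : (ι → F) →ₗ[F] F).smulRight w'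
  have hτ : ∀ x, τ x = x i • w' := fun _ => rfl
  obtain ⟨π, p1, p2, p3⟩ := ih _ (hd ▸ Submodule.finrank_lt_finrank_of_lt
    (inf_lt_left.2 fun h => one_ne_zero (h2.symm.trans (h h1))))
    (W ⊓ LinearMap.ker (LinearMap.proj i : (ι → F) →ₗ[F] F)) rfl
  refine ⟨τ + π ∘ₗ (LinearMap.id - τ), fun x => add_mem (W.smul_mem _ h1) (p1 _).1,
    fun x hx => ?_, fun x hx l => add_mem (mul_mem (hx i) (h3 l))
      (p3 _ (fun l => sub_mem (hx l) (mul_mem (hx i) (h3 l))) l)⟩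
  rw [LinearMap.add_apply, LinearMap.comp_apply, LinearMap.sub_apply, LinearMap.id_apply, hτ,
    p2 _ ⟨sub_mem hx (W.smul_mem _ h1), by simp [h2]⟩, add_sub_cancel]

/-! ### the lattice of maps that send relations into `N` -/

section Mt
variable {α : Type} [Fintype α] {W : Submodule F (α → F)} {M N : XLat X V}

variable (X W) in
/-- `O^α ∩ W` -/
def capX : XLat X W := comapX (OP X α) W.subtype W.subtype_injective

theorem mem_capX {I : Finset (Fin (n + 1))} {c : W} :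
    c ∈ (capX X W).M I ↔ ∀ a, c.1 a ∈ X.A I := mem_OP

theorem mem_Gm_capX {e : ℤ} {c : W} : c ∈ Gm (capX X W).toLat e ↔ ∀ a, c.1 a ∈ AA X e :=
  (mem_Gm_comap (hg := W.subtype_injective)).trans mem_Gm_OP

theorem mem_loc_capX {x : Pnt X} {c : W} : c ∈ x.loc (capX X W) ↔ ∀ a, c.1 a ∈ x.O :=
  mem_loc_comapX.trans mem_loc_OP

theorem xfull_OP' (α : Type) [Finite α] : XFull (OP X α) := XFull.piX fun _ => OX_full

theorem xfull_capX : XFull (capX X W) := xfull_of_den (i := 0) fun c =>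
  let ⟨b, _, h0, h⟩ := XFull.exists_den (xfull_OP' (X := X) α) (sne 0) c.1
  ⟨b, h0, h⟩

variable (V W) in
/-- `φ ↦ (c ↦ ∑ c a • φ a)` -/
def resL : (α → V) →ₗ[F] W →ₗ[F] V := (Fintype.bilinearCombination F F).domRestrict₂ W

theorem resL_apply (φ : α → V) (c : W) : resL V W φ c = ∑ a, c.1 a • φ a := rfl

variable (W M N) in
/-- `{φ : α → M | ∑ c a • φ a ∈ N for c ∈ O^α ∩ W}` -/
def MtX : XLat X (α → V) := preX (piX fun _ => M) (resL V W) (homX (capX X W) xfull_capX N)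

theorem mem_MtX {I : Finset (Fin (n + 1))} (hI : I.Nonempty) {φ : α → V} :
    φ ∈ (MtX W M N).M I ↔ (∀ a, φ a ∈ M.M I) ∧
      ∀ c ∈ W, (∀ a, c a ∈ X.A I) → ∑ a, c a • φ a ∈ N.M I :=
  mem_preX.trans (and_congr mem_piFam ((mem_homX hI).trans
    ⟨fun h c hc h' => h ⟨c, hc⟩ (mem_capX.2 h'), fun h c hc => h c c.2 (mem_capX.1 hc)⟩))

theorem mem_loc_MtX {x : Pnt X} {φ : α → V} : φ ∈ x.loc (MtX W M N) ↔ (∀ a, φ a ∈ x.loc M) ∧
    ∀ c ∈ W, (∀ a, c a ∈ x.O) → ∑ a, c a • φ a ∈ x.loc N :=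
  mem_loc_preX.trans (and_congr mem_loc_piX (mem_loc_homX.trans
    ⟨fun h c hc h' => h ⟨c, hc⟩ (mem_loc_capX.2 h'), fun h c hc => h c c.2 (mem_loc_capX.1 hc)⟩))

theorem Gm_MtX_apply {j : ℤ} {φ : α → V} (h : φ ∈ Gm (MtX W M N).toLat j) {g : ℤ} {c : α → F}
    (hc : c ∈ W) (h' : ∀ a, c a ∈ AA X g) : ∑ a, c a • φ a ∈ Gm N.toLat (j + g) :=
  Gm_homX_apply (mem_Gm_preX.1 h).2 (x := ⟨c, hc⟩) (mem_Gm_capX.2 h')

theorem mem_Gm_MtX_of {j g : ℤ} {φ : α → V} (h : ∀ a, φ a ∈ Gm M.toLat j)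
    (hg : ∀ d, g ≤ d → Gm (capX X W).toLat (d + 1) = T1 X.toCoord • Gm (capX X W).toLat d)
    (h' : ∀ c ∈ W, (∀ a, c a ∈ AA X g) → ∑ a, c a • φ a ∈ Gm N.toLat (j + g)) :
    φ ∈ Gm (MtX W M N).toLat j :=
  mem_Gm_preX.2 ⟨Gm_pi.2 h, mem_Gm_homX_of_gen hg fun c hc => h' c c.2 (mem_Gm_capX.1 hc)⟩

theorem mem_Gm_MtX {j : ℤ} {φ : α → V} : φ ∈ Gm (MtX W M N).toLat j ↔
    (∀ a, φ a ∈ Gm M.toLat j) ∧ ∀ g : ℕ, ∀ c ∈ W, (∀ a, c a ∈ AA X g) →
      ∑ a, c a • φ a ∈ Gm N.toLat (j + g) := by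
  refine ⟨fun h => ⟨Gm_pi.1 (mem_Gm_preX.1 h).1, fun g c hc h' => Gm_MtX_apply h hc h'⟩,
    fun h => ?_⟩
  obtain ⟨g, hg⟩ := eventually_atTop.1 (ev_gen (capX X W).toLat)
  exact mem_Gm_MtX_of h.1 (g := g.toNat) (fun d hd => hg d (by omega)) (h.2 _)

theorem twX_MtX (j : ℤ) :
    Eqv (twX (MtX W M N) j).toFam (MtX W (twX M j) (twX N j)).toFam := fun I ⟨i, hi⟩ =>
  Submodule.ext fun φ => by
    simp only [mem_twX hi, mem_MtX ⟨i, hi⟩, Pi.smul_apply, Finset.smul_sum,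
      smul_comm (X.t i ^ (-j))]

theorem pi_le_MtX (h : N.toFam.LE M.toFam) : (piX fun _ : α => N).toFam.LE (MtX W M N).toFam :=
  fun I hI _ hφ => (mem_MtX hI).2 ⟨fun a => h I hI (mem_piFam.1 hφ a), fun _ _ hc =>
    Submodule.sum_mem _ fun a _ => N.A_smul hI _ (hc a) _ (mem_piFam.1 hφ a)⟩

end Mt

theorem h1_sup {N P0 : XLat X V} {P : XLat X U} {g : U →ₗ[F] V} {Q : XLat X U} (hQ : XFull Q)
    (hn : n = 2) (le : Q.toFam.LE (preX P g N).toFam) (h1 : Subsingleton (N.H 1))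
    (h2 : Subsingleton (P.H 1)) (h3 : Subsingleton (Q.H n))
    (e : P0 = supX N (mapX g P)) : Subsingleton (P0.H 1) := by
  subst e
  have l1 : (preX P g N).toFam.LE P.toFam := fun _ _ _ h => h.1
  have l2 : N.toFam.LE (supX N (mapX g P)).toFam := le_supL_left _ _
  have E := hq_iso l1 l2 (kl k g)
    (fun I hI x hx => le_supL_right _ _ I hI (Submodule.mem_map_of_mem hx))
    (fun _ _ _ h => h.2) (fun _ _ _ hx h => ⟨hx, h⟩) fun I hI y hy => by
      obtain ⟨a, ha, _, ⟨x, hx, rfl⟩, rfl⟩ := mem_supL.1 hy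
      exact ⟨x, hx, by rwa [add_sub_cancel_right]⟩
  have h4 := h_eq_zero_iff.2 (Ch.top_sub (by omega) hQ (XFull.of_le hQ le) le h3)
  refine h_eq_zero_iff.1 ((ne_pair l2).b_zero (h_eq_zero_iff.2 h1) ?_)
  rw [← E]
  exact (ne_pair l1).c_zero (h_eq_zero_iff.2 h2) (hn ▸ h4)

section Gens
variable {α υ : Type} [Fintype α] [Fintype υ] {W : Submodule F (υ → F)} {g : α → υ → F} {e : ℤ}

variable (X W g e) in
/-- `g` generates `O^υ ∩ W` in degree `e` -/
structure Gens : Prop where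
  mem : ∀ a, g a ∈ W
  deg : ∀ a l, g a l ∈ AA X e
  gen : ∀ i, ∀ w ∈ W, (∀ l, w l ∈ X.A {i}) →
    ∃ c : α → F, (∀ a, c a ∈ X.A {i}) ∧ ∑ a, c a • X.t i ^ (-e) • g a = w

theorem gens_of_gen (hm : ∀ a, g a ∈ W) (hd : ∀ a l, g a l ∈ AA X e)
    (hs : ∀ w ∈ W, (∀ l, w l ∈ AA X e) → w ∈ Submodule.span k (Set.range g))
    (hg : ∀ d, e ≤ d → Gm (capX X W).toLat (d + 1) = T1 X.toCoord • Gm (capX X W).toLat d) :
    Gens X W g e := by
  refine ⟨hm, hd, fun i w hw h => ?_⟩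
  have h1 : (capX X W).toFam.LE (genX X (fun a => (⟨g a, hm a⟩ : W)) e).toFam :=
    (le_genS_of_gen hg).trans (genS_le fun c hc => by
      obtain ⟨b, hb⟩ := (Submodule.mem_span_range_iff_exists_fun k).1
        (hs c c.2 (mem_Gm_capX.1 hc))
      have := sum_mem_genX (X := X) (fun a => (⟨g a, hm a⟩ : W)) e (e := 0)
        (x := fun a => b a • (1 : F)) fun a => Submodule.smul_mem _ _ one_mem_AA
      rw [zero_add] at this
      convert this using 1
      refine Subtype.ext ?_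
      simp [← hb])
  obtain ⟨c, hc, h2⟩ := (mem_genX (Finset.mem_singleton_self i)).1
    (h1 _ (sne i) (x := ⟨w, hw⟩) (mem_capX.2 h))
  exact ⟨c, hc, by simpa using congrArg Subtype.val h2⟩

variable (g) in
/-- the relations -/
abbrev relW : Submodule F (α → F) := LinearMap.ker (Fintype.linearCombination F g)

theorem mem_relW {c : α → F} : c ∈ relW g ↔ ∑ a, c a • g a = 0 := Iff.rfl

variable (V g) in
/-- `ψ ↦ (a ↦ ∑ g a l • ψ l)` -/
def resG : (υ → V) →ₗ[F] (α → V) :=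
  LinearMap.pi fun a => (Fintype.bilinearCombination F F).flip (g a)

theorem resG_apply (ψ : υ → V) (a : α) : resG V g ψ a = ∑ l, g a l • ψ l := rfl

theorem sum_resG {c : α → F} (hc : c ∈ relW g) (ψ : υ → V) : ∑ a, c a • resG V g ψ a = 0 := by
  simp only [resG_apply, Finset.smul_sum, smul_smul]
  rw [Finset.sum_comm]
  refine Finset.sum_eq_zero fun l _ => ?_
  rw [← Finset.sum_smul, show ∑ a, c a * g a l = 0 by
    simpa using congrFun (mem_relW.1 hc) l, zero_smul]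

theorem Gens.resG_mem (h : Gens X W g e) {M : XLat X V} {I : Finset (Fin (n + 1))} (hI : I.Nonempty)
    {ψ : υ → V} (hψ : ψ ∈ (piX fun _ => twX M (-e)).M I) (a : α) : resG V g ψ a ∈ M.M I := by
  obtain ⟨i, hi⟩ := hI
  refine Submodule.sum_mem _ fun l _ => ?_
  have := M.A_smul ⟨i, hi⟩ _ (Gm_mem (h.deg a l) hi) _ ((mem_twX hi).1 (mem_piFam.1 hψ l))
  rwa [smul_eq_mul, smul_smul, mul_right_comm, ← zpow_add₀ (X.t_ne i), add_neg_cancel, zpow_zero,
    one_mul] at this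

theorem Gens.fc {S : SmV k F 2} (h : Gens S.X W g e) {M N : XLat S.X V} (hN : XFull N)
    (le : N.toFam.LE M.toFam) : FC (supX (piX fun _ => N) (mapX (resG V g)
      (piX fun _ => twX M (-e)))) (MtX (relW g) M N) := by
  classical
  refine fc_of_places S (supL_le (pi_le_MtX le) ?_)
    (XFull.of_le (XFull.piX fun _ => hN) (le_supL_left _ _)) fun i v hv φ hφ => ?_
  · rintro I hI _ ⟨ψ, hψ, rfl⟩
    exact (mem_MtX hI).2 ⟨h.resG_mem hI hψ, fun c hc _ => (sum_resG hc ψ).symm ▸ zero_mem _⟩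
  obtain ⟨π, p1, p2, p3⟩ := exists_proj (S.pl.pl v) W
  obtain ⟨b, hb, h0, h1⟩ := common_den (M := fun _ : υ × υ => OX S.X) (sne i)
    ⟨one_ne_zero, (S.pl.pl v).ord_one⟩ (unit_mul S v)
    (v := fun p => π (Pi.single p.1 1) p.2) fun p => by
      obtain ⟨a, ha, b, hb, h1, h2, h3⟩ := S.loc v (sne i) hv _ (p3 (Pi.single p.1 1) (fun l => by
        rw [Pi.single_apply]
        split_ifs
        exacts [one_mem _, zero_mem _]) p.2)
      exact ⟨b, hb, ⟨h1, h2⟩, by rwa [h3, smul_eq_mul, mul_div_cancel₀ _ h1]⟩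
  choose c hc h2 using fun l => h.gen i (b • π (Pi.single l 1)) (W.smul_mem _ (p1 _))
    fun l' => h1 (l, l')
  obtain ⟨h3, h4⟩ := (mem_MtX (sne i)).1 hφ
  let ψ : υ → V := fun l => S.X.t i ^ (-e) • ∑ a, c l a • φ a
  let r : α → α → F := fun a => b • Pi.single a 1 - ∑ l, (S.X.t i ^ (-e) * g a l) • c l
  have hr : ∀ {Z : Type u} [AddCommGroup Z] [Module F Z] (z : α → Z) a, ∑ a', r a a' • z a' =
      b • z a - ∑ l, g a l • S.X.t i ^ (-e) • ∑ a', c l a' • z a' := fun z a => by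
    simp only [r, Pi.sub_apply, sub_smul, Finset.sum_sub_distrib, Finset.sum_apply, Pi.smul_apply,
      smul_eq_mul, Finset.sum_smul, Finset.smul_sum, smul_smul]
    rw [Finset.sum_comm]
    simp [Pi.single_apply, mul_comm, mul_left_comm]
  refine ⟨b, hb, h0, mem_supL.2 ⟨b • φ - resG V g ψ, mem_piFam.2 fun a => ?_, _, ⟨ψ,
    mem_piFam.2 fun l => (mem_twX (Finset.mem_singleton_self i)).2 ?_, rfl⟩, sub_add_cancel _ _⟩⟩
  · refine (hr φ a).subst (motive := (· ∈ N.M {i})) (h4 _ (mem_relW.2 ?_) fun a' => ?_)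
    · rw [hr, sub_eq_zero]
      simp only [Finset.smul_sum, smul_comm (S.X.t i ^ (-e))]
      simp only [← Finset.smul_sum, h2, smul_comm _ b, ← map_smul]
      rw [← map_sum, ← Finset.smul_sum, map_smul, show ∑ l, g a l • (Pi.single l 1 : υ → F) = g a from
        (pi_eq_sum_univ' _).symm.trans rfl, p2 _ (h.mem a)]
    · simp only [r, Pi.sub_apply, Finset.sum_apply, Pi.smul_apply, smul_eq_mul, Pi.single_apply]
      refine sub_mem (mul_mem hb ?_) (Subalgebra.sum_mem _ fun l _ =>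
        mul_mem (mem_AA.1 (h.deg a l) i) (hc l a'))
      split_ifs
      exacts [one_mem _, zero_mem _]
  · rw [smul_smul, ← zpow_add₀ (S.X.t_ne i), neg_add_cancel, zpow_zero, one_smul]
    exact Submodule.sum_mem _ fun a _ => M.A_smul (sne i) _ (hc l a) _ (h3 a)

/-- **vanishing** -/
theorem Gens.van [Infinite k] {S : SmV k F 2} (h : Gens S.X W g e) (he : 0 ≤ e)
    {M N : XLat S.X V} (hN : XFull N) (le : N.toFam.LE M.toFam) {m : ℤ} (vM : Van M.toLat m)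
    (vN : Van N.toLat m) : Van (MtX (relW g) M N).toLat (m + e) := by
  have v0 : ∀ {P : XLat S.X V} {ι : Type} [Finite ι], Van P.toLat m → ∀ j, m ≤ j → ∀ p, 0 < p →
      Subsingleton ((piX fun _ : ι => twX P j).H p) := fun hP j hj p hp =>
    H_pi_subsingleton _ p fun _ => hP j hj p hp
  have v1 : ∀ {P : XLat S.X V}, Van P.toLat m → ∀ j, m + e ≤ j → ∀ p, 0 < p →
      Subsingleton ((piX fun _ : υ => twX (twX P j) (-e)).H p) := fun hP j hj p hp =>
    H_pi_subsingleton _ p fun _ => van_tw (hP _ (by omega) p hp)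
  refine Van.of12 (fun j hj => ?_) fun j hj => ?_
  · have h1 := h1_sup (N := piX fun _ => twX N j) (P := piX fun _ => twX (twX M j) (-e))
      (g := resG V g) (XFull.piX fun _ => XFull.twX (XFull.twX hN j) (-e)) rfl
      (fun I hI ψ hψ => ⟨mem_piFam.2 fun l => twX_mono (twX_mono le j) _ I hI (mem_piFam.1 hψ l),
        mem_piFam.2 (h.resG_mem hI hψ)⟩) (v0 vN j (by omega) 1 one_pos) (v1 vM j hj 1 one_pos)
      (v1 vN j hj 2 two_pos) rfl
    have h2 := (h.fc (XFull.twX hN j) (twX_mono le j)).h_le one_pos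
    have := h_eq_zero_iff.1 (Nat.le_zero.1 (h2.trans (h_eq_zero_iff.2 h1).le))
    exact ((twX_MtX j).H 1).toEquiv.subsingleton
  · have h1 := XFull.piX (ι := α) fun _ => XFull.twX hN j
    have h2 := pi_le_MtX (W := relW g) (twX_mono le j)
    have := Ch.top_sub two_pos h1 (XFull.of_le h1 h2) h2 (v0 vN j (by omega) 2 two_pos)
    exact ((twX_MtX j).H 2).toEquiv.subsingleton

end Gens

/-! ### local splittings -/

section Spl
variable {α υ : Type} [Fintype α] [DecidableEq α] [Fintype υ]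

/-- `O^α ∩ W` is a direct summand at `x` -/
def Spl (x : Pnt X) (W : Submodule F (α → F)) : Prop := ∃ q : α → α → F, (∀ a a', q a a' ∈ x.O) ∧
  (∀ c ∈ W, ∑ a, c a • q a = 0) ∧ ∀ a, Pi.single a 1 - q a ∈ W

theorem Gens.spl {W : Submodule F (υ → F)} {g : α → υ → F} {e : ℤ} (h : Gens X W g e) {x : Pnt X}
    {ι : Type} [Fintype ι] {b : Basis ι F W} (hb : FreeAt x (capX X W) b) : Spl x (relW g) := by
  have H : ∀ c, ∃ s : α → F, (∀ a, s a ∈ x.O) ∧ ∑ a, s a • X.t x.i ^ (-e) • g a = b c := fun c => by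
    obtain ⟨d, -, h0, hd⟩ := hb.basis_mem c
    obtain ⟨s, hs, h1⟩ := h.gen x.i _ (d • b c).2 (mem_capX.1 hd)
    refine ⟨d⁻¹ • s, fun a => mul_mem (inv_mem h0) (x.in_i (hs a)), ?_⟩
    simp only [Pi.smul_apply, smul_eq_mul, mul_smul]
    rw [← Finset.smul_sum, h1, Submodule.coe_smul, inv_smul_smul₀ (ne_of_val h0)]
  choose s hs h1 using H
  let ρ : W →ₗ[F] α → F := X.t x.i ^ (-e) • b.constr F s
  refine ⟨fun a => ρ ⟨g a, h.mem a⟩, fun a a' => ?_, fun c hc => ?_, fun a => mem_relW.2 ?_⟩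
  · change (X.t x.i ^ (-e) • b.constr F s _) a' ∈ _
    rw [← map_smul, Basis.constr_apply_fintype, Finset.sum_apply]
    exact Subalgebra.sum_mem _ fun c _ => mul_mem ((hb _).1 (mem_loc_capX.2 fun l =>
      AA_mem_O (h.deg a l)) c) (hs c a')
  · simp only [← map_smul]
    rw [← map_sum, show ∑ a, c a • (⟨g a, h.mem a⟩ : W) = 0 from Subtype.ext (by
      simpa using mem_relW.1 hc), map_zero]
  · have : Fintype.linearCombination F g ∘ₗ ρ = W.subtype := b.ext fun c => by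
      simp only [ρ, LinearMap.comp_apply, LinearMap.smul_apply, Basis.constr_basis,
        Fintype.linearCombination_apply, Submodule.subtype_apply, ← h1, Pi.smul_apply, smul_eq_mul,
        mul_smul, smul_comm (X.t x.i ^ (-e))]
    rw [← Fintype.linearCombination_apply, map_sub, ← LinearMap.comp_apply _ ρ, this]
    simp

variable {W : Submodule F (α → F)}

theorem Spl.aux {x : Pnt X} (h : Spl x W) : ∃ Q : ∀ {Z : Type u} [AddCommGroup Z] [Module F Z],
    (α → Z) → α → Z, (∀ (M : XLat X V) φ, (∀ a, φ a ∈ x.loc M) → Q φ ∈ x.loc (MtX W M (bot X V))) ∧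
    (∀ (M : XLat X U) φ, (∀ a, φ a ∈ x.loc M) → Q φ ∈ x.loc (MtX W M (bot X U))) ∧
    (∀ (M N : XLat X V), ∀ φ ∈ x.loc (MtX W M N), ∀ a, φ a - Q φ a ∈ x.loc N) ∧
    ∀ (γ : U →ₗ[F] V) φ a, γ (Q φ a) = Q (fun a => γ (φ a)) a := by
  obtain ⟨q, h1, h2, h3⟩ := h
  have H : ∀ {Z : Type u} [AddCommGroup Z] [Module k Z] [Module F Z] [IsScalarTower k F Z]
      (M : XLat X Z) (φ : α → Z), (∀ a, φ a ∈ x.loc M) →
      (fun a => ∑ a', q a a' • φ a') ∈ x.loc (MtX W M (bot X Z)) := fun M φ hφ =>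
    mem_loc_MtX.2 ⟨fun a => Submodule.sum_mem _ fun a' _ => smul_loc (h1 a a') (hφ a'),
      fun c hc _ => mem_loc_bot.2 (by
        simp only [Finset.smul_sum, smul_smul]
        rw [Finset.sum_comm]
        refine Finset.sum_eq_zero fun a' _ => ?_
        rw [← Finset.sum_smul, show ∑ a, c a * q a a' = 0 by simpa using congrFun (h2 c hc) a',
          zero_smul])⟩
  refine ⟨fun φ a => ∑ a', q a a' • φ a', H, H, fun M N φ hφ a => ?_, fun γ φ a => by simp⟩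
  have := (mem_loc_MtX.1 hφ).2 _ (h3 a) fun a' => sub_mem (by
    rw [Pi.single_apply]
    split_ifs
    exacts [one_mem _, zero_mem _]) (h1 a a')
  simpa [sub_smul, Pi.single_apply] using this

variable [IsAlgClosed k]

theorem ev_MtX_sup (h : ∀ x : Pnt X, Spl x W) (M N : XLat X V) : ∀ᶠ j in atTop,
    Gm (MtX W M N).toLat j ≤ Gm (MtX W M (bot X V)).toLat j ⊔ Gm (piX fun _ => N).toLat j :=
  (Gm_supL _ _).mono fun j hj => le_trans (Gm_mono (le_of_loc
    (N := supX (MtX W M (bot X V)) (piX fun _ => N)) fun x φ hφ => by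
      obtain ⟨Q, h1, -, h2, -⟩ := (h x).aux (U := V) (V := V)
      rw [loc_supX, ← add_sub_cancel (Q φ) φ]
      exact Submodule.add_mem_sup (h1 M φ (mem_loc_MtX.1 hφ).1)
        (mem_loc_piX.2 (h2 M N φ hφ))) j) hj

theorem ev_MtX_surj (h : ∀ x : Pnt X, Spl x W) {T : XLat X U} {N : XLat X V} {γ : U →ₗ[F] V}
    (hm : T.toFam.Maps N.toFam (kl k γ))
    (hs : ∀ x : Pnt X, ∀ w ∈ x.loc N, ∃ v ∈ x.loc T, γ v = w) : ∀ᶠ j in atTop,
    ∀ φ ∈ Gm (MtX W N (bot X V)).toLat j, ∃ ψ ∈ Gm (MtX W T (bot X U)).toLat j,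
      ∀ a, γ (ψ a) = φ a := by
  refine (ev_Gm_surj (g := γ.compLeft α) (fun I hI ψ hψ => ?_)
    fun I hI => surj_of_loc (fun x φ hφ => ?_) hI).mono fun j hj φ hφ =>
      let ⟨ψ, h1, h2⟩ := hj φ hφ
      ⟨ψ, h1, congrFun h2⟩
  · obtain ⟨h1, h2⟩ := (mem_MtX hI).1 hψ
    refine (mem_MtX hI).2 ⟨fun a => hm I hI _ (h1 a), fun c hc h' => ?_⟩
    have := congrArg γ (show _ = 0 from h2 c hc h')
    simp only [map_sum, map_smul, map_zero] at this
    exact this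
  · obtain ⟨Q, -, h1, h2, h3⟩ := (h x).aux (U := U) (V := V)
    choose ψ h4 h5 using fun a => hs x _ ((mem_loc_MtX.1 hφ).1 a)
    refine ⟨Q ψ, h1 T ψ h4, funext fun a => (h3 γ ψ a).trans ?_⟩
    rw [funext h5]
    exact (sub_eq_zero.1 (mem_loc_bot.1 (h2 N _ φ hφ a))).symm

end Spl

end Crest.Agent.N265.Fib.Hz
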