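import Crest.Agent.N265.M.Defs

/-!
# Row 265, task M-TV, part 1 (helper42): tensors `V ⊗ A_k`, evaluation, frames of subspaces
-/

set_option autoImplicit false
set_option linter.dupNamespace false
set_option linter.unusedSectionVars false
noncomputable section
open Module TensorProduct

namespace Crest.Agent.N265.M.Hm
open Alg GV Br N _root_.Crest.Agent.N265.Pow
variable {Sg : Surf} {V W M : Type} [AddCommGroup V] [Module ℂ V] [AddCommGroup W] [Module ℂ W]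
  [AddCommGroup M] [Module ℂ M] [Module Sg.F M] [IsScalarTower ℂ Sg.F M] {b e k m : ℕ}

@[simp] lemma mm_tmul (v : V) (a : SA Sg e) (c : SA Sg k) :
    mm V e k ((v ⊗ₜ a) ⊗ₜ c) = v ⊗ₜ mulA Sg e k a c := by simp [mm]

lemma ext3 {A B Z : Type} [AddCommGroup A] [Module ℂ A] [AddCommGroup B] [Module ℂ B]
    [AddCommGroup Z] [Module ℂ Z] {f g : (V ⊗[ℂ] A) ⊗[ℂ] B →ₗ[ℂ] Z}
    (h : ∀ v a c, f ((v ⊗ₜ a) ⊗ₜ c) = g ((v ⊗ₜ a) ⊗ₜ c)) (t : (V ⊗[ℂ] A) ⊗[ℂ] B) : f t = g t :=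
  LinearMap.congr_fun (TensorProduct.ext_threefold h) t

lemma mF_mm (f : V →ₗ[ℂ] M) (t : (V ⊗[ℂ] SA Sg e) ⊗[ℂ] SA Sg k) :
    mF f (k + e) (mm V e k t) = mF (mF f e) k t :=
  ext3 (f := mF f (k + e) ∘ₗ mm V e k) (fun v a c => by simp [smul_smul, mul_comm]) t

lemma mF_rT (f : W →ₗ[ℂ] M) (θ : V →ₗ[ℂ] W) (t : V ⊗[ℂ] SA Sg k) :
    mF f k (θ.rTensor _ t) = mF (f ∘ₗ θ) k t :=
  LinearMap.congr_fun (TensorProduct.ext' (g := mF f k ∘ₗ θ.rTensor _) (h := mF (f ∘ₗ θ) k)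
    fun _ _ => rfl) t

lemma evP_mul (z : Pt) (a : SA Sg e) (c : SA Sg k) :
    evP Sg b (k + e) z (mulA Sg e k a c) = evP Sg b e z a * evP Sg b k z c := by
  by_cases hz : z ∈ (Sg.S b).pts
  · rw [evP_eq Sg b _ ⟨z, hz⟩, evP_eq Sg b _ ⟨z, hz⟩, evP_eq Sg b _ ⟨z, hz⟩]
    exact congrFun (evS_mul Sg b a c _ (add_comm _ _) rfl) ⟨z, hz⟩
  · simp [evP, hz]

variable (Sg b) in
/-- evaluation of `V ⊗ A_k` at `z` -/
abbrev evz (V : Type) [AddCommGroup V] [Module ℂ V] (k : ℕ) (z : Pt) : V ⊗[ℂ] SA Sg k →ₗ[ℂ] V :=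
  evT V (evP Sg b k z)

lemma evz_mm (z : Pt) (t : (V ⊗[ℂ] SA Sg e) ⊗[ℂ] SA Sg k) :
    evz Sg b V (k + e) z (mm V e k t) = evz Sg b V e z (evz Sg b _ k z t) :=
  ext3 (f := evz Sg b V (k + e) z ∘ₗ mm V e k) (g := evz Sg b V e z ∘ₗ evz Sg b _ k z)
    (fun v a c => by simp [evP_mul, smul_smul, mul_comm]) t

lemma evT_rT {A : Type} [AddCommGroup A] [Module ℂ A] (ε : A →ₗ[ℂ] ℂ) (θ : V →ₗ[ℂ] W)
    (t : V ⊗[ℂ] A) : evT W ε (θ.rTensor _ t) = θ (evT V ε t) :=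
  LinearMap.congr_fun (TensorProduct.ext' (g := evT W ε ∘ₗ θ.rTensor _) (h := θ ∘ₗ evT V ε)
    fun _ _ => by simp) t

lemma evT_mem {A : Type} [AddCommGroup A] [Module ℂ A] (ε : A →ₗ[ℂ] ℂ) {Q : Submodule ℂ V}
    {t : V ⊗[ℂ] A} (ht : t ∈ tens Q ⊤) : evT V ε t ∈ Q :=
  (tens_le (N := Q.comap (evT V ε))).2 (fun v hv a _ => by simpa using Q.smul_mem _ hv) ht

lemma rT_mem {A : Type} [AddCommGroup A] [Module ℂ A] {θ : V →ₗ[ℂ] W} {P : Submodule ℂ V}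
    {Q : Submodule ℂ W} (h : ∀ v ∈ P, θ v ∈ Q) {t : V ⊗[ℂ] A} (ht : t ∈ tens P ⊤) :
    θ.rTensor A t ∈ tens Q ⊤ :=
  tmap_mem (ψ := LinearMap.id) h (fun _ _ => Submodule.mem_top) ht

@[elab_as_elim]
lemma tens_ind {P : Submodule ℂ V} {Q : Submodule ℂ W} {p : V ⊗[ℂ] W → Prop} {t : V ⊗[ℂ] W}
    (ht : t ∈ tens P Q) (h0 : p 0) (h1 : ∀ v ∈ P, ∀ w ∈ Q, p (v ⊗ₜ w))
    (h2 : ∀ a c, p a → p c → p (a + c)) : p t := by
  rw [tens_eq_range] at ht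
  obtain ⟨s, rfl⟩ := ht
  induction s using TensorProduct.induction_on with
  | zero => rwa [map_zero]
  | tmul v w => exact h1 _ v.2 _ w.2
  | add a c h h' => rw [map_add]; exact h2 _ _ h h'

lemma mm_mem {U : Submodule ℂ V} {P : Submodule ℂ (V ⊗[ℂ] SA Sg e)} (h : P ≤ tens U ⊤)
    {t : (V ⊗[ℂ] SA Sg e) ⊗[ℂ] SA Sg k} (ht : t ∈ tens P ⊤) : mm V e k t ∈ tens U ⊤ := by
  refine tens_ind ht (by simp) (fun s hs a _ => ?_) fun _ _ h h' => by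
    rw [map_add]; exact add_mem h h'
  refine tens_ind (h hs) (by simp) (fun v hv c _ => ?_) fun _ _ h h' => by
    rw [add_tmul, map_add]; exact add_mem h h'
  rw [mm_tmul]
  exact tmul_mem hv trivial

lemma mem_tens_top (t : V ⊗[ℂ] W) : t ∈ tens (⊤ : Submodule ℂ V) (⊤ : Submodule ℂ W) := by
  induction t using TensorProduct.induction_on with
  | zero => exact zero_mem _
  | tmul v a => exact tmul_mem trivial trivial
  | add t t' h h' => exact add_mem h h'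

variable (b) in
lemma eq_zero_of_evz [FiniteDimensional ℂ V] {t : V ⊗[ℂ] SA Sg k}
    (h : ∀ z ∈ (Sg.S b).pts, evz Sg b V k z t = 0) : t = 0 :=
  evB_inj (finBasis ℂ V) _ (isSecM_evS Sg b k).inj (funext fun z => by
    rw [evB_apply, ← evP_eq, h _ z.2, map_zero, map_zero, Pi.zero_apply])

variable (b) in
lemma mem_tens_of_evz [FiniteDimensional ℂ V] {Q : Submodule ℂ V} {t : V ⊗[ℂ] SA Sg k}
    (h : ∀ z ∈ (Sg.S b).pts, evz Sg b V k z t ∈ Q) : t ∈ tens Q ⊤ := by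
  have h1 : Q.mkQ.rTensor _ t = 0 := eq_zero_of_evz b fun z hz => by
    rw [evT_rT]; exact (Submodule.Quotient.mk_eq_zero Q).2 (h z hz)
  have h2 := (tens_inf_ker_left Q.mkQ ⊤ (⊤ : Submodule ℂ (SA Sg k))).le
    (x := t) ⟨mem_tens_top t, h1⟩
  rwa [Submodule.ker_mkQ, top_inf_eq] at h2

/-! ### frames -/
section Frame
variable (U : Submodule ℂ V) [FiniteDimensional ℂ U]
/-- the index type of the frame -/
abbrev Ix : Type := Fin (finrank ℂ U)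
/-- a basis of `U` -/
def fu (l : Ix U) : V := finBasis ℂ U l
/-- coordinates, extended to `V` -/
def fc : V →ₗ[ℂ] (Ix U → ℂ) := (finBasis ℂ U).equivFun.toLinearMap ∘ₗ
  (U.subtype.exists_leftInverse_of_injective U.ker_subtype).choose
lemma fu_mem (l : Ix U) : fu U l ∈ U := (finBasis ℂ U l).2
lemma fc_coe (u : U) : fc U u = (finBasis ℂ U).equivFun u := congrArg (finBasis ℂ U).equivFun
  (LinearMap.congr_fun (U.subtype.exists_leftInverse_of_injective U.ker_subtype).choose_spec u)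
lemma fc_fu (l l' : Ix U) : fc U (fu U l) l' = if l = l' then 1 else 0 := by
  rw [fu, fc_coe, Basis.equivFun_self]
variable {U} in
lemma sum_fc {v : V} (hv : v ∈ U) : ∑ l, fc U v l • fu U l = v := by
  have := congrArg Subtype.val ((finBasis ℂ U).sum_equivFun ⟨v, hv⟩)
  rw [← fc_coe, AddSubmonoidClass.coe_finsetSum] at this
  exact this
/-- the linear map with prescribed values on the frame -/
def fext (y : Ix U → W) : V →ₗ[ℂ] W := Fintype.linearCombination ℂ y ∘ₗ fc U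
lemma fext_fu (y : Ix U → W) (l : Ix U) : fext U y (fu U l) = y l := by
  simp [fext, Fintype.linearCombination_apply, fc_fu]
variable {U} in
lemma mem_homMap_fu {Q : Submodule ℂ W} {θ : V →ₗ[ℂ] W} :
    θ ∈ homMap U Q ↔ ∀ l, θ (fu U l) ∈ Q := ⟨fun h l => h _ (fu_mem U l), fun h v hv => by
  rw [← sum_fc hv, map_sum]
  exact Submodule.sum_mem _ fun l _ => by rw [map_smul]; exact Q.smul_mem _ (h l)⟩
variable (Sg) in
/-- coordinates in `F` -/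
def fΛ : V →ₗ[ℂ] (Ix U → Sg.F) := (Algebra.linearMap ℂ Sg.F).compLeft _ ∘ₗ fc U
/-- coordinates of a tensor -/
def co (k : ℕ) : V ⊗[ℂ] SA Sg k →ₗ[ℂ] (Ix U → Sg.F) := mF (fΛ Sg U) k
lemma co_tmul (v : V) (a : SA Sg k) (l : Ix U) : co U k (v ⊗ₜ a) l = fc U v l • a.1 := by
  simp [co, fΛ, Algebra.smul_def, mul_comm]
lemma co_mem (t : V ⊗[ℂ] SA Sg k) (l : Ix U) : co U k t l ∈ SA Sg k := by
  induction t using TensorProduct.induction_on with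
  | zero => exact zero_mem _
  | tmul v a => rw [co_tmul]; exact Submodule.smul_mem _ _ a.2
  | add t t' h h' => rw [map_add]; exact add_mem h h'
lemma co_sum (c : Ix U → SA Sg k) (l : Ix U) : co U k (∑ l, fu U l ⊗ₜ c l) l = c l := by
  simp [map_sum, Finset.sum_apply, co_tmul, fc_fu]
variable {U}
lemma sum_co {t : V ⊗[ℂ] SA Sg k} (ht : t ∈ tens U ⊤) :
    ∑ l, fu U l ⊗ₜ (⟨co U k t l, co_mem U t l⟩ : SA Sg k) = t := by
  let f : V ⊗[ℂ] SA Sg k →ₗ[ℂ] V ⊗[ℂ] SA Sg k := ∑ l, TensorProduct.mk ℂ _ _ (fu U l) ∘ₗ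
    (LinearMap.proj l ∘ₗ co U k).codRestrict _ fun t => co_mem U t l
  have hf : ∀ t, f t = ∑ l, fu U l ⊗ₜ (⟨co U k t l, co_mem U t l⟩ : SA Sg k) := fun t =>
    LinearMap.sum_apply _ _ _
  rw [← hf]
  refine tens_eqOn (g := LinearMap.id) (fun v hv a _ => ?_) ht
  rw [hf, LinearMap.id_apply]
  conv_rhs => rw [← sum_fc hv, sum_tmul]
  exact Finset.sum_congr rfl fun l _ => by
    rw [smul_tmul]; exact congrArg _ (Subtype.ext (co_tmul U v a l))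
lemma mF_co (f : V →ₗ[ℂ] M) {t : V ⊗[ℂ] SA Sg k} (ht : t ∈ tens U ⊤) :
    mF f k t = ∑ l, co U k t l • f (fu U l) := by
  conv_lhs => rw [← sum_co ht, map_sum]
  rfl
lemma co_inj {t : V ⊗[ℂ] SA Sg k} (ht : t ∈ tens U ⊤) (h : co U k t = 0) : t = 0 := by
  rw [← sum_co ht]
  exact Finset.sum_eq_zero fun l _ => by
    rw [show (⟨co U k t l, co_mem U t l⟩ : SA Sg k) = 0 from Subtype.ext (congrFun h l), tmul_zero]
lemma exists_co {c : Ix U → Sg.F} (hc : ∀ l, c l ∈ SA Sg k) : ∃ t ∈ tens U ⊤, co U k t = c :=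
  ⟨∑ l, fu U l ⊗ₜ ⟨c l, hc l⟩, Submodule.sum_mem _ fun l _ => tmul_mem (fu_mem U l) trivial,
    funext (co_sum U fun l => ⟨c l, hc l⟩)⟩
lemma co_mm {P : Submodule ℂ (V ⊗[ℂ] SA Sg e)} [FiniteDimensional ℂ P]
    {t : (V ⊗[ℂ] SA Sg e) ⊗[ℂ] SA Sg k} (ht : t ∈ tens P ⊤) :
    co U (k + e) (mm V e k t) = ∑ a, co P k t a • co U e (fu P a) :=
  (mF_mm _ t).trans (mF_co _ ht)
end Frame

end Crest.Agent.N265.M.Hm
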