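import Crest.Agent.N265.Fib.P3
import Crest.Agent.N265.N.Dlt

/-!
# Row 265, fibrewise theory (helper2): points of the cone `Sg.S b` and closed points of `Sg.V.X`
-/

set_option autoImplicit false
noncomputable section

namespace Crest.Agent.N265.Fib

open Crest.Agent.R274
open Cx_781 Defs_781 Ses_781 Lat_781 Ser_781 SnapA_99 SnapB_99 SnapC_99 SnapD_99 SnapE_99 Gen7_750
open Xs1_781 Filter SkDefs_474 Module Pnt Br N MvPolynomial

universe u

/-- a multiplicative family of functionals on the section ring is evaluation at a point -/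
theorem exists_pnt_of_gr {k : Type u} [Field k] {F : Type u} [Field F] [Algebra k F] {n : ℕ}
    {X : Defs_781.Var k F n} (E : ℕ → F →ₗ[k] k)
    (hm : ∀ (m l : ℕ), ∀ f ∈ AA X m, ∀ g ∈ AA X l, E (m + l) (f * g) = E m f * E l g)
    {i : Fin (n + 1)} (hi : E 1 (X.t i) ≠ 0) : ∃ (x : Pnt X) (c : k), c ≠ 0 ∧
      ∀ m : ℕ, ∀ f ∈ AA X m, E m f = c ^ m * x.val (X.t x.i ^ (-(m : ℤ)) * f) := by
  have hp : ∀ m : ℕ, X.t i ^ m ∈ AA X m := fun m =>
    T1_pow_le_AA m (Submodule.pow_mem_pow _ (t_mem_T1 i) m)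
  have h1 : E 0 1 = 1 := mul_left_cancel₀ hi (by
    simpa using (hm 1 0 _ (t_mem_AA i) 1 one_mem_AA).symm)
  have h2 : ∀ m : ℕ, E m (X.t i ^ m) = E 1 (X.t i) ^ m := fun m => by
    induction m with
    | zero => simpa using h1
    | succ m ih => rw [pow_succ, hm m 1 _ (hp m) _ (t_mem_AA i), ih, pow_succ]
  have h0 : ∀ a : X.A {i}, ∃ m₀ : ℕ, ∀ m : ℕ, m₀ ≤ m → X.t i ^ m * a ∈ AA X m :=
    fun a => ev_mem_Gm (M := OX X) a.2
  choose N hN using h0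
  have key : ∀ (a : X.A {i}) (m : ℕ), X.t i ^ m * a ∈ AA X m →
      E (N a) (X.t i ^ N a * a) / E 1 (X.t i) ^ N a = E m (X.t i ^ m * a) / E 1 (X.t i) ^ m :=
    fun a m h => by
      rw [div_eq_div_iff (pow_ne_zero _ hi) (pow_ne_zero _ hi), ← h2 m, ← h2 (N a),
        ← hm _ _ _ (hN a _ le_rfl) _ (hp m), ← hm _ _ _ h _ (hp _), add_comm]
      congr 1
      ring
  let φ : X.A {i} →ₐ[k] k := AlgHom.ofLinearMap
    { toFun := fun a => E (N a) (X.t i ^ N a * a) / E 1 (X.t i) ^ N a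
      map_add' := fun a b => by
        have ha := hN a _ (le_max_left (N a) (N b))
        have hb := hN b _ (le_max_right (N a) (N b))
        rw [key a _ ha, key b _ hb, key (a + b) (max (N a) (N b)) (by
          rw [AddMemClass.coe_add, mul_add]; exact add_mem ha hb), AddMemClass.coe_add, mul_add,
          map_add, add_div]
      map_smul' := fun c a => by
        rw [key (c • a) (N a) (by
          rw [SetLike.val_smul, mul_smul_comm]; exact Submodule.smul_mem _ c (hN a _ le_rfl)),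
          SetLike.val_smul, mul_smul_comm, map_smul, smul_div_assoc, RingHom.id_apply] }
    ((key 1 0 (by simpa using one_mem_AA)).trans (by simpa using h1)) fun a b => by
      have e : X.t i ^ (N a + N b) * (a * b : X.A {i}) = X.t i ^ N a * a * (X.t i ^ N b * b) := by
        rw [MulMemClass.coe_mul]; ring
      refine (key (a * b) (N a + N b) (by
        rw [e, Nat.cast_add]; exact AA_mul_mem (hN a _ le_rfl) (hN b _ le_rfl))).trans ?_
      rw [e, hm _ _ _ (hN a _ le_rfl) _ (hN b _ le_rfl), pow_add, mul_div_mul_comm]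
      rfl
  obtain ⟨x, h3, h4⟩ := exists_of_hom (sne i) φ
  have h5 := h3.val_div x.in_i (Finset.mem_singleton_self _) (Finset.mem_singleton_self _)
  refine ⟨x, E 1 (X.t i) / x.val (X.t i / X.t x.i), div_ne_zero hi h5, fun m f hf => ?_⟩
  have e : X.t i ^ m * (X.t i ^ (-(m : ℤ)) * f) = f := by
    rw [zpow_neg, zpow_natCast, mul_inv_cancel_left₀ (pow_ne_zero _ (X.t_ne i))]
  have h6 := (h4 ⟨_, mem_AA.1 hf i⟩).trans (key ⟨_, mem_AA.1 hf i⟩ m (e.symm ▸ hf))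
  have e2 : X.t x.i ^ (-(m : ℤ)) * f = (X.t i / X.t x.i) ^ m * (X.t i ^ (-(m : ℤ)) * f) := by
    rw [div_pow, div_mul_eq_mul_div, e, zpow_neg, zpow_natCast, div_eq_inv_mul]
  rw [e2, val_mul (pow_mem (mem_of_val h5) m) (h3 (mem_AA.1 hf i)), val_pow (mem_of_val h5), h6, e,
    div_pow]
  field_simp

variable (Sg : Surf) (b : ℕ)

theorem exists_pnt_z {z : Pt} (hz : z ∈ (Sg.S b).pts) : ∃ (x : Pnt Sg.V.X) (c : ℂ), c ≠ 0 ∧
    ∀ (m : ℕ) (f : SA Sg m), evP Sg b m z f = c ^ m * x.val (Sg.V.X.t x.i ^ (-(m : ℤ)) * f.1) := by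
  choose E hE using fun m => LinearMap.exists_extend (evP Sg b m z)
  have h1 : ∀ (m : ℕ) (f : SA Sg m), E m f = evP Sg b m z f := fun m f =>
    DFunLike.congr_fun (hE m) f
  have hm : ∀ (m l : ℕ), ∀ f ∈ AA Sg.V.X m, ∀ g ∈ AA Sg.V.X l,
      E (m + l) (f * g) = E m f * E l g := fun m l f hf g hg => by
    rw [AA_nat] at hf hg
    rw [h1 m ⟨f, hf⟩, h1 l ⟨g, hg⟩, h1 _ ⟨_, SA_mul Sg hf hg⟩, evP_eq Sg b m ⟨z, hz⟩,
      evP_eq Sg b l ⟨z, hz⟩, evP_eq Sg b _ ⟨z, hz⟩]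
    exact congrFun (evS_mul Sg b ⟨f, hf⟩ ⟨g, hg⟩ _ rfl rfl) _
  obtain ⟨i, hi⟩ : ∃ i, E 1 (Sg.V.X.t i) ≠ 0 := by
    by_contra hc
    push Not at hc
    obtain ⟨⟨f, hf⟩, h2⟩ := evP_surj Sg b 3 hz 1
    have h3 : f ∈ T1 Sg.V.X.toCoord • Gm (OX Sg.V.X).toLat 2 := by
      rw [← (reg_OX Sg).gen le_rfl]
      exact (AA_nat Sg.V 3).ge hf
    refine one_ne_zero ((h2.symm.trans (h1 _ _).symm).trans ?_)
    refine Submodule.smul_induction_on (p := fun f => E 3 f = 0) h3 (fun l hl g hg => ?_)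
      fun _ _ h h' => by rw [map_add, h, h', add_zero]
    rw [smul_eq_mul, hm 1 2 l (T1_le_AA hl) g hg, show E 1 l = 0 from
      (Submodule.span_le (p := LinearMap.ker (E 1))).2 (Set.range_subset_iff.2 hc) hl, zero_mul]
  obtain ⟨x, c, hc, h⟩ := exists_pnt_of_gr E hm hi
  exact ⟨x, c, hc, fun m f => (h1 m f).symm.trans (h m f ((AA_nat Sg.V m).ge f.2))⟩

/-- the closed point of `z` -/
def pnt (z : Pt) (hz : z ∈ (Sg.S b).pts) : Pnt Sg.V.X := (exists_pnt_z Sg b hz).choose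

variable {Sg b} {z z' : Pt} {hz : z ∈ (Sg.S b).pts}

theorem evP_pnt (hz : z ∈ (Sg.S b).pts) : ∃ c : ℂ, c ≠ 0 ∧ ∀ (m : ℕ) (f : SA Sg m), evP Sg b m z f =
    c ^ m * (pnt Sg b z hz).val (Sg.V.X.t (pnt Sg b z hz).i ^ (-(m : ℤ)) * f.1) :=
  (exists_pnt_z Sg b hz).choose_spec

theorem mem_mP_iff {m : ℕ} {f : SA Sg m} : f ∈ mP Sg b m z ↔ f.1 ∈ van (pnt Sg b z hz) m := by
  obtain ⟨c, hc, h⟩ := evP_pnt hz
  rw [mP, LinearMap.mem_ker, h, mem_van, and_iff_right ((AA_nat Sg.V m).ge f.2), mul_eq_zero,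
    or_iff_right (pow_ne_zero _ hc)]

theorem map_mP (hz : z ∈ (Sg.S b).pts) (m : ℕ) :
    (mP Sg b m z).map (SA Sg m).subtype = van (pnt Sg b z hz) m := by
  refine le_antisymm (Submodule.map_le_iff_le_comap.2 fun f hf => mem_mP_iff.1 hf) fun f hf =>
    ⟨⟨f, (AA_nat Sg.V m).le (van_le _ _ hf)⟩, mem_mP_iff.2 hf, rfl⟩

theorem pnt_eq_iff_mP {b' : ℕ} {hz' : z' ∈ (Sg.S b').pts} :
    pnt Sg b z hz = pnt Sg b' z' hz' ↔ mP Sg b 1 z = mP Sg b' 1 z' :=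
  ⟨fun h => Submodule.ext fun f => by rw [mem_mP_iff (hz := hz), mem_mP_iff (hz := hz'), h],
    fun h => (ng Sg).eq_of_van (by
      rw [← Nat.cast_one, ← map_mP hz, ← map_mP hz', h])⟩

theorem mP_eq_of_pnt {b' : ℕ} {hz' : z' ∈ (Sg.S b').pts} (h : pnt Sg b z hz = pnt Sg b' z' hz')
    (m : ℕ) : mP Sg b m z = mP Sg b' m z' :=
  Submodule.ext fun f => by rw [mem_mP_iff (hz := hz), mem_mP_iff (hz := hz'), h]

theorem T_mem (Sg : Surf) (b : ℕ) (v : N265.Var) : Sg.T b v ∈ SA Sg 1 := by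
  have := Sg.aeval_mem_hom b (isHomogeneous_X ℂ v)
  rwa [aeval_X] at this

theorem evP_T (hz : z ∈ (Sg.S b).pts) (v : N265.Var) : evP Sg b 1 z ⟨_, T_mem Sg b v⟩ = z v := by
  by_cases h : Sg.T b v = 0
  · have h1 : (⟨_, T_mem Sg b v⟩ : SA Sg 1) = 0 := Subtype.ext h
    rw [h1, map_zero]
    exact (X_mem_cI.1 (hz.2 (X_mem_cI.2 h))).symm
  · rw [evP_eq Sg b 1 ⟨z, hz⟩]
    exact (evS_spec Sg b _ (r := X v) (by
      rw [one_smul, ← vdeg_eq ((Sg.supp b).blk v h)]; exact Hmg.X v) (aeval_X _ _) _).trans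
      (eval_X _)

theorem pnt_eq_iff {hz' : z' ∈ (Sg.S b).pts} :
    pnt Sg b z hz = pnt Sg b z' hz' ↔ ∃ c : ℂ, c ≠ 0 ∧ z' = c • z := by
  constructor
  · intro h
    obtain ⟨c, hc, h1⟩ := evP_pnt hz
    obtain ⟨c', hc', h2⟩ := evP_pnt hz'
    refine ⟨c' / c, div_ne_zero hc' hc, _root_.funext fun v => ?_⟩
    rw [Pi.smul_apply, ← evP_T hz, ← evP_T hz', h1, h2, h, smul_eq_mul]
    field_simp
  · rintro ⟨c, hc, rfl⟩
    refine pnt_eq_iff_mP.2 (Submodule.ext fun f => ?_)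
    obtain ⟨r, hr, h1, e⟩ := Sg.exists_hmg b f.2
    have h2 : ∀ y (hy : y ∈ (Sg.S b).pts), evP Sg b 1 y f = aeval y r := fun y hy => by
      rw [evP_eq Sg b 1 ⟨y, hy⟩]
      exact (evS_spec Sg b f hr e _).trans (coe_aeval_eq_eval y ▸ rfl)
    rw [mP, mP, LinearMap.mem_ker, LinearMap.mem_ker, h2 _ hz, h2 _ hz',
      show c • z = fun v => c * z v from rfl, aeval_smul_hom z c h1, mul_eq_zero,
      or_iff_right (pow_ne_zero _ hc)]

theorem pnt_surj (b : ℕ) (x : Pnt Sg.V.X) : ∃ z hz, pnt Sg b z hz = x := by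
  have hT : ∀ v, Sg.V.X.t x.i ^ (-1 : ℤ) * Sg.T b v ∈ x.O := fun v =>
    AA_mem_O ((AA_nat Sg.V 1).ge (T_mem Sg b v))
  let z : Pt := fun v => x.val (Sg.V.X.t x.i ^ (-1 : ℤ) * Sg.T b v)
  have h1 : ∀ (r : R) (m : ℕ), r.IsHomogeneous m →
      aeval z r = x.val (Sg.V.X.t x.i ^ (-(m : ℤ)) * aeval (Sg.T b) r) := fun r m hr => by
    have h2 := aeval_smul_hom (Sg.T b) (Sg.V.X.t x.i ^ (-1 : ℤ)) hr
    rw [← zpow_natCast, ← zpow_mul, neg_one_mul] at h2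
    rw [← h2]
    have h3 : aeval z = x.ev.comp (aeval fun v => (⟨_, hT v⟩ : x.O)) :=
      algHom_ext fun v => by simp [z, ev_apply]
    have h4 : aeval (fun v => Sg.V.X.t x.i ^ (-1 : ℤ) * Sg.T b v) =
        x.O.val.comp (aeval fun v => (⟨_, hT v⟩ : x.O)) := algHom_ext fun v => by simp
    rw [h3, h4]
    rfl
  have hz : z ∈ (Sg.S b).pts := by
    refine ⟨fun h0 => ?_, cI_le_iff.2 fun m r hr h => by rw [h1 r m hr, h]; simp⟩
    obtain ⟨r, -, hr, e⟩ := Sg.exists_hmg b ((AA_nat Sg.V 1).le (t_mem_AA x.i))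
    have h2 := aeval_smul_hom z 0 hr
    rw [show (fun v => 0 * z v) = z by rw [h0]; funext v; simp, h1 r 1 hr, e] at h2
    simp [Sg.V.X.t_ne] at h2
  refine ⟨z, hz, (ng Sg).eq_of_van fun f hf => ?_⟩
  have hf' := (AA_nat Sg.V 1).le (van_le _ _ hf)
  refine (mem_mP_iff (f := ⟨f, hf'⟩)).1 ?_
  obtain ⟨r, hr, h2, e⟩ := Sg.exists_hmg b hf'
  rw [mP, LinearMap.mem_ker, evP_eq Sg b 1 ⟨z, hz⟩]
  refine (evS_spec Sg b _ hr e _).trans ((coe_aeval_eq_eval z ▸ rfl : eval z r = aeval z r).trans ?_)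
  rw [h1 r 1 h2, e]
  exact (mem_van.1 hf).2

end Crest.Agent.N265.Fib
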