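import Crest.Agent.N265.Fib.H0
import Crest.Agent.N265.Fib.H1
import Crest.Agent.N265.Fib.P4
import Crest.Agent.N265.Fib.P5
import Crest.Agent.N265.M.Fam

/-!
# Row 265, task M-TV, part 2 (helper42): the syzygy lattice `B0` with `Γ(B0(k)) = KK k`
-/

set_option autoImplicit false
set_option linter.dupNamespace false
set_option linter.unusedSectionVars false
noncomputable section
open Module TensorProduct Filter

namespace Crest.Agent.N265.M.Hx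
open Crest.Agent.R274
open Ses_781 Defs_781 Lat_781 Ser_781 SnapA_99 SnapB_99 SnapC_99 SnapD_99 SnapE_99 Gen7_750
open Xs1_781 SkDefs_474
open Alg GV Br N N.Sg1 Hm Fib Fib.Hz Fib.Pnt _root_.Crest.Agent.N265.Pow
variable {Sg : Surf} {𝔞 : Amb Sg} {L : XL Sg 𝔞.M} {p k b : ℕ}

lemma mem_SA {m : ℕ} {a : Sg.F} : a ∈ SA Sg m ↔ a ∈ AA Sg.V.X m := by rw [AA_nat]

lemma finrank_G (𝔞 : Amb Sg) (m : ℕ) :
    finrank ℂ (𝔞.G m).V = Fintype.card 𝔞.ι * finrank ℂ (SA Sg m) :=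
  (finrank_pi_fintype ℂ (M := fun _ : 𝔞.ι => SA Sg m)).trans (by simp)

/-- a sublattice whose quotient has a linear Hilbert polynomial is full -/
theorem xfull_of_HP (h : LeL L 𝔞.O) {d : ℕ} {c : ℤ}
    (hp : cL L.toLat = HP Sg (Fintype.card 𝔞.ι) d c) : XFull L := by
  classical
  by_contra hc
  obtain ⟨φ, h0, hφ⟩ := Submodule.exists_le_ker_of_lt_top (Submodule.span Sg.F (L.M {0} : Set 𝔞.M))
    (lt_top_iff_ne_top.2 fun h => hc (xfull_of_single h))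
  obtain ⟨a, ha⟩ : ∃ a, φ (𝔞.e.symm (Pi.single a 1)) ≠ 0 := by
    by_contra! H
    refine h0 (LinearMap.ext fun v => ?_)
    rw [← 𝔞.e.symm_apply_apply v, pi_eq_sum_univ' (𝔞.e v)]
    simp [H]
  have key : ∀ m : ℕ, (finrank ℂ (Gm L.toLat m) : ℤ) + finrank ℂ (SA Sg m) ≤
      Fintype.card 𝔞.ι * finrank ℂ (SA Sg m) := fun m => by
    let j : SA Sg m →ₗ[ℂ] (𝔞.G m).V := LinearMap.single ℂ (fun _ => SA Sg m) a
    have hj : Function.Injective j := Pi.single_injective (M := fun _ => SA Sg m) a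
    have h1 := Submodule.finrank_add_finrank_le_of_disjoint (s := 𝔞.pc L m) (t := LinearMap.range j)
      (Submodule.disjoint_def.2 fun _ hw ⟨f, hf⟩ => by
        subst hf
        have h2 : 𝔞.inc m (j f) = f.1 • 𝔞.e.symm (Pi.single a 1) := by
          rw [Amb.inc_apply, ← map_smul]
          refine congrArg _ (funext fun a' => ?_)
          by_cases e : a' = a
          · subst e; simp [j]
          · simp [j, e]
        have h3 := hφ (Submodule.subset_span (mem_Gm.1 (Amb.mem_pc.1 hw) 0))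
        rw [LinearMap.mem_ker, map_smul, h2, map_smul, smul_eq_zero, smul_eq_zero] at h3
        rw [show f = 0 from Subtype.ext ((h3.resolve_left
          (zpow_ne_zero _ (Sg.V.X.t_ne 0))).resolve_right ha), map_zero])
    rw [LinearMap.finrank_range_of_inj hj, finrank_G,
      (Submodule.equivMapOfInjective _ (𝔞.inc_inj m) _).finrank_eq, Amb.map_pc h] at h1
    exact_mod_cast h1
  obtain ⟨m₀, hm⟩ := eventually_atTop.1 (ev_cL L.toLat)
  obtain ⟨m, h1, h2⟩ : ∃ m : ℕ, m₀ ≤ m ∧ 2 * (|Sg.V.chi 0| + |Sg.V.chi Sg.V.h - Sg.V.chi 0| + d +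
    |c|) + 2 ≤ m := ⟨_, (le_max_left _ _).trans (Int.self_le_toNat _),
      (le_max_right _ _).trans (Int.self_le_toNat _)⟩
  have h3 := key m
  have h4 := finrank_AA Sg (e := m) (by omega)
  have h5 := Ch.chi_nsmul Sg.V Sg.V.h m
  have h6 : 0 < Ch.ip Sg.V Sg.V.h Sg.V.h := Ch.dg_h_pos Sg.V
  rw [AA_nat] at h4
  rw [← hm m h1, hp, HP, h4, natCast_zsmul] at h3
  have := abs_nonneg c
  have := abs_nonneg (Sg.V.chi 0)
  have := abs_nonneg (Sg.V.chi Sg.V.h - Sg.V.chi 0)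
  have := le_abs_self c
  have := neg_abs_le (Sg.V.chi 0)
  have := neg_abs_le (Sg.V.chi Sg.V.h - Sg.V.chi 0)
  have h7 : (m : ℤ) * (m - 1) ≤ m * (m - 1) * Ch.ip Sg.V Sg.V.h Sg.V.h :=
    le_mul_of_one_le_right (mul_nonneg (by omega) (by omega)) h6
  nlinarith

section lin
variable {V M : Type} [AddCommGroup V] [Module ℂ V]
  [AddCommGroup M] [Module ℂ M] [Module Sg.F M] [IsScalarTower ℂ Sg.F M]
lemma mF_muW (f : V →ₗ[ℂ] M) (l : SA Sg 1) (t : V ⊗[ℂ] SA Sg k) :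
    mF f (k + 1) (muW Sg V k (l ⊗ₜ t)) = l.1 • mF f k t := by
  induction t using TensorProduct.induction_on with
  | zero => simp
  | tmul v a => rw [muW_tmul, mF_tmul, mF_tmul, mulA_val, mul_smul]
  | add t t' h h' => simp only [tmul_add, map_add, smul_add, h, h']
lemma mF_comp {M' : Type} [AddCommGroup M'] [Module ℂ M'] [Module Sg.F M']
    [IsScalarTower ℂ Sg.F M'] (ρ : M →ₗ[Sg.F] M') (f : V →ₗ[ℂ] M) (t : V ⊗[ℂ] SA Sg k) :
    mF (ρ.restrictScalars ℂ ∘ₗ f) k t = ρ (mF f k t) := by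
  induction t using TensorProduct.induction_on with
  | zero => simp only [map_zero]
  | tmul v a => exact (map_smul ρ _ _).symm
  | add t t' h h' => simp only [map_add, h, h']
lemma map_mulS' (f : V →ₗ[ℂ] M) (P : Submodule ℂ (SA Sg 1)) (N : Submodule ℂ (V ⊗[ℂ] SA Sg k)) :
    (mulS Sg P N).map (mF f (k + 1)) = P.map (SA Sg 1).subtype • N.map (mF f k) := by
  refine le_antisymm ?_ (Submodule.smul_le.2 ?_)
  · rw [mulS, ← Submodule.map_comp, Submodule.map_le_iff_le_comap]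
    exact tens_le.2 fun l hl t ht => (mF_muW f l t).symm.subst (motive := (· ∈ _))
      (Submodule.smul_mem_smul (Submodule.mem_map_of_mem hl) (Submodule.mem_map_of_mem ht))
  · rintro _ ⟨l, hl, rfl⟩ _ ⟨t, ht, rfl⟩
    exact ⟨_, ⟨_, tmul_mem hl ht, rfl⟩, mF_muW f l t⟩
lemma muW_mem {U : Submodule ℂ V} (l : SA Sg 1) {t : V ⊗[ℂ] SA Sg k} (ht : t ∈ tens U ⊤) :
    muW Sg V k (l ⊗ₜ t) ∈ tens U ⊤ := by
  refine tens_ind ht (by simp) (fun v hv a _ => ?_) fun _ _ h h' => by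
    rw [tmul_add, map_add]; exact add_mem h h'
  rw [muW_tmul]
  exact tmul_mem hv trivial
lemma evz_mem_mX {B : XL Sg M} {f : V →ₗ[ℂ] M} {P : Submodule ℂ V} {e : ℤ}
    (hP : ∀ v ∈ P, f v ∈ Gm B.toLat e) {z : Pt} (hz : z ∈ (Sg.S b).pts) {t : V ⊗[ℂ] SA Sg k}
    (ht : t ∈ tens P ⊤) (h0 : mF f k t = 0) :
    f (evz Sg b V k z t) ∈ Gm (mX (pnt Sg b z hz) B).toLat e := by
  obtain ⟨c, -, hc⟩ := evP_pnt hz
  generalize pnt Sg b z hz = x at hc ⊢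
  refine mem_Gm_mX.2 ⟨hP _ (evT_mem _ ht), ?_⟩
  have h1 : c ^ k • Sg.V.X.t x.i ^ (-(k : ℤ)) • Sg.V.X.t x.i ^ (-e) • mF f k t -
      Sg.V.X.t x.i ^ (-e) • f (evz Sg b _ k z t) ∈ x.m • x.loc B := by
    refine tens_ind ht (by simp) (fun κ hκ a _ => ?_) fun _ _ h h' => by
      simp only [map_add, smul_add, add_sub_add_comm]; exact add_mem h h'
    have := Pnt.smul_sub_mem (AA_mem_O (x := x) (mem_SA.1 a.2)) (Gm_mem_loc (hP _ hκ))
    rw [mF_tmul, evT_tmul, hc, map_smul, smul_comm _ (_ * _ : ℂ), mul_smul, ← smul_sub,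
      smul_comm _ a.1, smul_smul]
    exact csmul_mem _ this
  rwa [h0, smul_zero, smul_zero, smul_zero, zero_sub, neg_mem_iff] at h1
end lin

variable (𝔞 L p)
/-- the generators in degree `p` -/
abbrev gu : Ix (𝔞.pc L p) → 𝔞.M := fun l => 𝔞.inc p (fu _ l)
/-- the generic fibre of the syzygy lattice -/
abbrev sW : Submodule Sg.F (Ix (𝔞.pc L p) → Sg.F) :=
  LinearMap.ker (Fintype.linearCombination Sg.F (gu 𝔞 L p))
/-- the syzygy lattice -/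
abbrev B0 : XL Sg (sW 𝔞 L p) := capX Sg.V.X (sW 𝔞 L p)
/-- coordinates, projected to `sW` -/
def sB : (𝔞.G p).V →ₗ[ℂ] sW 𝔞 L p := ((sW 𝔞 L p).subtype.exists_leftInverse_of_injective
  (sW 𝔞 L p).ker_subtype).choose.restrictScalars ℂ ∘ₗ fΛ Sg (𝔞.pc L p)
/-- identifies `KK k` with `Γ(B0(k))` -/
abbrev cB (k : ℕ) : (WA Sg (𝔞.G p) k).V →ₗ[ℂ] sW 𝔞 L p := mF (sB 𝔞 L p) k
variable {𝔞 L p}

lemma mem_KK {t : (WA Sg (𝔞.G p) k).V} :
    t ∈ 𝔞.KK L p k ↔ t ∈ tens (𝔞.pc L p) ⊤ ∧ co (𝔞.pc L p) k t ∈ sW 𝔞 L p :=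
  and_congr_right fun h => by
    rw [SetLike.mem_coe, LinearMap.mem_ker, mF_co _ h]; rfl
lemma cB_coe {t : (WA Sg (𝔞.G p) k).V} (h : t ∈ 𝔞.KK L p k) :
    (cB 𝔞 L p k t).1 = co (𝔞.pc L p) k t := by
  have h1 := LinearMap.congr_fun ((sW 𝔞 L p).subtype.exists_leftInverse_of_injective
    (sW 𝔞 L p).ker_subtype).choose_spec ⟨_, (mem_KK.1 h).2⟩
  exact congrArg Subtype.val ((mF_comp _ _ t).trans h1)
lemma cB_inj {t : (WA Sg (𝔞.G p) k).V} (h : t ∈ 𝔞.KK L p k) (h0 : cB 𝔞 L p k t = 0) : t = 0 :=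
  co_inj h.1 (by rw [← cB_coe h, h0]; rfl)
lemma map_cB (k : ℕ) : (𝔞.KK L p k).map (cB 𝔞 L p k) = Gm (B0 𝔞 L p).toLat k := by
  refine le_antisymm ?_ fun c hc => ?_
  · rintro _ ⟨t, ht, rfl⟩
    exact mem_Gm_capX.2 fun a => by rw [cB_coe ht]; exact mem_SA.1 (co_mem _ t a)
  · obtain ⟨t, h1, h2⟩ := exists_co fun a => mem_SA.2 (mem_Gm_capX.1 hc a)
    have h3 : t ∈ 𝔞.KK L p k := mem_KK.2 ⟨h1, h2 ▸ c.2⟩
    exact ⟨t, h3, Subtype.ext ((cB_coe h3).trans h2)⟩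
lemma mem_of_cB {Q : Submodule ℂ (WA Sg (𝔞.G p) k).V} (hQ : Q ≤ 𝔞.KK L p k)
    {t : (WA Sg (𝔞.G p) k).V} (h : t ∈ 𝔞.KK L p k) (h' : cB 𝔞 L p k t ∈ Q.map (cB 𝔞 L p k)) :
    t ∈ Q := by
  obtain ⟨s, hs, e⟩ := h'
  rwa [← sub_eq_zero.1 (cB_inj (sub_mem (hQ hs) h) (by rw [map_sub, e, sub_self]))]
lemma finrank_cB {Q : Submodule ℂ (WA Sg (𝔞.G p) k).V} (hQ : Q ≤ 𝔞.KK L p k) :
    finrank ℂ (Q.map (cB 𝔞 L p k)) = finrank ℂ Q := by
  have := Alg.finrank_map_add_inf_ker Q (cB 𝔞 L p k)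
  rwa [eq_bot_iff.2 (show Q ⊓ _ ≤ ⊥ from fun t ht => cB_inj (hQ ht.1) ht.2), finrank_bot,
    add_zero] at this
lemma mulS_le_KK (P : Submodule ℂ (SA Sg 1)) : mulS Sg P (𝔞.KK L p k) ≤ 𝔞.KK L p (k + 1) :=
  Submodule.map_le_iff_le_comap.2 (tens_le.2 fun l _ t ht => ⟨muW_mem l ht.1,
    (mF_muW _ l t).trans ((congrArg _ ht.2).trans (smul_zero _))⟩)
lemma map_mulS_KK (P : Submodule ℂ (SA Sg 1)) : (mulS Sg P (𝔞.KK L p k)).map (cB 𝔞 L p (k + 1)) =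
    (P.map (SA Sg 1).subtype • Gm (B0 𝔞 L p).toLat (k : ℤ) : Submodule ℂ (sW 𝔞 L p)) :=
  (map_mulS' _ _ _).trans (congrArg _ (map_cB k))
theorem locF_B0 : LocF (B0 𝔞 L p) := locF_comapX (xfull_OP _) (s2_OP _) _ _

section reg
variable (h : LeL L 𝔞.O) (hr : RegL L.toLat p)
include h
lemma span_gu : Submodule.span ℂ (Set.range (gu 𝔞 L p)) = Gm L.toLat p := by
  rw [← Amb.map_pc h]
  conv_rhs => rw [← span_finBasis (𝔞.pc L p), Submodule.map_span, ← Set.range_comp]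
  rfl
include hr
lemma le_genX : L.toFam.LE (genX Sg.V.X (gu 𝔞 L p) p).toFam :=
  (le_genS_of_gen fun _ he => hr.gen he).trans (genS_le ((span_gu h).ge.trans
    (Submodule.span_le.2 (Set.range_subset_iff.2 fun l => by
      classical
      have := sum_mem_genX (X := Sg.V.X) (gu 𝔞 L p) p (e := 0) (x := Pi.single l 1) fun a => by
        rw [Pi.single_apply]
        split_ifs
        exacts [one_mem_AA, zero_mem _]
      simpa [Pi.single_apply] using this))))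
lemma exact_B0 : Exact (B0 𝔞 L p).toFam (OP Sg.V.X (Ix (𝔞.pc L p))).toFam (twX L p).toFam
    (kl ℂ (sW 𝔞 L p).subtype) (kl ℂ (Fintype.linearCombination Sg.F (gu 𝔞 L p))) where
  maps _ _ _ hx := hx
  maps' := fun I ⟨i, hi⟩ c hc => (mem_twX hi).2 (genX_le (M := L)
    (fun l => Amb.mem_pc.1 (fu_mem _ l)) I ⟨i, hi⟩ ((mem_genX hi).2 ⟨c, mem_OP.1 hc, by
      simp only [kl_apply, Fintype.linearCombination_apply, Finset.smul_sum,
        smul_comm (Sg.V.X.t i ^ (-(p : ℤ)))]⟩))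
  inj _ _ _ _ h := Subtype.ext h
  comp _ _ x _ := x.2
  ex _ _ y hy h := ⟨⟨y, h⟩, hy, rfl⟩
  surj := fun I ⟨i, hi⟩ z hz => by
    obtain ⟨c, hc, e⟩ := (mem_genX hi).1 (le_genX h hr I ⟨i, hi⟩ ((mem_twX hi).1 hz))
    refine ⟨c, mem_OP.2 hc, smul_right_injective _ (zpow_ne_zero (-(p : ℤ)) (Sg.V.X.t_ne i)) ?_⟩
    simp only [kl_apply, Fintype.linearCombination_apply, Finset.smul_sum, ← e,
      smul_comm (Sg.V.X.t i ^ (-(p : ℤ)))]
lemma finrank_KK (k : ℕ) : finrank ℂ (𝔞.KK L p k) + finrank ℂ (𝔞.pc L (k + p)) =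
    finrank ℂ (𝔞.pc L p) * finrank ℂ (SA Sg k) := by
  have := Alg.finrank_map_add_inf_ker (tens (𝔞.pc L p) ⊤) (𝔞.mul p k)
  rw [Amb.map_mul_pc h hr le_rfl, finrank_tens, finrank_top, add_comm] at this
  rw [← this, Amb.KK, show LinearMap.ker (mF (𝔞.inc p) k) = LinearMap.ker (𝔞.mul p k) from
    Submodule.ext fun t => by
      rw [LinearMap.mem_ker, LinearMap.mem_ker, ← 𝔞.inc_mul, map_eq_zero_iff _ (𝔞.inc_inj _)]]
theorem reg_B0 : RegL (B0 𝔞 L p).toLat 2 := by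
  have h2 : ∀ e : ℤ, 0 ≤ e → hL (B0 𝔞 L p).toLat e 2 = 0 := fun e he =>
    (ne_exact (M₁ := twX _ e) (M₂ := twX _ e) (M₃ := twX _ e) (exact_tw (exact_B0 h hr) e)).a_zero
      (h_eq_zero_iff.2 (van_tw (hr.van one_pos (by omega))))
      (h_eq_zero_iff.2 (van_OP Sg _ he two_pos))
  refine regL_iff.2 ⟨hL_eq_zero_iff.1 ?_, hL_eq_zero_iff.1 (h2 _ (by omega))⟩
  have h3 := cL_exact (exact_B0 h hr) (1 : ℕ)
  have h4 := cL_two (B0 𝔞 L p).toLat (1 : ℕ)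
  have h5 := finrank_KK h hr 1
  have h6 := finrank_AA Sg (e := (1 : ℕ)) (by omega)
  have h7 := Amb.finrank_pc h hr (j := 1 + p) (by omega)
  have h8 := finrank_cB (𝔞 := 𝔞) (L := L) (p := p) (k := 1) le_rfl
  have h9 : cL (twX L p).toLat (1 : ℕ) = cL L.toLat (1 + p : ℕ) := by
    rw [Nat.cast_add, add_comm]
    exact Eqv.chi fun _ hI => tw_tw L.toLat _ _ hI
  rw [map_cB] at h8
  rw [h2 _ (by omega), hL_zero] at h4
  rw [cL_OP, Fintype.card_fin, ← h6, AA_nat, h9, ← h7, h4, h8] at h3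
  have : (hL (B0 𝔞 L p).toLat (1 : ℕ) 1 : ℤ) = 0 := by push_cast at h3 ⊢; zify at h5; linarith
  exact_mod_cast this
theorem gen_KK (hk : 2 ≤ k) : mulS Sg ⊤ (𝔞.KK L p k) = 𝔞.KK L p (k + 1) := by
  refine le_antisymm (mulS_le_KK _) fun t ht => mem_of_cB (mulS_le_KK _) ht ?_
  have h1 := (map_cB (k + 1)).le (Submodule.mem_map_of_mem ht)
  rw [Nat.cast_succ, (reg_B0 h hr).gen (by omega)] at h1
  rw [map_mulS_KK]
  exact Submodule.smul_mono_left (fun a ha => Submodule.mem_map_of_mem (f := (SA Sg 1).subtype)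
    (r := ⟨a, mem_SA.2 (T1_le_AA ha)⟩) Submodule.mem_top) h1
theorem map_ZZ (hk : 2 ≤ k) {z : Pt} (hz : z ∈ (Sg.S b).pts) :
    (mulS Sg (mP Sg b 1 z) (𝔞.KK L p k)).map (cB 𝔞 L p (k + 1)) =
      Gm (mX (pnt Sg b z hz) (B0 𝔞 L p)).toLat (k + 1) := by
  rw [map_mulS_KK, map_mP hz, (ng Sg).Gm_mX _ (reg_B0 h hr) (by omega), Nat.cast_one]
theorem finrank_sW (hf : XFull L) :
    finrank Sg.F (sW 𝔞 L p) + Fintype.card 𝔞.ι = finrank ℂ (𝔞.pc L p) := by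
  have h1 := (Fintype.linearCombination Sg.F (gu 𝔞 L p)).finrank_range_add_finrank_ker
  have h2 : LinearMap.range (Fintype.linearCombination Sg.F (gu 𝔞 L p)) = ⊤ :=
    eq_top_iff.2 ((hf _ (sne 0)).ge.trans (Submodule.span_le.2 fun v hv => by
      obtain ⟨c, -, rfl⟩ := (mem_genX (Finset.mem_singleton_self 0)).1 (le_genX h hr _ (sne 0) hv)
      exact Submodule.sum_mem _ fun a _ => Submodule.smul_mem _ _ (Submodule.smul_mem _ _
        (by rw [Fintype.range_linearCombination]; exact Submodule.subset_span ⟨a, rfl⟩))))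
  rwa [h2, finrank_top, 𝔞.e.finrank_eq, finrank_fintype_fun_eq_card, finrank_fintype_fun_eq_card,
    Fintype.card_fin, add_comm] at h1
theorem rk_KK (hk : 2 ≤ k) {z : Pt} (hz : z ∈ (Sg.S b).pts) :
    finrank ℂ (mulS Sg (mP Sg b 1 z) (𝔞.KK L p k)) + finrank Sg.F (sW 𝔞 L p) =
      finrank ℂ (𝔞.KK L p (k + 1)) := by
  rw [← finrank_cB (mulS_le_KK _), ← finrank_cB (k := k + 1) le_rfl, map_cB, map_mulS_KK, map_mP hz,
    Nat.cast_one, Nat.cast_succ]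
  exact (ng Sg).finrank_van_smul_of_locF _ locF_B0 (reg_B0 h hr) (by omega)
/-- the value at `z` of a relation -/
theorem evz_mem_ZZ (hk : 2 ≤ k) {z : Pt} (hz : z ∈ (Sg.S b).pts) {j : ℕ}
    {t : (WA Sg (𝔞.G p) (k + 1)).V ⊗[ℂ] SA Sg j} (ht : t ∈ tens (𝔞.KK L p (k + 1)) ⊤)
    (h0 : mm _ (k + 1) j t = 0) : evz Sg b _ j z t ∈ mulS Sg (mP Sg b 1 z) (𝔞.KK L p k) := by
  refine mem_of_cB (mulS_le_KK _) (evT_mem _ ht) ?_
  rw [map_ZZ h hr hk hz, ← Nat.cast_succ]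
  exact evz_mem_mX (fun _ hκ => (map_cB _).le (Submodule.mem_map_of_mem hκ)) hz ht
    ((mF_mm _ t).symm.trans ((congrArg _ h0).trans (map_zero _)))
end reg

end Crest.Agent.N265.M.Hx
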