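import Crest.Agent.N265.Fib.Pers
import Crest.Agent.N265.Ch.Top2

/-!
# Row 265, fibrewise theory, part 4 (helper42): the Koszul complex of the three coordinates

`0 → Γ(M(e)) → Γ(M(e+1))³ → Γ(M(e+2))³ → Γ(M(e+3)) → 0` with maps `kos1`, `kos2`, `kos3`;
`descend` : sections of `M/N` can be divided by the coordinates when `H¹(N(e)) = 0`.
-/

set_option autoImplicit false
set_option linter.unusedSectionVars false
noncomputable section

namespace Crest.Agent.N265.Fib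

open Crest.Agent.R274
open Cx_781 Defs_781 Ses_781 Lat_781 Ser_781 SnapA_99 SnapB_99 SnapE_99 Gen7_750 Xs1_781 Filter
open Module (finrank)

universe u

section Alg

variable {F : Type*} [Field F] (V : Type*) [AddCommGroup V] [Module F V] (t : Fin 3 → F)

/-- `x ↦ (t_i x)_i` -/
def kos1 : V →ₗ[F] (Fin 3 → V) := LinearMap.pi fun i => LinearMap.lsmul F V (t i)
/-- the cross product with `t` -/
def kos2 : (Fin 3 → V) →ₗ[F] (Fin 3 → V) := LinearMap.pi fun i =>
  t (i + 1) • LinearMap.proj (i + 2) - t (i + 2) • LinearMap.proj (i + 1)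
/-- the scalar product with `t` -/
def kos3 : (Fin 3 → V) →ₗ[F] V := ∑ i, t i • LinearMap.proj i

variable {V}

theorem kos1_apply (x : V) (i : Fin 3) : kos1 V t x i = t i • x := rfl
theorem kos2_apply (y : Fin 3 → V) (i : Fin 3) :
    kos2 V t y i = t (i + 1) • y (i + 2) - t (i + 2) • y (i + 1) := rfl
theorem kos3_apply (z : Fin 3 → V) : kos3 V t z = ∑ i, t i • z i := by
  simp [kos3]

theorem kos2_kos1 (x : V) : kos2 V t (kos1 V t x) = 0 := funext fun i => by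
  rw [kos2_apply, kos1_apply, kos1_apply, smul_comm, sub_self, Pi.zero_apply]

theorem kos3_kos2 (y : Fin 3 → V) : kos3 V t (kos2 V t y) = 0 := by
  simp only [kos3_apply, Fin.sum_univ_three, kos2_apply]
  change t 0 • (t 1 • y 2 - t 2 • y 1) + t 1 • (t 2 • y 0 - t 0 • y 2) +
    t 2 • (t 0 • y 1 - t 1 • y 0) = 0
  module

theorem kos1_inj {i : Fin 3} (h : t i ≠ 0) : Function.Injective (kos1 V t) :=
  fun _ _ hxy => smul_right_injective V h (congrFun hxy i)

theorem smul_comm_of_kos2 {y : Fin 3 → V} (h : kos2 V t y = 0) (i j : Fin 3) :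
    t i • y j = t j • y i := by
  have h0 : t 1 • y 2 = t 2 • y 1 := sub_eq_zero.1 (congrFun h 0)
  have h1 : t 2 • y 0 = t 0 • y 2 := sub_eq_zero.1 (congrFun h 1)
  have h2 : t 0 • y 1 = t 1 • y 0 := sub_eq_zero.1 (congrFun h 2)
  fin_cases i <;> fin_cases j <;> first | rfl | assumption | (symm; assumption)

theorem kos1_div {y : Fin 3 → V} (h : kos2 V t y = 0) {i : Fin 3} (hi : t i ≠ 0) :
    kos1 V t ((t i)⁻¹ • y i) = y := funext fun j => by
  rw [kos1_apply, smul_comm, smul_comm_of_kos2 t h, inv_smul_smul₀ hi]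

theorem kos2_div {z : Fin 3 → V} (h : kos3 V t z = 0) {i : Fin 3} (hi : t i ≠ 0) :
    kos2 V t ((t i)⁻¹ • kos2 V (-Pi.single i 1 : Fin 3 → F) z) = z := by
  rw [map_smul, inv_smul_eq_iff₀ hi]
  rw [kos3_apply, Fin.sum_univ_three] at h
  funext j
  fin_cases i <;> fin_cases j <;> simp [kos2_apply] <;>
    first | module | linear_combination (norm := module) (-1 : F) • h

end Alg

variable {k : Type u} [Field k] {F : Type u} [Field F] [Algebra k F] {c : Coord k F 2}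
  {V : Type u} [AddCommGroup V] [Module k V] [Module F V] [IsScalarTower k F V]

theorem kos1_mem {M : Lat c V} {e : ℤ} {x : V} (hx : x ∈ Gm M e) (i : Fin 3) :
    kos1 V c.t x i ∈ Gm M (e + 1) := smul_mem_Gm (t_mem_T1 i) hx

theorem kos2_mem {M : Lat c V} {e : ℤ} {y : Fin 3 → V} (hy : ∀ i, y i ∈ Gm M e) (i : Fin 3) :
    kos2 V c.t y i ∈ Gm M (e + 1) :=
  sub_mem (smul_mem_Gm (t_mem_T1 _) (hy _)) (smul_mem_Gm (t_mem_T1 _) (hy _))

theorem kos3_mem {M : Lat c V} {e : ℤ} {z : Fin 3 → V} (hz : ∀ i, z i ∈ Gm M e) :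
    kos3 V c.t z ∈ Gm M (e + 1) := by
  rw [kos3_apply]
  exact Submodule.sum_mem _ fun i _ => smul_mem_Gm (t_mem_T1 i) (hz i)

theorem kos_ex1 {M : Lat c V} {e : ℤ} {y : Fin 3 → V} (hy : ∀ i, y i ∈ Gm M (e + 1))
    (h : kos2 V c.t y = 0) : ∃ x ∈ Gm M e, kos1 V c.t x = y :=
  have h1 := kos1_div c.t h (c.t_ne 0)
  ⟨_, mem_Gm_of_smul fun i => by rw [← kos1_apply, h1]; exact hy i, h1⟩

theorem exact_kos (M : Lat c V) : Exact M.toFam (piLat fun _ : Fin 3 => tw M 1).toFam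
    (mapL (kos2 V c.t) (piLat fun _ : Fin 3 => tw M 1)).toFam (kl k (kos1 V c.t))
    (kl k (kos2 V c.t)) where
  maps := fun I ⟨i, hi⟩ x hx => mem_piFam.2 fun j => (mem_tw_iff hi).2 (by
    rw [kl_apply, kos1_apply, smul_smul, zpow_neg_one, ← div_eq_inv_mul]
    exact M.smul_mem ⟨i, hi⟩ _ (div_mem_R c hi j) x hx)
  maps' _ _ x hx := ⟨x, hx, rfl⟩
  inj _ _ _ _ h := kos1_inj c.t (c.t_ne 0) (h.trans (map_zero _).symm)
  comp _ _ x _ := kos2_kos1 c.t x
  ex := fun I ⟨i, hi⟩ y hy h => ⟨_, by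
    have := (mem_tw_iff hi).1 (mem_piFam.1 hy i)
    rwa [zpow_neg_one] at this, kos1_div c.t h (c.t_ne i)⟩
  surj _ _ _ hz := hz

theorem kos_ex2 {M : Lat c V} {e : ℤ} (h1 : Subsingleton ((tw M e).H 1)) {z : Fin 3 → V}
    (hz : ∀ i, z i ∈ Gm M (e + 2)) (h : kos3 V c.t z = 0) :
    ∃ y : Fin 3 → V, (∀ i, y i ∈ Gm M (e + 1)) ∧ kos2 V c.t y = z := by
  obtain ⟨y, hy, h2⟩ := Gm_surj_of_exact (exact_kos M) h1 (z := z) (mem_Gm.2 fun i => by
    refine ⟨c.t i ^ (-e) • (c.t i)⁻¹ • kos2 V (-Pi.single i 1 : Fin 3 → F) z,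
      mem_piFam.2 fun j => (mem_tw_iff (Finset.mem_singleton_self i)).2 ?_, ?_⟩
    · have h3 : ∀ l l', c.t i ^ (-(e + 2)) • (-Pi.single i 1 : Fin 3 → F) l • z l' ∈ M.M {i} := by
        intro l l'
        rw [smul_comm, Pi.neg_apply, neg_smul, Pi.single_apply]
        split_ifs
        · rw [one_smul]
          exact neg_mem (mem_Gm.1 (hz l') i)
        · rw [zero_smul, neg_zero]
          exact zero_mem _
      rw [Pi.smul_apply, Pi.smul_apply, smul_smul, smul_smul, ← zpow_neg_one,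
        ← zpow_add₀ (c.t_ne i), ← zpow_add₀ (c.t_ne i), show -1 + -e + -1 = -(e + 2) by ring,
        kos2_apply, smul_sub]
      exact sub_mem (h3 _ _) (h3 _ _)
    · rw [kl_apply, map_smul, kos2_div c.t h (c.t_ne i)])
  refine ⟨y, fun i => ?_, h2⟩
  have := Gm_pi.1 hy i
  rwa [Gm_tw, add_comm] at this

theorem kos_surj3 {M : Lat c V} {e : ℤ} (h : Gm M (e + 1) = T1 c • Gm M e) {x : V}
    (hx : x ∈ Gm M (e + 1)) : ∃ z : Fin 3 → V, (∀ i, z i ∈ Gm M e) ∧ kos3 V c.t z = x := by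
  rw [h] at hx
  refine Submodule.smul_induction_on hx (fun a ha y hy => ?_) ?_
  · obtain ⟨b, rfl⟩ := (Submodule.mem_span_range_iff_exists_fun k).1 ha
    refine ⟨fun i => b i • y, fun i => Submodule.smul_mem _ _ hy, ?_⟩
    simp only [kos3_apply, Finset.sum_smul, smul_assoc, smul_comm (b _)]
  · rintro x y ⟨z, hz, rfl⟩ ⟨z', hz', rfl⟩
    exact ⟨z + z', fun i => add_mem (hz i) (hz' i), map_add _ _ _⟩

/-- division by the coordinates modulo `N` -/
theorem descend {N M : Lat c V} (hN : N.toFam.LE M.toFam) {e : ℤ}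
    (h1 : Subsingleton ((tw N e).H 1)) {y : Fin 3 → V} (hy : ∀ i, y i ∈ Gm M (e + 1))
    (h : ∀ i, kos2 V c.t y i ∈ Gm N (e + 2)) : ∃ x ∈ Gm M e, ∀ i, y i - c.t i • x ∈ Gm N (e + 1) := by
  obtain ⟨w, hw, h2⟩ := kos_ex2 h1 h (kos3_kos2 c.t y)
  obtain ⟨x, hx, h3⟩ := kos_ex1 (M := M) (y := y - w) (fun i => sub_mem (hy i) (Gm_mono hN _ (hw i)))
    (by rw [map_sub, h2, sub_self])
  refine ⟨x, hx, fun i => ?_⟩
  rw [← kos1_apply, h3, Pi.sub_apply, sub_sub_cancel]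
  exact hw i

/-- vanishing of `H¹(M(e))`, `H²(M(e))` for `e ≥ m` -/
def Van (M : Lat c V) (m : ℤ) : Prop := ∀ e, m ≤ e → ∀ p, 0 < p → Subsingleton ((tw M e).H p)

theorem Van.reg {M : Lat c V} {m : ℤ} (h : Van M m) : RegL M (m + 2) :=
  regL_iff.2 ⟨h _ (by omega) _ one_pos, h _ (by omega) _ two_pos⟩

theorem RegL.toVan {M : Lat c V} {m : ℤ} (h : RegL M m) : Van M (m - 1) :=
  fun _ he _ hp => h.van hp (by omega)

theorem Van.of12 {M : Lat c V} {m : ℤ} (h1 : ∀ e, m ≤ e → Subsingleton ((tw M e).H 1))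
    (h2 : ∀ e, m ≤ e → Subsingleton ((tw M e).H 2)) : Van M m := fun e he p hp => by
  obtain rfl | rfl | h : p = 1 ∨ p = 2 ∨ 2 < p := by omega
  exacts [h1 e he, h2 e he, H_subsingleton_of_lt _ h]

theorem Van.mono {M : Lat c V} {m m' : ℤ} (h : Van M m) (hm : m ≤ m') : Van M m' :=
  fun e he => h e (hm.trans he)

theorem Van.finrank_eq {M : Lat c V} {m e : ℤ} (h : Van M m) (he : m ≤ e) :
    (finrank k (Gm M e) : ℤ) = cL M e := (cL_eq_of_van (h e he)).symm

theorem Van.congr {M N : Lat c V} {m : ℤ} (h : Van M m) (E : Eqv N.toFam M.toFam) : Van N m :=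
  fun e he p hp =>
    have := h e he p hp
    ((eqv_tw E e).H p).toEquiv.subsingleton

theorem Van.tw {M : Lat c V} {m : ℤ} (h : Van M m) (f : ℤ) : Van (tw M f) (m - f) :=
  fun _ he p hp => van_tw (h _ (by omega) p hp)

theorem Van.pi {ι : Type} [Finite ι] {M : ι → Lat c V} {m : ℤ} (h : ∀ a, Van (M a) m) :
    Van (piLat M) m := fun e he p hp => van_pi fun a => h a e he p hp

theorem van_O (Sg : Br.Surf) (ι : Type) [Finite ι] : Van (OP Sg.V.X ι).toLat 0 :=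
  fun _ he _ hp => van_OP Sg ι he hp

end Crest.Agent.N265.Fib
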