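import Crest.Agent.N265.Fib.H1
import Crest.Agent.N265.Fib.Kos

/-!
# Row 265, task M-TV, part 3 (helper42): Koszul recursion, sections of `Hom` bundles, uniformity
-/

set_option autoImplicit false
set_option linter.dupNamespace false
set_option linter.unusedSectionVars false
noncomputable section
open Module TensorProduct Filter

namespace Crest.Agent.N265.M.Hx
open Crest.Agent.R274
open Defs_781 Lat_781 Ser_781
open Alg GV Br N N.Sg1 Hm Fib _root_.Crest.Agent.N265.Pow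
variable {Sg : Surf} {X : Spc} {b : ℕ}

/-- dimension count in a four term complex -/
lemma fr4 {V W U V' : GV} {L L' : Submodule ℂ V.V} {M M' : Submodule ℂ W.V}
    {N N' : Submodule ℂ U.V} {P P' : Submodule ℂ V'.V} {f : V.V →ₗ[ℂ] W.V} {g : W.V →ₗ[ℂ] U.V}
    {χ : U.V →ₗ[ℂ] V'.V} (h1 : SqInj L L' M' f) (h2 : SqEx L M M' N' f g) (h4 : SqSurj N P P' χ)
    (le : M.map g ⊔ N' ≤ N ⊓ P'.comap χ) : SqEx M N N' P' g χ ↔
      ((finrank ℂ L : ℤ) - finrank ℂ L') + (finrank ℂ N - finrank ℂ N') =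
        (finrank ℂ M - finrank ℂ M') + (finrank ℂ P - finrank ℂ P') := by
  have e1 := finrank_inf_comap_add L M' f
  have e2 := finrank_inf_comap_add M N' g
  have e3 := finrank_inf_comap_add N P' χ
  rw [h1, h2] at e1
  rw [h4] at e3
  refine ⟨fun h => ?_, fun h => Submodule.eq_of_le_of_finrank_eq le (by omega)⟩
  rw [h] at e2
  omega

/-- the recursion `Δ³ = 0` for sequences -/
def RecN {M : Type*} [AddCommGroup M] (H : ℕ → M) (n : ℕ) : Prop :=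
  H n = 3 • H (n + 1) - 3 • H (n + 2) + H (n + 3)
lemma RecN.eq_of {M : Type*} [AddCommGroup M] {H : ℕ → M} {H' : ℤ → M} {n₀ n₁ : ℕ}
    (h : ∀ n ≥ n₀, RecN H n) (h' : ∀ j, Rec3 H' j) (e : ∀ n ≥ n₁, H n = H' n) :
    ∀ n ≥ n₀, H n = H' n := fun n hn => by
  have := Rec3.eq_of (H := fun j => H j.toNat) (j₀ := n₀) (j₁ := n₁) (fun j hj => ?_)
    (fun j _ => h' j) (fun j hj => ?_) n (by omega)
  · simpa using this
  · obtain ⟨m, rfl⟩ := Int.eq_ofNat_of_zero_le (show 0 ≤ j by omega)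
    exact h m (by omega)
  · obtain ⟨m, rfl⟩ := Int.eq_ofNat_of_zero_le (show 0 ≤ j by omega)
    exact e m (by omega)
lemma Rec3.map {M N : Type*} [AddCommGroup M] [AddCommGroup N] {H : ℤ → M} {j : ℤ} (h : Rec3 H j)
    (f : M →+ N) : Rec3 (fun j => f (H j)) j := by
  rw [Rec3, h, map_add, map_sub, map_nsmul, map_nsmul]

section kos
variable {W : ℕ → GV} (τ : ∀ n, Fin 3 → (W n).V →ₗ[ℂ] (W (n + 1)).V)
/-- three copies -/
abbrev P3 (V : GV) : GV := GV.pi fun _ : Fin 3 => V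
/-- three copies -/
abbrev p3 {V : GV} (M : Submodule ℂ V.V) : Submodule ℂ (P3 V).V :=
  Submodule.pi Set.univ fun _ => M
lemma mem_p3 {V : GV} {M : Submodule ℂ V.V} {y : (P3 V).V} : y ∈ p3 M ↔ ∀ i, y i ∈ M :=
  ⟨fun h i => h i trivial, fun h i _ => h i⟩
lemma finrank_p3 {V : GV} (M : Submodule ℂ V.V) : finrank ℂ (p3 M) = 3 * finrank ℂ M := by
  have e : p3 M = LinearMap.range (M.subtype.compLeft (Fin 3)) := Submodule.ext fun y =>
    mem_p3.trans ⟨fun h => ⟨fun i => ⟨_, h i⟩, rfl⟩, fun ⟨z, hz⟩ i => hz ▸ (z i).2⟩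
  rw [e, LinearMap.finrank_range_of_inj fun _ _ h => funext fun i => Subtype.ext (congrFun h i),
    finrank_pi_fintype]
  simp
/-- first Koszul map -/
def k1 (n : ℕ) : (W n).V →ₗ[ℂ] (P3 (W (n + 1))).V := LinearMap.pi (τ n)
/-- second Koszul map -/
def k2 (n : ℕ) : (P3 (W n)).V →ₗ[ℂ] (P3 (W (n + 1))).V := LinearMap.pi fun i =>
  τ n (i + 1) ∘ₗ LinearMap.proj (i + 2) - τ n (i + 2) ∘ₗ LinearMap.proj (i + 1)
/-- third Koszul map -/
def k3 (n : ℕ) : (P3 (W n)).V →ₗ[ℂ] (W (n + 1)).V := ∑ i, τ n i ∘ₗ LinearMap.proj i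
lemma k3_apply (n : ℕ) (z : (P3 (W n)).V) : k3 τ n z = ∑ i, τ n i (z i) :=
  LinearMap.sum_apply _ _ _
/-- exactness of the Koszul complex of `M / M'` -/
def KosEx (M M' : ∀ n, Submodule ℂ (W n).V) (n : ℕ) : Prop :=
  SqInj (M n) (M' n) (p3 (M' (n + 1))) (k1 τ n) ∧
  SqEx (M n) (p3 (M (n + 1))) (p3 (M' (n + 1))) (p3 (M' (n + 2))) (k1 τ n) (k2 τ (n + 1)) ∧
  SqEx (p3 (M (n + 1))) (p3 (M (n + 2))) (p3 (M' (n + 2))) (M' (n + 3)) (k2 τ (n + 1))
    (k3 τ (n + 2)) ∧ SqSurj (p3 (M (n + 2))) (M (n + 3)) (M' (n + 3)) (k3 τ (n + 2))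
variable {τ}
lemma KosEx.num {M M' : ∀ n, Submodule ℂ (W n).V} {n : ℕ} (h : KosEx τ M M' n) :
    RecN (fun n => (finrank ℂ (M n) : ℤ) - finrank ℂ (M' n)) n := by
  have := (fr4 h.1 h.2.1 h.2.2.2 h.2.2.1.le).1 h.2.2.1
  rw [finrank_p3, finrank_p3, finrank_p3, finrank_p3] at this
  simp only [RecN, nsmul_eq_mul]
  push_cast at this ⊢
  linarith
lemma recN_kc {M M' : ∀ n, Pt → Submodule ℂ (W n).V} {n : ℕ}
    (hτ : ∀ n i, Deg0 (W n) (W (n + 1)) (τ n i)) (hM : ∀ j ≥ n, IsAB X (W j) (M j))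
    (hM' : ∀ j ≥ n, IsAB X (W j) (M' j))
    (h : ∀ x ∈ X.pts, KosEx τ (fun n => M n x) (fun n => M' n x) n) :
    RecN (fun n => kc X (W n) (M n) - kc X (W n) (M' n)) n := by
  have a := fun j hj => IsAB.pi fun _ : Fin 3 => hM j hj
  have a' := fun j hj => IsAB.pi fun _ : Fin 3 => hM' j hj
  have := kq4 (hM n le_rfl) (hM' n le_rfl) (a (n + 1) (by omega)) (a' (n + 1) (by omega))
    (a (n + 2) (by omega)) (a' (n + 2) (by omega)) (hM (n + 3) (by omega)) (hM' (n + 3) (by omega))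
    (.const (f := k1 τ n) fun v => funext fun i => hτ _ i v)
    (.const (f := k2 τ (n + 1)) fun v => funext fun i => by
      change τ _ _ ((W _).g _) - τ _ _ ((W _).g _) = (W _).g (_ - _)
      rw [hτ, hτ, map_sub]; rfl)
    (.const (f := k3 τ (n + 2)) fun v => by
      rw [k3_apply, k3_apply, map_sum]
      exact Finset.sum_congr rfl fun i _ => hτ _ i _) h
  rw [kc_pi fun _ => hM _ (by omega), kc_pi fun _ => hM _ (by omega),
    kc_pi fun _ => hM' _ (by omega), kc_pi fun _ => hM' _ (by omega)] at this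
  simp only [Finset.sum_const, Finset.card_univ, Fintype.card_fin, RecN, nsmul_eq_mul] at this ⊢
  linear_combination this

variable {F : Type} [Field F] [Algebra ℂ F] {c : Coord ℂ F 2} {V : Type} [AddCommGroup V]
  [Module ℂ V] [Module F V] [IsScalarTower ℂ F V] {𝓜 𝓝 : Lat c V} {j : ∀ n, (W n).V →ₗ[ℂ] V}
/-- Koszul exactness from a pair of lattices -/
theorem kosEx_of_model (hj : ∀ n i w, j (n + 1) (τ n i w) = c.t i • j n w)
    (hs : ∀ n : ℕ, Gm 𝓜 n ≤ LinearMap.range (j n)) (le : 𝓝.toFam.LE 𝓜.toFam) {m : ℤ}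
    (vM : Van 𝓜 m) (vN : Van 𝓝 m) {n : ℕ} (hn : m ≤ n) :
    KosEx τ (fun n => (Gm 𝓜 n).comap (j n)) (fun n => (Gm 𝓝 n).comap (j n)) n := by
  have h2 : ∀ n y i, j (n + 1) (k2 τ n y i) = kos2 V c.t (fun i => j n (y i)) i := fun n y i => by
    rw [kos2_apply, ← hj, ← hj, ← map_sub]; rfl
  have h3 : ∀ n z, j (n + 1) (k3 τ n z) = kos3 V c.t fun i => j n (z i) := fun n z => by
    rw [k3_apply, kos3_apply, map_sum]
    exact Finset.sum_congr rfl fun i _ => hj _ _ _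
  have lift : ∀ (n : ℕ) {y : Fin 3 → V}, (∀ i, y i ∈ Gm 𝓜 n) → ∃ w : (P3 (W n)).V,
      (fun i => j n (w i)) = y := fun n y hy =>
    ⟨fun i => (hs n (hy i)).choose, funext fun i => (hs n (hy i)).choose_spec⟩
  have gM := vM.reg.gen (e := (n + 2 : ℕ)) (by omega)
  have gN := vN.reg.gen (e := (n + 2 : ℕ)) (by omega)
  refine ⟨le_antisymm (fun w hw => mem_Gm_of_smul fun i => hj n i w ▸ mem_p3.1 hw.2 i)
    fun w hw => ⟨Gm_mono le _ hw, mem_p3.2 fun i => (hj n i w).symm.subst (motive := (· ∈ _))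
      (kos1_mem hw i)⟩, le_antisymm (sup_le ?_ fun y hy => ⟨?_, ?_⟩) fun y hy => ?_,
    le_antisymm (sup_le ?_ fun y hy => ⟨?_, ?_⟩) fun z hz => ?_,
    le_antisymm (sup_le ?_ fun y hy => Gm_mono le _ hy) fun x hx => ?_⟩
  · rintro _ ⟨w, hw, rfl⟩
    refine ⟨mem_p3.2 fun i => (hj n i w).symm.subst (motive := (· ∈ _)) (kos1_mem hw i),
      mem_p3.2 fun i => ?_⟩
    rw [Submodule.mem_comap, h2, show (fun i => j (n + 1) (k1 τ n w i)) = kos1 V c.t (j n w) from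
      funext fun i => hj n i w, kos2_kos1]
    exact zero_mem _
  · exact mem_p3.2 fun i => Gm_mono le _ (mem_p3.1 hy i)
  · exact mem_p3.2 fun i => (h2 _ y i).symm.subst (motive := (· ∈ Gm 𝓝 _))
      (kos2_mem (e := (n + 1 : ℕ)) (fun i => mem_p3.1 hy i) i)
  · obtain ⟨x, hx, h⟩ := descend le (vN n hn 1 one_pos) (mem_p3.1 hy.1)
      fun i => h2 _ y i ▸ mem_p3.1 hy.2 i
    obtain ⟨w, rfl⟩ := hs n hx
    rw [← add_sub_cancel (k1 τ n w) y]
    refine Submodule.add_mem_sup ⟨w, hx, rfl⟩ (mem_p3.2 fun i => ?_)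
    rw [Submodule.mem_comap, Pi.sub_apply, map_sub, show j _ (k1 τ n w i) = _ from hj n i w]
    exact h i
  · rintro _ ⟨y, hy, rfl⟩
    refine ⟨mem_p3.2 fun i => (h2 _ y i).symm.subst (motive := (· ∈ Gm 𝓜 _))
      (kos2_mem (e := (n + 1 : ℕ)) (fun i => mem_p3.1 hy i) i), ?_⟩
    rw [SetLike.mem_coe, Submodule.mem_comap, Submodule.mem_comap, h3, funext (h2 _ y), kos3_kos2]
    exact zero_mem _
  · exact mem_p3.2 fun i => Gm_mono le _ (mem_p3.1 hy i)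
  · exact (h3 _ y).symm.subst (motive := (· ∈ _)) (kos3_mem (mem_p3.1 hy))
  · obtain ⟨u, hu, e⟩ := kos_surj3 gN ((h3 _ z).subst (motive := (· ∈ Gm 𝓝 _)) hz.2)
    obtain ⟨y, hy, e'⟩ := kos_ex2 (vM n hn 1 one_pos) (z := (fun i => j _ (z i)) - u)
      (fun i => sub_mem (mem_p3.1 hz.1 i) (Gm_mono le _ (hu i))) (by rw [map_sub, e, sub_self])
    obtain ⟨w, rfl⟩ := lift (n + 1) hy
    rw [← add_sub_cancel (k2 τ (n + 1) w) z]
    refine Submodule.add_mem_sup ⟨w, mem_p3.2 hy, rfl⟩ (mem_p3.2 fun i => ?_)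
    rw [Submodule.mem_comap, Pi.sub_apply, map_sub, h2, e', Pi.sub_apply, sub_sub_cancel]
    exact hu i
  · rintro _ ⟨z, hz, rfl⟩
    exact (h3 _ z).symm.subst (motive := (· ∈ _)) (kos3_mem (mem_p3.1 hz))
  · obtain ⟨u, hu, e⟩ := kos_surj3 gM hx
    obtain ⟨w, rfl⟩ := lift (n + 2) hu
    rw [← add_sub_cancel (k3 τ (n + 2) w) x]
    refine Submodule.add_mem_sup ⟨w, mem_p3.2 hu, rfl⟩ ?_
    rw [Submodule.mem_comap, map_sub, h3, e, sub_self]
    exact zero_mem _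
end kos

/-! ### sections in high degree -/

variable (Sg b) in
/-- `{t ∈ V ⊗ A_m | ev_z t ∈ L (x + z)}` -/
def gam0 {V : Type} [AddCommGroup V] [Module ℂ V] (m : ℕ) (L : Pt → Submodule ℂ V) (x : Pt) :
    Submodule ℂ (V ⊗[ℂ] SA Sg m) := gamT (Sg.S b) (evS Sg b m) L x
lemma mem_gam0 {V : Type} [AddCommGroup V] [Module ℂ V] {m : ℕ} {L : Pt → Submodule ℂ V} {x : Pt}
    {t : V ⊗[ℂ] SA Sg m} :
    t ∈ gam0 Sg b m L x ↔ ∀ z ∈ (Sg.S b).pts, evz Sg b V m z t ∈ L (x + z) := by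
  simp only [gam0, gamT, Submodule.mem_iInf, ← evP_eq, Subtype.forall, Submodule.mem_comap]
theorem piK_gam0 (hb : b ∉ X.B) {V : GV} (hV : V.In X.B) {L : Pt → Submodule ℂ V.V}
    (h : IsAB (X.fib (Sg.S b)) V L) : ∃ m₀ : ℕ, ∀ m ≥ m₀, IsAB X (WA Sg V m) (gam0 Sg b m L) ∧
      piK X (Sg.S b) b (lbK _ ((m : ℤ) • eB b) * kc _ V L) = kc X (WA Sg V m) (gam0 Sg b m L) := by
  obtain ⟨j₀, H⟩ := piK_gamT (base_S Sg b) hb hV (h.shift ((base_S Sg b).eB_mem 0))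
  refine ⟨j₀.toNat, fun m hm => ?_⟩
  have := H m (by omega) _ _ ((add_zero (m : ℤ)).symm ▸ isSecM_evS Sg b m)
  rwa [kc_shift h ((base_S Sg b).eB_mem 0), zero_smul, lbK_zero, one_mul] at this

variable (Sg b) in
/-- `{θ : P → T | ε z ∘ θ ∈ L (x + z)}` -/
def gamH {P T W : Type} [AddCommGroup P] [Module ℂ P] [AddCommGroup T] [Module ℂ T]
    [AddCommGroup W] [Module ℂ W] (ε : Pt → T →ₗ[ℂ] W) (L : Pt → Submodule ℂ (P →ₗ[ℂ] W))
    (x : Pt) : Submodule ℂ (P →ₗ[ℂ] T) :=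
  ⨅ z : (Sg.S b).pts, (L (x + z.1)).comap (LinearMap.llcomp ℂ P T W (ε z.1))
lemma mem_gamH {P T W : Type} [AddCommGroup P] [Module ℂ P] [AddCommGroup T] [Module ℂ T]
    [AddCommGroup W] [Module ℂ W] {ε : Pt → T →ₗ[ℂ] W} {L : Pt → Submodule ℂ (P →ₗ[ℂ] W)}
    {x : Pt} {θ : P →ₗ[ℂ] T} :
    θ ∈ gamH Sg b ε L x ↔ ∀ z ∈ (Sg.S b).pts, ε z ∘ₗ θ ∈ L (x + z) := by
  simp only [gamH, Submodule.mem_iInf, Subtype.forall, Submodule.mem_comap]; rfl
theorem piK_gamH (hb : b ∉ X.B) {P W : GV} (hP : P.In X.B) (hW : W.In X.B)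
    {L : Pt → Submodule ℂ (P.hom W).V} (h : IsAB (X.fib (Sg.S b)) (P.hom W) L) :
    ∃ m₀ : ℕ, ∀ m ≥ m₀, ∀ (T : GV) (ω : (WA Sg W m).V →ₗ[ℂ] T.V) (ε : Pt → T.V →ₗ[ℂ] W.V),
      T.In X.B → Deg0 _ T ω → Function.Bijective ω → (∀ z t, ε z (ω t) = evz Sg b _ m z t) →
      IsAB X (P.hom T) (gamH Sg b ε L) ∧ piK X (Sg.S b) b (lbK _ ((m : ℤ) • eB b) * kc _ _ L) =
        kc X (P.hom T) (gamH Sg b ε L) := by
  obtain ⟨m₀, H⟩ := piK_gam0 hb (hP.hom hW) h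
  refine ⟨m₀, fun m hm T ω ε hT h0 hω hε => ?_⟩
  let Φ : (WA Sg (P.hom W) m).V →ₗ[ℂ] (P.hom T).V :=
    LinearMap.llcomp ℂ _ _ _ ω ∘ₗ (rTensorHomEquivHomRTensor ℂ P.V W.V (SA Sg m)).toLinearMap
  have hΦ : ∀ φ a v, Φ (φ ⊗ₜ a) v = ω (φ v ⊗ₜ a) := fun φ a v =>
    congrArg ω (LinearMap.congr_fun (rTensorHomEquivHomRTensor_apply ..) v)
  have hb : Function.Bijective Φ := ((LinearEquiv.refl ℂ P.V).arrowCongr
    (LinearEquiv.ofBijective ω hω)).bijective.comp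
      (rTensorHomEquivHomRTensor ℂ P.V W.V (SA Sg m)).bijective
  have hd : IsRM X (WA Sg (P.hom W) m) (P.hom T) fun _ => Φ := .const fun s => by
    induction s using TensorProduct.induction_on with
    | zero => simp only [map_zero]
    | tmul φ a =>
      exact LinearMap.ext fun v => (hΦ _ _ _).trans ((h0 (φ (P.g.symm v) ⊗ₜ a)).trans
        (congrArg _ (hΦ _ _ _).symm))
    | add s s' h h' => simp only [map_add, h, h']
  have he : ∀ z s, ε z ∘ₗ Φ s = evz Sg b _ m z s := fun z s => by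
    induction s using TensorProduct.induction_on with
    | zero => simp only [map_zero, LinearMap.comp_zero]
    | tmul φ a => exact LinearMap.ext fun v => by simp [hΦ, hε]
    | add s s' h h' => simp only [map_add, LinearMap.comp_add, h, h']
  have hi : ∀ x ∈ X.pts, gam0 Sg b m L x ⊓ LinearMap.ker Φ = ⊥ := fun x _ => by
    rw [LinearMap.ker_eq_bot.2 hb.1, inf_bot_eq]
  have hm' : ∀ x ∈ X.pts, (gam0 Sg b m L x).map Φ = gamH Sg b ε L x := fun x _ => by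
    rw [← Submodule.map_comap_eq_of_surjective hb.2 (gamH Sg b ε L x)]
    exact congrArg _ (Submodule.ext fun s => by
      simp only [mem_gam0, Submodule.mem_comap, mem_gamH, he])
  have hA := (((H m hm).1.map_of_inj (hP.hom hT) hd hi).congr hm')
  exact ⟨hA, (H m hm).2.trans (kc_iso (H m hm).1 hA hd fun x hx => ⟨hi x hx, hm' x hx⟩)⟩

theorem piK_O (hb : b ∉ X.B) (m : ℕ) :
    piK X (Sg.S b) b (lbK _ ((m : ℤ) • eB b)) = (finrank ℂ (SA Sg m) : K X) := by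
  obtain ⟨j₀, H⟩ := piK_lbK_big (base_S Sg b) hb
  have := RecN.eq_of (H := fun m => (finrank ℂ (SA Sg m) : K X)) (n₀ := 0) (n₁ := j₀.toNat)
    (fun n _ => ?_) ((base_S Sg b).rec3 (piK X (Sg.S b) b) 1) (fun n hn => ?_) m (by omega)
  · rw [this, mul_one]
  · have e : ∀ n : ℕ, (finrank ℂ (SA Sg n) : K X) = (cL (SnapE_99.OX Sg.V.X).toLat n : ℤ) :=
      fun n => by rw [cL_OX, ← finrank_AA Sg (by omega), AA_nat, Int.cast_natCast]
    simp only [RecN, e]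
    rw [cL_rec]
    push_cast
    ring
  · rw [mul_one, H n (by omega), ← (isSecM_evS Sg b n).range,
      LinearMap.finrank_range_of_inj (isSecM_evS Sg b n).inj]

lemma near_rk (u : K X) (x : X.pts) : Near X.fn x fun y => K.rk y.2 u = K.rk x.2 u := by
  induction u using K.ind with
  | h0 => exact .of_forall fun _ => by simp
  | hneg a h => exact h.mono fun _ h => by rw [map_neg, map_neg, h]
  | hadd a a' h h' => exact (h.and h').mono fun _ h => by rw [map_add, map_add, h.1, h.2]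
  | hkl A =>
    exact (lc_iff.1 A.isAB.lc x).mono fun y h => by rw [K.rk_kl, K.rk_kl]; exact congrArg _ h

/-- open, increasing and exhausting conditions hold uniformly -/
lemma unif_of_open {q : ℕ → X.pts → Prop} {n₀ : ℕ} (ho : ∀ n ≥ n₀, ∀ x, q n x → Near X.fn x (q n))
    (hm : ∀ n ≥ n₀, ∀ x, q n x → q (n + 1) x) (he : ∀ x, ∀ᶠ n in atTop, q n x) :
    ∃ N, ∀ n ≥ N, ∀ x, q n x := by
  classical
  have H : ∀ x : X.pts, ∃ (N : ℕ) (r : R), MvPolynomial.eval x.1 r ≠ 0 ∧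
      ∀ y : X.pts, MvPolynomial.eval y.1 r ≠ 0 → ∀ n ≥ N, q n y := fun x => by
    obtain ⟨N, h1, h2⟩ := ((he x).and (eventually_ge_atTop n₀)).exists
    obtain ⟨r, h3, h4⟩ := near_iff.1 (ho N h2 x h1)
    refine ⟨N, r, h3, fun y hy n hn => ?_⟩
    induction n, hn using Nat.le_induction with
    | base => exact h4 y hy
    | succ k hk ih => exact hm k (le_trans h2 hk) y ih
  choose N r h1 h2 using H
  obtain ⟨t, ht⟩ := Jac.exists_finite_cover X r fun x hx => ⟨⟨x, hx⟩, h1 ⟨x, hx⟩⟩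
  obtain ⟨N₀, hN₀⟩ := (t.image N).exists_le
  refine ⟨N₀, fun n hn x => ?_⟩
  obtain ⟨y, hy, h⟩ := ht x.1 x.2
  exact h2 y x h n ((hN₀ _ (Finset.mem_image_of_mem _ hy)).trans hn)

end Crest.Agent.N265.M.Hx
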