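import Crest.Agent.N265.Fib.H2
import Crest.Agent.N265.Fib.H3
import Crest.Agent.N265.M.Dic

/-!
# Row 265, task M-TV, part 4 (helper42): relations of `KK 3`, the spaces `Hn n / Dn n =
Hom(B, O'/L'(n))` and their lattice models
-/

set_option autoImplicit false
set_option linter.dupNamespace false
set_option linter.unusedSectionVars false
noncomputable section
open Module TensorProduct Filter

namespace Crest.Agent.N265.M.Hx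
open Crest.Agent.R274
open Defs_781 Lat_781 Ser_781 SnapA_99 SnapB_99 SnapC_99 SnapD_99 SnapE_99 Gen7_750
open Xs1_781 SkDefs_474
open Alg GV Br N N.Sg1 Hm Fib Fib.Hz _root_.Crest.Agent.N265.Pow
variable {Sg : Surf} {b e k m n p : ℕ}

section rel
variable {V W : Type} [AddCommGroup V] [Module ℂ V] [AddCommGroup W] [Module ℂ W]
/-- relations of degree `k` -/
def Rel (K : Submodule ℂ (V ⊗[ℂ] SA Sg e)) (k : ℕ) :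
    Submodule ℂ ((V ⊗[ℂ] SA Sg e) ⊗[ℂ] SA Sg k) := tens K ⊤ ⊓ LinearMap.ker (mm V e k)
variable (b) in
/-- `Z z` consists of the values of the relations -/
structure ZR (K : Submodule ℂ (V ⊗[ℂ] SA Sg e)) (Z : Pt → Submodule ℂ (V ⊗[ℂ] SA Sg e)) :
    Prop where
  le : ∀ z ∈ (Sg.S b).pts, Z z ≤ K
  ker : ∀ z ∈ (Sg.S b).pts, ∀ c ∈ Z z, evz Sg b V e z c = 0
  ev : ∀ z ∈ (Sg.S b).pts, ∀ k, ∀ t ∈ Rel K k, evz Sg b _ k z t ∈ Z z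
  ex : ∀ z ∈ (Sg.S b).pts, ∀ c ∈ Z z, ∃ t ∈ Rel K 1, evz Sg b _ 1 z t = c
lemma ZR.mem_Rel [FiniteDimensional ℂ V] {K : Submodule ℂ (V ⊗[ℂ] SA Sg e)}
    {Z : Pt → Submodule ℂ (V ⊗[ℂ] SA Sg e)} (h : ZR b K Z) {t : (V ⊗[ℂ] SA Sg e) ⊗[ℂ] SA Sg k} :
    t ∈ Rel K k ↔ ∀ z ∈ (Sg.S b).pts, evz Sg b _ k z t ∈ Z z :=
  ⟨fun ht z hz => h.ev z hz k t ht, fun H => ⟨mem_tens_of_evz b fun z hz => h.le z hz (H z hz),
    eq_zero_of_evz b fun z hz => (evz_mm z t).trans (h.ker z hz _ (H z hz))⟩⟩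
lemma evz_muW (z : Pt) (l : SA Sg 1) (t : V ⊗[ℂ] SA Sg k) :
    evz Sg b V (k + 1) z (muW Sg V k (l ⊗ₜ t)) = evP Sg b 1 z l • evz Sg b V k z t := by
  induction t using TensorProduct.induction_on with
  | zero => simp
  | tmul v a => rw [muW_tmul, evT_tmul, evT_tmul, evP_mul, mul_smul]
  | add t t' h h' => simp only [tmul_add, map_add, smul_add, h, h']
lemma mm_muW_comm (l l' : SA Sg 1) (t : V ⊗[ℂ] SA Sg k) :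
    mm V (k + 1) 1 (muW Sg V k (l ⊗ₜ t) ⊗ₜ l') = mm V (k + 1) 1 (muW Sg V k (l' ⊗ₜ t) ⊗ₜ l) := by
  induction t using TensorProduct.induction_on with
  | zero => simp
  | tmul v a =>
    rw [muW_tmul, muW_tmul, Hm.mm_tmul, Hm.mm_tmul]
    exact congrArg _ (Subtype.ext (by simp only [mulA_val]; ring))
  | add t t' h h' => simp only [tmul_add, map_add, add_tmul, h, h']
lemma zr_mulS {N : Submodule ℂ (V ⊗[ℂ] SA Sg k)} {K : Submodule ℂ (V ⊗[ℂ] SA Sg (k + 1))}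
    (hN : ∀ P, mulS Sg P N ≤ K) (ev : ∀ z ∈ (Sg.S b).pts, ∀ j, ∀ t ∈ Rel K j,
      evz Sg b _ j z t ∈ mulS Sg (mP Sg b 1 z) N) : ZR b K fun z => mulS Sg (mP Sg b 1 z) N where
  le _ _ := hN _
  ker z _ := by
    rintro _ ⟨s, hs, rfl⟩
    refine tens_ind hs (by simp) (fun l hl t _ => ?_) fun _ _ h h' => by
      rw [map_add, map_add, h, h', add_zero]
    rw [evz_muW, show evP Sg b 1 z l = 0 from hl, zero_smul]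
  ev := ev
  ex z hz := by
    obtain ⟨l₀, h₀⟩ := evP_surj Sg b 1 hz 1
    rintro _ ⟨s, hs, rfl⟩
    refine tens_ind hs ⟨0, zero_mem _, by simp⟩ (fun l hl t ht => ?_)
      fun _ _ ⟨t, h1, h2⟩ ⟨t', h3, h4⟩ => ⟨t + t', add_mem h1 h3, by rw [map_add, map_add, h2, h4]⟩
    refine ⟨muW Sg V k (l ⊗ₜ t) ⊗ₜ l₀ - muW Sg V k (l₀ ⊗ₜ t) ⊗ₜ l, ⟨sub_mem
      (tmul_mem (hN ⊤ ⟨_, tmul_mem trivial ht, rfl⟩) trivial)
      (tmul_mem (hN ⊤ ⟨_, tmul_mem trivial ht, rfl⟩) trivial), ?_⟩, ?_⟩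
    · rw [SetLike.mem_coe, LinearMap.mem_ker, map_sub, mm_muW_comm, sub_self]
    · rw [map_sub, evT_tmul, evT_tmul, h₀, show evP Sg b 1 z l = 0 from hl, one_smul, zero_smul,
        sub_zero]
end rel

variable {𝔞 𝔟 : Amb Sg} {L : XL Sg 𝔞.M} {L' : XL Sg 𝔟.M}

variable (𝔞 L p b) in
/-- `V_z KK 2` -/
abbrev Zf (z : Pt) : Submodule ℂ (WA Sg (𝔞.G p) 3).V := mulS Sg (mP Sg b 1 z) (𝔞.KK L p 2)
theorem zr_KK (h : LeL L 𝔞.O) (hr : RegL L.toLat p) : ZR b (𝔞.KK L p 3) (Zf b p 𝔞 L) :=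
  zr_mulS mulS_le_KK fun _ hz _ _ ht => evz_mem_ZZ h hr le_rfl hz ht.1 ht.2
lemma mm_mem_KK {t : (WA Sg (𝔞.G p) e).V ⊗[ℂ] SA Sg k} (ht : t ∈ tens (𝔞.KK L p e) ⊤) :
    mm _ e k t ∈ 𝔞.KK L p (k + e) := ⟨mm_mem inf_le_left ht, (mF_mm _ t).trans (by
  refine tens_ind ht (map_zero _) (fun κ hκ a _ => ?_) fun _ _ h h' => by
    rw [map_add, h, h', add_zero]
  exact (congrArg (a.1 • ·) hκ.2).trans (smul_zero _))⟩
theorem map_mm_KK (h : LeL L 𝔞.O) (hr : RegL L.toLat p) (k : ℕ) :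
    (tens (𝔞.KK L p 3) ⊤).map (mm _ 3 k) = 𝔞.KK L p (k + 3) := by
  have le : (tens (𝔞.KK L p 3) ⊤).map (mm _ 3 k) ≤ 𝔞.KK L p (k + 3) := by
    rintro _ ⟨t, ht, rfl⟩
    exact mm_mem_KK ht
  refine le_antisymm le fun t ht => mem_of_cB le ht ?_
  have h1 := (map_cB (k + 3)).le (Submodule.mem_map_of_mem ht)
  rw [Nat.cast_add, gen_AA (fun _ he => (reg_B0 h hr).gen he) (by omega), ← map_cB,
    ← map_mF] at h1
  obtain ⟨s, hs, e⟩ := h1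
  exact ⟨_, ⟨s, hs, rfl⟩, (mF_mm _ s).trans e⟩

variable (𝔟) in
/-- the fibre of the ambient bundle -/
abbrev W0 : GV := GV.pi fun a : 𝔟.ι => line (𝔟.wt a • eT)
variable (𝔟 b n) in
/-- evaluation of sections -/
def evG (z : Pt) : (𝔟.G n).V →ₗ[ℂ] (W0 𝔟).V := (evP Sg b n z).compLeft 𝔟.ι
lemma evG_mul (z : Pt) (s : (𝔟.G n).V ⊗[ℂ] SA Sg k) :
    evG b (k + n) 𝔟 z (𝔟.mul n k s) = evG b n 𝔟 z (evz Sg b _ k z s) := by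
  induction s using TensorProduct.induction_on with
  | zero => simp only [map_zero]
  | tmul w a =>
    rw [evT_tmul, map_smul]
    exact funext fun i => (evP_mul z (w i) a).trans (mul_comm _ _)
  | add t t' h h' => simp only [map_add, h, h']
variable (b) in
lemma eq_zero_of_evG {w : (𝔟.G n).V} (h : ∀ z ∈ (Sg.S b).pts, evG b n 𝔟 z w = 0) : w = 0 :=
  funext fun i => (isSecM_evS Sg b n).inj (funext fun z => by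
    rw [← evP_apply, ← evP_apply]; exact (congrFun (h z.1 z.2) i).trans (map_zero _).symm)
variable (𝔟) in
/-- multiplication by a coordinate -/
def tG (n : ℕ) (i : Fin 3) : (𝔟.G n).V →ₗ[ℂ] (𝔟.G (n + 1)).V :=
  (mulA Sg 1 n ⟨Sg.V.X.t i, mem_SA.2 (t_mem_AA i)⟩).compLeft 𝔟.ι
lemma inc_tG (n : ℕ) (i : Fin 3) (w : (𝔟.G n).V) :
    𝔟.inc (n + 1) (tG 𝔟 n i w) = Sg.V.X.t i • 𝔟.inc n w := by
  rw [Amb.inc_apply, Amb.inc_apply, ← map_smul]; rfl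
lemma deg0_tG (n : ℕ) (i : Fin 3) : Deg0 (𝔟.G n) (𝔟.G (n + 1)) (tG 𝔟 n i) := fun w =>
  funext fun a => map_smul (mulA Sg 1 n _) _ (w a)
lemma pc_bot (j : ℕ) : 𝔟.pc (bot _ _) j = ⊥ := eq_bot_iff.2 fun _ hw => 𝔟.inc_inj j
  (((smul_eq_zero.1 (mem_Gm.1 hw 0)).resolve_left (zpow_ne_zero _ (Sg.V.X.t_ne 0))).trans
    (map_zero _).symm)

variable (𝔟 n k) in
/-- `θ ↦ mul ∘ (θ ⊗ 1)` -/
def Psi (P : Type) [AddCommGroup P] [Module ℂ P] :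
    (P →ₗ[ℂ] (𝔟.G n).V) →ₗ[ℂ] (P ⊗[ℂ] SA Sg k →ₗ[ℂ] (𝔟.G (k + n)).V) :=
  LinearMap.llcomp ℂ _ _ _ (𝔟.mul n k) ∘ₗ LinearMap.rTensorHom (SA Sg k)
variable (𝔞 𝔟 p) in
/-- maps `W_p ⊗ A_3 → W'_n` -/
abbrev HN (n : ℕ) : GV := (WA Sg (𝔞.G p) 3).hom (𝔟.G n)
variable (L L' p) in
/-- maps that send all relations into `L'` -/
def Hn (n : ℕ) : Submodule ℂ (HN p 𝔞 𝔟 n).V :=
  ⨅ k, (homMap (Rel (𝔞.KK L p 3) k) (𝔟.pc L' (k + n))).comap (Psi k n 𝔟 _)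
variable (L L' p) in
/-- maps that send `KK 3` into `L'` -/
def Dn (n : ℕ) : Submodule ℂ (HN p 𝔞 𝔟 n).V := homMap (𝔞.KK L p 3) (𝔟.pc L' n)
lemma mem_Hn {θ : (HN p 𝔞 𝔟 n).V} : θ ∈ Hn p L L' n ↔ ∀ k, ∀ t ∈ Rel (𝔞.KK L p 3) k,
    𝔟.mul n k (θ.rTensor _ t) ∈ 𝔟.pc L' (k + n) := Submodule.mem_iInf _
lemma Hb_eq : 𝔞.Hb 𝔟 L L' p = Hn p L L' (3 + p) := Submodule.ext fun _ =>
  ⟨fun h => mem_Hn.2 fun k t ht => h k t ht.1 ht.2, fun h k t h1 h2 => mem_Hn.1 h k t ⟨h1, h2⟩⟩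
variable (L p) in
/-- coordinates of the frame of `KK 3` -/
def gK (a : Ix (𝔞.KK L p 3)) : Ix (𝔞.pc L p) → Sg.F :=
  Hm.co (Sg := Sg) (𝔞.pc L p) 3 (fu (V := (WA Sg (𝔞.G p) 3).V) (𝔞.KK L p 3) a)
variable (𝔟 L p) in
/-- values on the frame of `KK 3` -/
def jH (n : ℕ) : (HN p 𝔞 𝔟 n).V →ₗ[ℂ] (Ix (𝔞.KK L p 3) → 𝔟.M) :=
  LinearMap.pi fun a => 𝔟.inc n ∘ₗ LinearMap.applyₗ (fu _ a)
lemma jH_apply (θ : (HN p 𝔞 𝔟 n).V) (a : Ix (𝔞.KK L p 3)) :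
    jH p 𝔟 L n θ a = 𝔟.inc n (θ (fu _ a)) := rfl
lemma mem_Rel_iff {t : (WA Sg (𝔞.G p) 3).V ⊗[ℂ] SA Sg k} (ht : t ∈ tens (𝔞.KK L p 3) ⊤) :
    t ∈ Rel (𝔞.KK L p 3) k ↔ Hm.co (𝔞.KK L p 3) k t ∈ relW (gK p L) :=
  ⟨fun h => (co_mm ht).symm.trans ((congrArg _ h.2).trans (map_zero _)),
    fun h => ⟨ht, co_inj (mm_mem inf_le_left ht) ((co_mm ht).trans h)⟩⟩
lemma inc_Psi (θ : (HN p 𝔞 𝔟 n).V) {t : (WA Sg (𝔞.G p) 3).V ⊗[ℂ] SA Sg k}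
    (ht : t ∈ tens (𝔞.KK L p 3) ⊤) : 𝔟.inc (k + n) (𝔟.mul n k (θ.rTensor _ t)) =
      ∑ a, Hm.co (𝔞.KK L p 3) k t a • jH p 𝔟 L n θ a := by
  rw [Amb.inc_mul, mF_rT, mF_co _ ht]; rfl
lemma jH_mem (θ : (HN p 𝔞 𝔟 n).V) (a : Ix (𝔞.KK L p 3)) : jH p 𝔟 L n θ a ∈ Gm 𝔟.O.toLat n :=
  (𝔟.range_inc n).le ⟨_, rfl⟩
lemma rel_iff (θ : (HN p 𝔞 𝔟 n).V) (k : ℕ) : (∀ t ∈ Rel (𝔞.KK L p 3) k,
    𝔟.mul n k (θ.rTensor _ t) ∈ 𝔟.pc L' (k + n)) ↔ ∀ c ∈ relW (gK p L), (∀ a, c a ∈ AA Sg.V.X k) →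
      ∑ a, c a • jH p 𝔟 L n θ a ∈ Gm L'.toLat (n + k) := by
  rw [add_comm (n : ℤ), ← Nat.cast_add]
  refine ⟨fun h c hc h' => ?_, fun h t ht => ?_⟩
  · obtain ⟨t, ht, rfl⟩ := exists_co fun a => mem_SA.2 (h' a)
    exact inc_Psi θ ht ▸ h t ((mem_Rel_iff ht).2 hc)
  · rw [Amb.mem_pc, inc_Psi θ ht.1]
    exact h _ ((mem_Rel_iff ht.1).1 ht) fun a => mem_SA.1 (co_mem _ t a)
variable (L L' p) in
/-- the lattice model of `Hn` -/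
abbrev MH : XL Sg (Ix (𝔞.KK L p 3) → 𝔟.M) := MtX (relW (gK p L)) 𝔟.O L'
lemma Hn_eq (n : ℕ) : Hn p L L' n = (Gm (MH p L L').toLat n).comap (jH p 𝔟 L n) :=
  Submodule.ext fun θ => mem_Hn.trans ((forall_congr' (rel_iff θ)).trans
    (mem_Gm_MtX.trans (and_iff_right (jH_mem θ))).symm)
lemma Dn_eq (n : ℕ) : Dn p L L' n = (Gm (piX fun _ => L').toLat n).comap (jH p 𝔟 L n) :=
  Submodule.ext fun _ => mem_homMap_fu.trans Gm_pi.symm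
lemma exists_jH {φ : Ix (𝔞.KK L p 3) → 𝔟.M} (h : ∀ a, φ a ∈ Gm 𝔟.O.toLat n) :
    ∃ θ, jH p 𝔟 L n θ = φ := by
  choose w hw using fun a => (𝔟.range_inc n).ge (h a)
  exact ⟨fext _ w, funext fun a => by rw [jH_apply, fext_fu, hw]⟩
lemma le_range_jH (n : ℕ) : Gm (MH p L L').toLat n ≤ LinearMap.range (jH p 𝔟 L n) :=
  fun _ h => exists_jH (mem_Gm_MtX.1 h).1
variable (𝔞 𝔟 p) in
/-- multiplication by a coordinate -/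
def tH (n : ℕ) (i : Fin 3) : (HN p 𝔞 𝔟 n).V →ₗ[ℂ] (HN p 𝔞 𝔟 (n + 1)).V :=
  LinearMap.llcomp ℂ _ _ _ (tG 𝔟 n i)
lemma jH_tH (n : ℕ) (i : Fin 3) (θ : (HN p 𝔞 𝔟 n).V) :
    jH p 𝔟 L (n + 1) (tH p 𝔞 𝔟 n i θ) = Sg.V.X.t i • jH p 𝔟 L n θ := funext fun _ => inc_tG n i _
lemma tH_Hn (i : Fin 3) {θ : (HN p 𝔞 𝔟 n).V} (h : θ ∈ Hn p L L' n) :
    tH p 𝔞 𝔟 n i θ ∈ Hn p L L' (n + 1) := by
  rw [Hn_eq, Submodule.mem_comap] at h ⊢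
  rw [jH_tH, Nat.cast_succ]
  exact smul_mem_Gm (M := (MH p L L').toLat) (t_mem_T1 i) h
lemma tH_Dn (i : Fin 3) {θ : (HN p 𝔞 𝔟 n).V} (h : θ ∈ Dn p L L' n) :
    tH p 𝔞 𝔟 n i θ ∈ Dn p L L' (n + 1) := fun c hc => by
  change 𝔟.inc _ (tG 𝔟 n i (θ c)) ∈ Gm L'.toLat _
  rw [inc_tG, Nat.cast_succ]
  exact smul_mem_Gm (M := L'.toLat) (t_mem_T1 i) (h c hc)

theorem kosEx_pc (h' : LeL L' 𝔟.O) (hr' : RegL L'.toLat p) (hp : 2 ≤ p) (hn : p ≤ n) :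
    KosEx (tG 𝔟) (fun n => 𝔟.pc 𝔟.O n) (fun n => 𝔟.pc L' n) n :=
  kosEx_of_model inc_tG (fun n => (𝔟.range_inc n).ge) h' ((RegL.toVan 𝔟.reg_O).mono (by omega))
    (RegL.toVan hr') (by omega)

section reg
variable (h : LeL L 𝔞.O) (hr : RegL L.toLat p)
include h hr
theorem gens_gK : Hz.Gens Sg.V.X (sW 𝔞 L p) (gK p L) (3 : ℕ) :=
  gens_of_gen (fun a => (mem_KK.1 (fu_mem _ a)).2) (fun a l => mem_SA.1 (co_mem _ _ l))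
    (fun w hw h' => by
      obtain ⟨t, ht, rfl⟩ := exists_co fun l => mem_SA.2 (h' l)
      rw [← sum_fc (mem_KK.2 ⟨ht, hw⟩), map_sum]
      exact Submodule.sum_mem _ fun a _ => by
        rw [map_smul]; exact Submodule.smul_mem _ _ (Submodule.subset_span ⟨a, rfl⟩))
    fun _ hd => (reg_B0 h hr).gen (by omega)
theorem spl_gK (x : Pnt Sg.V.X) : Spl x (relW (gK p L)) :=
  let ⟨_, hb⟩ := locF_B0 x
  (gens_gK h hr).spl hb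
theorem reg_rel : RegL (capX Sg.V.X (relW (gK p L))).toLat 2 := by
  have h1 := reg_syz Sg (u := fun a => cB 𝔞 L p 3 (fu (𝔞.KK L p 3) a)) (p := (3 : ℕ))
    ((reg_B0 h hr).mono (by omega)) (by
      rw [← map_cB]
      conv_rhs => rw [← span_fu (𝔞.KK L p 3), Submodule.map_span, ← Set.range_comp]
      rfl)
  rw [show relW (gK p L) = LinearMap.ker (lc Sg.F fun a => cB 𝔞 L p 3 (fu (𝔞.KK L p 3) a)) from
    Submodule.ext fun c => by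
      rw [mem_relW, LinearMap.mem_ker, lc_apply, ← Submodule.coe_eq_zero, Submodule.coe_sum]
      simp only [Submodule.coe_smul, cB_coe (fu_mem _ _), gK]]
  exact h1
theorem mem_Hb_of_two {θ : (𝔞.HG 𝔟 p).V}
    (H : ∀ t : ((𝔞.G p).V ⊗[ℂ] SA Sg 3) ⊗[ℂ] SA Sg 2, t ∈ tens (𝔞.KK L p 3) ⊤ → mm _ 3 2 t = 0 →
      𝔟.mul (3 + p) 2 (LinearMap.rTensor _ θ t) ∈ 𝔟.pc L' (2 + (3 + p))) :
    θ ∈ 𝔞.Hb 𝔟 L L' p := by
  rw [Hb_eq, Hn_eq]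
  exact mem_Gm_MtX_of (jH_mem θ) (fun _ hd => (reg_rel h hr).gen hd)
    ((rel_iff θ 2).1 fun t ht => H t ht.1 ht.2)
theorem kosEx_Hn (h' : LeL L' 𝔟.O) (hr' : RegL L'.toLat p) (hf' : XFull L') (hp : 2 ≤ p)
    (hn : p + 2 ≤ n) : KosEx (tH p 𝔞 𝔟) (Hn p L L') (Dn p L L') n := by
  rw [funext (Hn_eq (L := L) (L' := L')), funext (Dn_eq (L := L) (L' := L'))]
  exact kosEx_of_model jH_tH le_range_jH (pi_le_MtX h') ((gens_gK h hr).van (by omega) hf' h'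
    ((RegL.toVan 𝔟.reg_O).mono (by omega)) (RegL.toVan hr'))
    ((Van.pi fun _ => RegL.toVan hr').mono (by omega)) (by omega)
theorem ev_S1 : ∀ᶠ n in atTop, Hn p L L' n ≤ Hn p L (bot _ _) n ⊔ Dn p L L' n :=
  (tendsto_natCast_atTop_atTop.eventually (ev_MtX_sup (spl_gK h hr) 𝔟.O L')).mono fun n hn θ hθ => by
    rw [Hn_eq] at hθ
    obtain ⟨φ, h1, φ', h2, e⟩ := Submodule.mem_sup.1 (hn hθ)
    obtain ⟨θ', rfl⟩ := le_range_jH n h1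
    rw [← add_sub_cancel θ' θ, Hn_eq, Dn_eq]
    refine Submodule.add_mem_sup h1 ?_
    rwa [Submodule.mem_comap, map_sub, ← e, add_sub_cancel_left]
theorem S1_succ (h' : LeL L' 𝔟.O) (hr' : RegL L'.toLat p) (hf' : XFull L') (hp : 2 ≤ p)
    (hn : p + 4 ≤ n) (H : Hn p L L' n ≤ Hn p L (bot _ _) n ⊔ Dn p L L' n) :
    Hn p L L' (n + 1) ≤ Hn p L (bot _ _) (n + 1) ⊔ Dn p L L' (n + 1) := by
  obtain ⟨n, rfl⟩ : ∃ m, n = m + 2 := ⟨n - 2, by omega⟩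
  refine (kosEx_Hn h hr h' hr' hf' hp (n := n) (by omega)).2.2.2.ge.trans (sup_le ?_ le_sup_right)
  rintro _ ⟨z, hz, rfl⟩
  rw [k3_apply]
  refine Submodule.sum_mem _ fun i _ => ?_
  obtain ⟨a, ha, c, hc, e⟩ := Submodule.mem_sup.1 (H (mem_p3.1 hz i))
  rw [← e, map_add]
  exact Submodule.add_mem_sup (tH_Hn i ha) (tH_Dn i hc)
end reg

end Crest.Agent.N265.M.Hx
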