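import Crest.Agent.N265.Fib.H4

/-!
# Row 265, task M-TV, part 5 (helper42): the complex `Γ Hom(B, B' → A' → O' → O'/L')`
-/

set_option autoImplicit false
set_option linter.dupNamespace false
set_option linter.unusedSectionVars false
noncomputable section
open Module TensorProduct Filter

namespace Crest.Agent.N265.M.Hx
open Crest.Agent.R274
open Defs_781 Lat_781 Ser_781 SnapA_99 SnapB_99 SnapC_99 SnapD_99 SnapE_99 Gen7_750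
open Xs1_781 SkDefs_474
open Alg GV Br N N.Sg1 Hm Fib Fib.Hz Fib.Pnt _root_.Crest.Agent.N265.Pow
variable {Sg : Surf} {b m n p : ℕ} {𝔞 𝔟 : Amb Sg} {L : XL Sg 𝔞.M} {L' : XL Sg 𝔟.M}

variable (𝔞 p) in
/-- `W_p ⊗ A_3` -/
abbrev PP : GV := WA Sg (𝔞.G p) 3
section gS
variable {T W : Type} [AddCommGroup T] [Module ℂ T] [AddCommGroup W] [Module ℂ W]
  {ε : Pt → T →ₗ[ℂ] W} {M N : Pt → Submodule ℂ W} {θ : (PP p 𝔞).V →ₗ[ℂ] T}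
variable (b p L ε M N) in
/-- `gS / gS' = Γ Hom(B, M / N)` -/
def gS : Submodule ℂ ((PP p 𝔞).V →ₗ[ℂ] T) := ⨅ z : (Sg.S b).pts,
  (homMap (𝔞.KK L p 3) (M z) ⊓ homMap (Zf b p 𝔞 L z) (N z)).comap (LinearMap.llcomp ℂ _ _ _ (ε z))
variable (b p L ε N) in
/-- `gS / gS' = Γ Hom(B, M / N)` -/
def gS' : Submodule ℂ ((PP p 𝔞).V →ₗ[ℂ] T) := ⨅ z : (Sg.S b).pts,
  (homMap (𝔞.KK L p 3) (N z)).comap (LinearMap.llcomp ℂ _ _ _ (ε z))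
lemma mem_gS : θ ∈ gS b p L ε M N ↔ (∀ c ∈ 𝔞.KK L p 3, ∀ z ∈ (Sg.S b).pts, ε z (θ c) ∈ M z) ∧
    ∀ z ∈ (Sg.S b).pts, ∀ c ∈ Zf b p 𝔞 L z, ε z (θ c) ∈ N z := (Submodule.mem_iInf _).trans
  ⟨fun h => ⟨fun c hc z hz => (h ⟨z, hz⟩).1 c hc, fun z hz => (h ⟨z, hz⟩).2⟩,
    fun h z => ⟨fun c hc => h.1 c hc z z.2, h.2 z z.2⟩⟩
lemma mem_gS' : θ ∈ gS' b p L ε N ↔ ∀ c ∈ 𝔞.KK L p 3, ∀ z ∈ (Sg.S b).pts, ε z (θ c) ∈ N z :=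
  (Submodule.mem_iInf _).trans ⟨fun h c hc z hz => h ⟨z, hz⟩ c hc, fun h z c hc => h c hc z z.2⟩
lemma gS'_bot (h : ∀ t, (∀ z ∈ (Sg.S b).pts, ε z t = 0) → t = 0) :
    gS' b p L ε (fun _ => ⊥) = homMap (𝔞.KK L p 3) ⊥ := Submodule.ext fun _ => mem_gS'.trans
  ⟨fun H c hc => h _ (H c hc), fun H c hc _ _ => (congrArg _ (H c hc)).trans (map_zero _)⟩
lemma sub_fu {θ' : (PP p 𝔞).V →ₗ[ℂ] T} {Q : Submodule ℂ ((PP p 𝔞).V →ₗ[ℂ] T)} (h : θ' ∈ Q)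
    (e : ∀ a, θ' (fu (𝔞.KK L p 3) a) = θ (fu (𝔞.KK L p 3) a)) : θ ∈ Q ⊔ homMap (𝔞.KK L p 3) ⊥ ∧
      ∀ c ∈ 𝔞.KK L p 3, θ' c = θ c := by
  have H : θ - θ' ∈ homMap (𝔞.KK L p 3) ⊥ := mem_homMap_fu.2 fun a => sub_eq_zero.2 (e a).symm
  exact ⟨add_sub_cancel θ' θ ▸ Submodule.add_mem_sup h H, fun c hc => (sub_eq_zero.1 (H c hc)).symm⟩
end gS

variable (b m p L L')
/-- `Γ Hom(B, B'(m))` -/
abbrev Bs : Submodule ℂ ((PP p 𝔞).hom (WA Sg (PP p 𝔟) m)).V :=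
  gS b p L (evz Sg b _ m) (fun _ => 𝔟.KK L' p 3) (Zf b p 𝔟 L')
/-- `Γ Hom(B, B'(m))` -/
abbrev Bs' : Submodule ℂ ((PP p 𝔞).hom (WA Sg (PP p 𝔟) m)).V :=
  gS' b p L (evz Sg b _ m) (Zf b p 𝔟 L')
/-- `Γ Hom(B, A'(m))` -/
abbrev As : Submodule ℂ ((PP p 𝔞).hom (WA Sg (𝔟.G p) m)).V :=
  gS b p L (evz Sg b _ m) (fun _ => 𝔟.pc L' p) fun _ => ⊥
variable (𝔟) in
/-- `Γ Hom(B, O'(m))` -/
abbrev Vs : Submodule ℂ (HN p 𝔞 𝔟 m).V := gS b p L (evG b m 𝔟) (fun _ => ⊤) fun _ => ⊥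
variable (𝔞 𝔟) in
/-- `B' → A'` -/
abbrev fB : ((PP p 𝔞).hom (WA Sg (PP p 𝔟) m)).V →ₗ[ℂ] ((PP p 𝔞).hom (WA Sg (𝔟.G p) (m + 3))).V :=
  LinearMap.llcomp ℂ _ _ _ (mm _ 3 m)
variable (𝔞 𝔟) in
/-- `A' → O'` -/
abbrev gA : ((PP p 𝔞).hom (WA Sg (𝔟.G p) m)).V →ₗ[ℂ] (HN p 𝔞 𝔟 (m + p)).V :=
  LinearMap.llcomp ℂ _ _ _ (𝔟.mul p m)
variable {b m p L L'}

lemma le_V : (As b m p L L').map (gA m p 𝔞 𝔟) ⊔ homMap (𝔞.KK L p 3) ⊥ ≤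
    Vs b (m + p) p 𝔟 L ⊓ (Dn p L L' (m + p)).comap LinearMap.id := by
  refine sup_le ?_ fun θ hθ => ⟨mem_gS.2 ⟨fun _ _ _ _ => trivial, fun z _ c hc => (congrArg _
    (hθ c (mulS_le_KK _ hc))).trans (map_zero _)⟩, fun c hc => (hθ c hc).symm ▸ zero_mem _⟩
  rintro _ ⟨ψ, hψ, rfl⟩
  obtain ⟨h1, h2⟩ := mem_gS.1 hψ
  exact ⟨mem_gS.2 ⟨fun _ _ _ _ => trivial, fun z hz c hc => (evG_mul z _).trans
    ((congrArg _ (h2 z hz c hc)).trans (map_zero _))⟩,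
    fun c hc => Amb.mul_mem_pc (mem_tens_of_evz b (h1 c hc))⟩

variable (h : LeL L 𝔞.O) (hr : RegL L.toLat p) (h' : LeL L' 𝔟.O) (hr' : RegL L'.toLat p)
include h hr in
lemma Vs_eq : Vs b n p 𝔟 L = Hn p L (bot _ _) n := Submodule.ext fun θ => by
  refine mem_gS.trans (Iff.trans ?_ mem_Hn.symm)
  simp only [pc_bot, Submodule.mem_bot]
  refine ⟨fun H k t ht => eq_zero_of_evG b fun z hz => ?_,
    fun H => ⟨fun _ _ _ _ => trivial, fun z hz c hc => ?_⟩⟩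
  · rw [evG_mul, evT_rT]
    exact H.2 z hz _ ((zr_KK h hr).ev z hz k t ht)
  · obtain ⟨t, ht, rfl⟩ := (zr_KK h hr).ex z hz c hc
    rw [← evT_rT, ← evG_mul, H 1 t ht, map_zero]
include h' hr' in
lemma inj_B : SqInj (Bs b m p L L') (Bs' b m p L L') (homMap (𝔞.KK L p 3) ⊥) (fB m p 𝔞 𝔟) :=
  le_antisymm (fun _ hθ => mem_gS'.2 fun c hc => (zr_KK h' hr').mem_Rel.1
    ⟨mem_tens_of_evz b ((mem_gS.1 hθ.1).1 c hc), hθ.2 c hc⟩) fun _ hθ =>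
    ⟨mem_gS.2 ⟨fun c hc z hz => mulS_le_KK _ (mem_gS'.1 hθ c hc z hz),
      fun z hz c hc => mem_gS'.1 hθ c (mulS_le_KK _ hc) z hz⟩,
      fun c hc => ((zr_KK h' hr').mem_Rel.2 (mem_gS'.1 hθ c hc)).2⟩
include h hr h' hr' in
lemma ex_A : SqEx (Bs b m p L L') (As b (m + 3) p L L') (homMap (𝔞.KK L p 3) ⊥)
    (homMap (𝔞.KK L p 3) ⊥) (fB m p 𝔞 𝔟) (gA (m + 3) p 𝔞 𝔟) := by
  refine le_antisymm (sup_le ?_ fun θ hθ => ⟨mem_gS.2 ⟨fun c hc z _ => ?_, fun z _ c hc => ?_⟩,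
    fun c hc => (congrArg (𝔟.mul _ _) (hθ c hc)).trans (map_zero _)⟩) fun ψ hψ => ?_
  · rintro _ ⟨θ, hθ, rfl⟩
    obtain ⟨h1, h2⟩ := mem_gS.1 hθ
    have h3 := fun c hc => mm_mem_KK (mem_tens_of_evz b (h1 c hc))
    exact ⟨mem_gS.2 ⟨fun c hc z _ => evT_mem _ (h3 c hc).1, fun z hz c hc =>
      (evz_mm z _).trans ((zr_KK h' hr').ker z hz _ (h2 z hz c hc))⟩,
      fun c hc => (𝔟.ker_mF _ _).le (h3 c hc).2⟩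
  · rw [show θ c = 0 from hθ c hc, map_zero]; exact zero_mem _
  · rw [show θ c = 0 from hθ c (mulS_le_KK _ hc), map_zero]; exact zero_mem _
  obtain ⟨h1, h2⟩ := mem_gS.1 hψ.1
  choose s h3 h4 using fun a => (map_mm_KK h' hr' m).ge (show ψ (fu (𝔞.KK L p 3) a) ∈ _ from
    ⟨mem_tens_of_evz b (h1 _ (fu_mem _ a)), (𝔟.ker_mF _ _).ge (hψ.2 _ (fu_mem _ a))⟩)
  have h5 : fext (𝔞.KK L p 3) s ∈ homMap (𝔞.KK L p 3) (tens (𝔟.KK L' p 3) ⊤) :=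
    mem_homMap_fu.2 fun a => (fext_fu _ s a).symm ▸ h3 a
  have h6 := fun a => (congrArg (mm _ 3 m) (fext_fu _ s a)).trans (h4 a)
  refine (sub_fu (Submodule.mem_map_of_mem (f := fB m p 𝔞 𝔟) (mem_gS.2
    ⟨fun c hc z _ => evT_mem _ (h5 c hc), fun z hz c hc => ?_⟩)) h6).1
  obtain ⟨t, ht, rfl⟩ := (zr_KK h hr).ex z hz c hc
  rw [← evT_rT, ← evz_mm]
  refine (zr_KK h' hr').ev z hz _ _ ⟨mm_mem le_rfl (rT_mem h5 ht.1),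
    eq_zero_of_evz b fun z hz => ?_⟩
  have h7 := (zr_KK h hr).ev z hz _ _ ht
  rw [evz_mm, evz_mm, evT_rT, ← evz_mm]
  exact (congrArg _ ((sub_fu (θ' := fB m p 𝔞 𝔟 (fext _ s)) (Q := ⊤) trivial h6).2 _
    (mulS_le_KK _ h7))).trans (h2 z hz _ h7)
include h hr h' hr' in
lemma ev_V : ∀ᶠ m in atTop, SqEx (As b m p L L') (Vs b (m + p) p 𝔟 L) (homMap (𝔞.KK L p 3) ⊥)
    (Dn p L L' (m + p)) (gA m p 𝔞 𝔟) LinearMap.id := by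
  refine (((tendsto_atTop_add_const_right _ (p : ℤ) tendsto_natCast_atTop_atTop).eventually
    (ev_MtX_surj (spl_gK h hr) (T := twX (OP Sg.V.X _) (-p)) (N := L')
    (γ := Fintype.linearCombination Sg.F (gu 𝔟 L' p))
    (fun I hI v hv => genX_le (fun l => Amb.mem_pc.1 (fu_mem _ l)) I hI ⟨v, hv, rfl⟩)
    fun x _ hw => mem_loc_mapX.1 (loc_mono (le_genX h' hr') hw)))).mono fun m hm =>
      le_antisymm le_V fun θ hθ => ?_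
  have h1 := hθ.1
  have h2 := hθ.2
  rw [Vs_eq h hr, Hn_eq] at h1
  rw [Submodule.comap_id, Dn_eq] at h2
  obtain ⟨φ, h3, h4⟩ := hm (jH p 𝔟 L _ θ) (Nat.cast_add (R := ℤ) m p ▸ mem_Gm_MtX.2
    ⟨Gm_pi.1 h2, (mem_Gm_MtX.1 h1).2⟩)
  choose s h5 h6 using fun a => exists_co (U := 𝔟.pc L' p) fun l =>
    mem_SA.2 (mem_Gm_twOP.1 ((mem_Gm_MtX.1 h3).1 a) l)
  have h7 : fext (𝔞.KK L p 3) s ∈ homMap (𝔞.KK L p 3) (tens (𝔟.pc L' p) ⊤) :=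
    mem_homMap_fu.2 fun a => (fext_fu _ s a).symm ▸ h5 a
  refine (sub_fu (Submodule.mem_map_of_mem (f := gA m p 𝔞 𝔟) (mem_gS.2
    ⟨fun c hc z _ => evT_mem _ (h7 c hc), fun z hz c hc => ?_⟩)) fun a => 𝔟.inc_inj _ ?_).1
  · obtain ⟨t, ht, rfl⟩ := (zr_KK h hr).ex z hz c hc
    have h8 := Gm_MtX_apply h3 ((mem_Rel_iff ht.1).1 ht) fun a => mem_SA.1 (co_mem _ t a)
    refine (congrArg _ (evT_rT _ _ t).symm).trans ((evz_mm z _).symm.trans ((congrArg _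
      (co_inj (mm_mem le_rfl (rT_mem (mem_homMap.1 h7) ht.1)) ?_)).trans (map_zero _)))
    rw [Hm.co, mF_mm, mF_rT, mF_co _ ht.1]
    refine Eq.trans (Finset.sum_congr rfl fun a _ => ?_) ((smul_eq_zero.1
      (mem_Gm.1 h8 0)).resolve_left (zpow_ne_zero _ (Sg.V.X.t_ne 0)))
    rw [LinearMap.comp_apply, fext_fu, ← h6]; rfl
  · change 𝔟.inc _ (𝔟.mul _ _ (fext _ s _)) = jH p 𝔟 L _ θ a
    rw [fext_fu, Amb.inc_mul, mF_co _ (h5 a), h6, ← h4]; rfl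

end Crest.Agent.N265.M.Hx
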