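import Crest.Agent.N265.Fib.H5
import Crest.Agent.N265.M.TV0

/-!
# Row 265, task M-TV, part 6 (helper42): `π(O(j) O/L)` and `π(O(j) Hom(B, O'/L'))`
-/

set_option autoImplicit false
set_option linter.dupNamespace false
set_option linter.unusedSectionVars false
noncomputable section
open Module TensorProduct Filter

namespace Crest.Agent.N265.M.Hx
open Crest.Agent.R274
open Defs_781 Lat_781 Ser_781 SnapA_99 SnapB_99 SnapC_99 SnapD_99 SnapE_99 Gen7_750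
open Xs1_781 SkDefs_474
open Alg GV Br N N.Sg1 Hm Fib Fib.Hz _root_.Crest.Agent.N265.Pow
variable {Sg : Surf} {b m n p : ℕ} {𝔞 𝔟 : Amb Sg} {X : Spc}

lemma deg0_mm (V : GV) (e k : ℕ) : Deg0 (WA Sg (WA Sg V e) k) (WA Sg V (k + e)) (mm V.V e k) :=
  ext3 (f := mm V.V e k ∘ₗ (WA Sg (WA Sg V e) k).g.toLinearMap)
    (g := (WA Sg V (k + e)).g.toLinearMap ∘ₗ mm V.V e k) fun _ _ _ => rfl
lemma deg0_ll (P : GV) {W W' : GV} {f : W.V →ₗ[ℂ] W'.V} (h : Deg0 W W' f) :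
    Deg0 (P.hom W) (P.hom W') (LinearMap.llcomp ℂ _ _ _ f) := fun _ => LinearMap.ext fun _ => h _
lemma deg0_Psi (P : GV) (k : ℕ) :
    Deg0 (P.hom (𝔟.G n)) ((WA Sg P k).hom (𝔟.G (k + n))) (Psi k n 𝔟 P.V) := fun φ => by
  refine TensorProduct.ext' fun w a => ?_
  exact 𝔟.deg0_mul n k (φ (P.g.symm w) ⊗ₜ a)
variable (𝔟 n) in
/-- `W0 ⊗ A_n = W_n` -/
def ωG : (WA Sg (W0 𝔟) n).V →ₗ[ℂ] (𝔟.G n).V :=
  piScalarRightHom ℂ ℂ (SA Sg n) 𝔟.ι ∘ₗ (TensorProduct.comm ℂ _ _).toLinearMap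
lemma ωG_tmul (v : (W0 𝔟).V) (a : SA Sg n) : ωG n 𝔟 (v ⊗ₜ a) = fun i => v i • a :=
  piScalarRightHom_tmul ℂ ℂ _ _ a v
lemma bij_ωG : Function.Bijective (ωG n 𝔟) := by
  classical
  exact (piScalarRight ℂ ℂ (SA Sg n) 𝔟.ι).bijective.comp (TensorProduct.comm ℂ _ _).bijective
lemma deg0_ωG : Deg0 _ (𝔟.G n) (ωG n 𝔟) := fun t => by
  induction t using TensorProduct.induction_on with
  | zero => simp only [map_zero]
  | tmul v a =>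
    refine (ωG_tmul ((W0 𝔟).g v) a).trans ?_
    rw [ωG_tmul]
    exact funext fun i => mul_smul (chi _) (v i) a
  | add t t' h h' => simp only [map_add, h, h']
lemma evG_ωG (z : Pt) (t : (WA Sg (W0 𝔟) n).V) : evG b n 𝔟 z (ωG n 𝔟 t) = evz Sg b _ n z t := by
  induction t using TensorProduct.induction_on with
  | zero => simp only [map_zero]
  | tmul v a =>
    rw [ωG_tmul, evT_tmul]
    exact funext fun i => (map_smul (evP Sg b n z) (v i) a).trans (mul_comm _ _)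
  | add t t' h h' => simp only [map_add, h, h']
lemma in_W0 (B : Finset ℕ) : (W0 𝔟).In B := in_pi fun _ => in_line (zsmul_mem (eT_mem B) _)
lemma kc_W0 : kc X (W0 𝔟) (fun _ => ⊤) = 𝔟.V X := by
  rw [← kc_congr (fun _ _ => Submodule.pi_top Set.univ),
    kc_pi fun _ => IsAB.top (in_line (zsmul_mem (eT_mem _) _))]
  exact Finset.sum_congr rfl fun a _ => kc_line (zsmul_mem (eT_mem _) _)
lemma lb_cancel (Y : Spc) (k j : ℕ) :
    lbK Y (((k + j : ℕ) : ℤ) • eB b) * lbK Y (-(j • eB b)) = lbK Y ((k : ℤ) • eB b) := by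
  rw [← lbK_add, Nat.cast_add, add_smul, natCast_zsmul _ j, add_neg_cancel_right]
lemma kc_WA {V : GV} {U : Pt → Submodule ℂ V.V} (h : IsAB X V U) (k : ℕ) :
    kc X (WA Sg V k) (fun x => tens (U x) ⊤) = kc X V U * (finrank ℂ (SA Sg k) : K X) := by
  rw [kc_tens h (IsAB.top (in_triv _)), kc_triv, finrank_top]
lemma piK_pl (hb : b ∉ X.B) (a : K X) (k : ℕ) : piK X (Sg.S b) b (lbK _ ((k : ℤ) • eB b) *
    K.pull (Spc.fib_fst X _) a) = a * (finrank ℂ (SA Sg k) : K X) := by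
  rw [mul_comm, piK_mul (base_S Sg b) hb, piK_O hb]

variable {L : Pt → XL Sg 𝔞.M} {L' : Pt → XL Sg 𝔟.M}
theorem syzF (h : LFam 𝔞 X p L) (hb : b ∉ X.B) {r : ℕ}
    (hr : ∀ x ∈ X.pts, finrank ℂ (𝔞.pc (L x) p) = r + Fintype.card 𝔞.ι) :
    SyzF Sg b X (𝔞.G p) (fun k x => 𝔞.KK (L x) p k) 2 r :=
  ⟨hb, fun k _ => h.isAB_KK k, fun _ hk x hx => gen_KK (h.le x hx) (h.reg x hx) hk,
    fun k hk x hx z hz => by
      have h1 := rk_KK (h.le x hx) (h.reg x hx) hk hz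
      have h2 := finrank_sW (h.le x hx) (h.reg x hx)
        (xfull_of_HP (h.le x hx) (h.hp.choose_spec.choose_spec x hx))
      have h3 := hr x hx
      omega⟩

variable (b p X L)
/-- `KK 3` on `X × S` -/
abbrev KY (y : Pt) : Submodule ℂ (PP p 𝔞).V := 𝔞.KK (L (restr X.B y)) p 3
/-- `V_z KK 2` on `X × S` -/
abbrev ZY : Pt → Submodule ℂ (PP p 𝔞).V := ZZ Sg b X fun x => 𝔞.KK (L x) p 2
/-- the syzygy bundle -/
def βc : K (X.fib (Sg.S b)) := kc _ (PP p 𝔞) (KY p X L) - kc _ (PP p 𝔞) (ZY b p X L)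
/-- the class of `O / L` -/
def Qc : K (X.fib (Sg.S b)) := 𝔞.V _ - lbK _ (-(p • eB b)) *
  (K.pull (Spc.fib_fst X _) (ucl 𝔞 X L p) - lbK _ (-(3 • eB b)) * βc b p X L)
variable {b p X L}
lemma SS_eq : SS 𝔞 X p L = lbK _ (-(p • eB 0)) *
    (K.pull (Spc.fib_fst X _) (ucl 𝔞 X L p) - lbK _ (-(3 • eB 0)) * βc 0 p X L) := (mul_sub ..).symm
lemma mul_Qc (u : K (X.fib (Sg.S b))) : lbK _ (((m + 3 + p : ℕ) : ℤ) • eB b) * (u * Qc b p X L) =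
    lbK _ (((m + 3 + p : ℕ) : ℤ) • eB b) * (u * 𝔞.V _) - lbK _ (((m + 3 : ℕ) : ℤ) • eB b) *
      (u * K.pull (Spc.fib_fst X _) (ucl 𝔞 X L p)) + lbK _ ((m : ℤ) • eB b) * (u * βc b p X L) := by
  rw [← lb_cancel _ m 3, ← lb_cancel _ (m + 3) p, Qc]; ring

variable (h : LFam 𝔞 X p L) (h' : LFam 𝔟 X p L') (hb : b ∉ X.B)
include h
lemma isAB_KY : IsAB (X.fib (Sg.S b)) (PP p 𝔞) (KY p X L) := (h.isAB_KK 3).pull (Spc.fib_fst X _)
lemma isAB_Rel (k : ℕ) : (IsAB X (WA Sg (PP p 𝔞) k) fun x => Rel (𝔞.KK (L x) p 3) k) ∧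
    kc X (PP p 𝔞) (fun x => 𝔞.KK (L x) p 3) * (finrank ℂ (SA Sg k) : K X) =
      kc X (WA Sg (PP p 𝔞) k) (fun x => Rel (𝔞.KK (L x) p 3) k) +
        kc X (WA Sg (𝔞.G p) (k + 3)) fun x => 𝔞.KK (L x) p (k + 3) := by
  have e := fun x hx => map_mm_KK (h.le x hx) (h.reg x hx) k
  have h1 := (h.isAB_KK 3).tens (IsAB.top (in_triv (SA Sg k)))
  have h2 := (h.isAB_KK (k + 3)).congr fun x hx => (e x hx).symm
  have h3 := IsRM.const (X := X) (deg0_mm (Sg := Sg) (𝔞.G p) 3 k)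
  exact ⟨h1.ker_of_map h3 h2, (kc_WA (h.isAB_KK 3) k).symm.trans
    ((kc_map h1 h3 h2).trans (congrArg _ (kc_congr e)))⟩
lemma ucl_mul (k : ℕ) : ucl 𝔞 X L p * (finrank ℂ (SA Sg k) : K X) =
    kc X (WA Sg (𝔞.G p) k) (fun x => 𝔞.KK (L x) p k) + ucl 𝔞 X L (k + p) := by
  have e := fun x hx => Amb.map_mul_pc (h.le x hx) (h.reg x hx) le_rfl k
  exact (kc_WA (h.ab p le_rfl) k).symm.trans ((kc_map (h.isAB_tens le_rfl k)
    (.const (𝔞.deg0_mul p k)) ((h.ab _ (by omega)).congr fun x hx => (e x hx).symm)).trans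
    (congrArg₂ _ (kc_congr fun _ _ => (𝔞.KK_eq _ p k).symm) (kc_congr e)))
include hb
lemma isAB_ZY : IsAB (X.fib (Sg.S b)) (PP p 𝔞) (ZY b p X L) :=
  (syzF h hb h.exists_rk''.choose_spec).isAB_ZZ le_rfl

theorem piK_Qc (hn : p ≤ n) : piK X (Sg.S b) b (lbK _ ((n : ℤ) • eB b) * Qc b p X L) =
    kc X (𝔞.G n) (fun _ => ⊤) - ucl 𝔞 X L n := by
  obtain ⟨m₀, hm⟩ := piK_gam0 hb (h.isAB_KK 3).hin (isAB_ZY h hb)
  have := RecN.eq_of (n₁ := m₀ + 3 + p) (fun n hn => recN_kc (M := fun n _ => 𝔞.pc 𝔞.O n)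
    deg0_tG (fun j _ => 𝔞.pc_O j ▸ .top (𝔞.in_G _ _)) (fun j hj => h.ab j (hn.trans hj))
    fun x hx => kosEx_pc (h.le x hx) (h.reg x hx) h.two hn)
    ((base_S Sg b).rec3 (piK X (Sg.S b) b) (Qc b p X L)) (fun n hn => ?_) n hn
  · rw [← this, 𝔞.pc_O]; rfl
  obtain ⟨m, rfl⟩ : ∃ m, n = m + 3 + p := ⟨n - 3 - p, by omega⟩
  have e1 := mul_Qc (m := m) (b := b) (p := p) (L := L) (X := X) 1
  have e2 : ∀ x ∈ X.pts, gam0 Sg b m (ZY b p X L) x = Rel (𝔞.KK (L x) p 3) m := fun x hx =>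
    Submodule.ext fun t => mem_gam0.trans (Iff.trans (forall₂_congr fun z hz => by
      rw [ZY, ZZ_add _ hb hx hz]) (zr_KK (h.le x hx) (h.reg x hx)).mem_Rel.symm)
  simp only [one_mul] at e1
  rw [e1, map_add, map_sub, ← 𝔞.pull_V (Spc.fib_fst X _), piK_pl hb, piK_pl hb, βc, mul_sub,
    map_sub, (hm m (by omega)).2, ← kc_pull (h.isAB_KK 3) (Spc.fib_fst X _), piK_pl hb,
    (isAB_Rel h m).2, kc_congr (V := WA Sg (PP p 𝔞) m) e2, 𝔞.pc_O, 𝔞.kc_G, ucl_mul h, ucl]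
  ring

theorem piK_gS {W : GV} (hW : W.In X.B) {M N : Pt → Submodule ℂ W.V}
    (hM : IsAB (X.fib (Sg.S b)) W M) (hN : IsAB (X.fib (Sg.S b)) W N)
    (le : ∀ y ∈ (X.fib (Sg.S b)).pts, N y ≤ M y) {M₀ N₀ : Pt → Pt → Submodule ℂ W.V}
    (e : ∀ x ∈ X.pts, ∀ z ∈ (Sg.S b).pts, M (x + z) = M₀ x z ∧ N (x + z) = N₀ x z) :
    ∀ᶠ m : ℕ in atTop, ∀ (T : GV) (ω : (WA Sg W m).V →ₗ[ℂ] T.V) (ε : Pt → T.V →ₗ[ℂ] W.V),
      T.In X.B → Deg0 _ T ω → Function.Bijective ω → (∀ z t, ε z (ω t) = evz Sg b _ m z t) →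
      (IsAB X ((PP p 𝔞).hom T) fun x => gS b p (L x) ε (M₀ x) (N₀ x)) ∧
      (IsAB X ((PP p 𝔞).hom T) fun x => gS' b p (L x) ε (N₀ x)) ∧
      piK X (Sg.S b) b (lbK _ ((m : ℤ) • eB b) * (K.dual _ (βc b p X L) * (kc _ W M - kc _ W N))) =
        kc X ((PP p 𝔞).hom T) (fun x => gS b p (L x) ε (M₀ x) (N₀ x)) -
          kc X ((PP p 𝔞).hom T) fun x => gS' b p (L x) ε (N₀ x) := by
  have hl : ∀ y ∈ (X.fib (Sg.S b)).pts, ZY b p X L y ≤ KY p X L y := fun _ _ => mulS_le_KK _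
  have h1 := piK_gamH hb (h.isAB_KK 3).hin hW ((isAB_KY h).homMap_inf (isAB_ZY h hb) hM hN hl le)
  have h2 := piK_gamH hb (h.isAB_KK 3).hin hW ((isAB_KY h).homMap hN)
  refine ((eventually_atTop.2 h1).and (eventually_atTop.2 h2)).mono
    fun m H T ω ε hT h0 hω hε => ?_
  obtain ⟨h3, h4⟩ := H.1 T ω ε hT h0 hω hε
  obtain ⟨h5, h6⟩ := H.2 T ω ε hT h0 hω hε
  have e1 : ∀ x ∈ X.pts, gamH Sg b ε (fun y => homMap (KY p X L y) (M y) ⊓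
      homMap (ZY b p X L y) (N y)) x = gS b p (L x) ε (M₀ x) (N₀ x) := fun x hx =>
    iInf_congr fun z => by
      simp only [KY, ZY, (add_mem hb hx z.2).2.1, ZZ_add _ hb hx z.2, e x hx z z.2]
  have e2 : ∀ x ∈ X.pts, gamH Sg b ε (fun y => homMap (KY p X L y) (N y)) x =
      gS' b p (L x) ε (N₀ x) := fun x hx =>
    iInf_congr fun z => by simp only [KY, (add_mem hb hx z.2).2.1, e x hx z z.2]
  refine ⟨h3.congr e1, h5.congr e2, ?_⟩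
  rw [βc, ← kq_hom (isAB_KY h) (isAB_ZY h hb) hM hN hl le, mul_sub, map_sub, h4, h6]
  exact congrArg₂ _ (kc_congr e1) (kc_congr e2)

variable (b p X L L') in
/-- the class of `Γ Hom(B, O'/L'(j))` -/
def Hc (j : ℤ) : K X :=
  piK X (Sg.S b) b (lbK _ (j • eB b) * (K.dual _ (βc b p X L) * Qc b p X L'))
variable (p L) in
/-- maps that kill `KK 3` -/
abbrev Z0 (T : GV) (x : Pt) : Submodule ℂ ((PP p 𝔞).hom T).V := homMap (𝔞.KK (L x) p 3) ⊥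
lemma ev_Vs : ∀ᶠ n : ℕ in atTop, (IsAB X (HN p 𝔞 𝔟 n) fun x => Vs b n p 𝔟 (L x)) ∧
    piK X (Sg.S b) b (lbK _ ((n : ℤ) • eB b) * (K.dual _ (βc b p X L) * 𝔟.V _)) =
      kc X (HN p 𝔞 𝔟 n) (fun x => Vs b n p 𝔟 (L x)) - kc X _ (Z0 p L (𝔟.G n)) :=
  (piK_gS h hb (in_W0 _) (.top (in_W0 _)) (.bot (in_W0 _)) (fun _ _ => bot_le)
    (M₀ := fun _ _ => ⊤) (N₀ := fun _ _ => ⊥) fun _ _ _ _ => ⟨rfl, rfl⟩).mono fun n H => by
    obtain ⟨h1, -, h2⟩ := H (𝔟.G n) (ωG n 𝔟) (evG b n 𝔟) (𝔟.in_G _ _) deg0_ωG bij_ωG evG_ωG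
    rw [kc_W0, kc_of_bot (L := fun _ => ⊥) fun _ _ => rfl, sub_zero] at h2
    exact ⟨h1, h2.trans (congrArg _ (kc_congr fun x _ => gS'_bot fun _ => eq_zero_of_evG b))⟩
include h'
lemma ev_six : ∀ᶠ m : ℕ in atTop,
    (IsAB X ((PP p 𝔞).hom (WA Sg (PP p 𝔟) m)) fun x => Bs b m p (L x) (L' x)) ∧
    (IsAB X ((PP p 𝔞).hom (WA Sg (PP p 𝔟) m)) fun x => Bs' b m p (L x) (L' x)) ∧
    (IsAB X ((PP p 𝔞).hom (WA Sg (𝔟.G p) (m + 3))) fun x => As b (m + 3) p (L x) (L' x)) ∧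
    (IsAB X (HN p 𝔞 𝔟 (m + 3 + p)) fun x => Vs b (m + 3 + p) p 𝔟 (L x)) ∧
    Hc b p X L L' (m + 3 + p : ℕ) =
      (kc X (HN p 𝔞 𝔟 (m + 3 + p)) (fun x => Vs b (m + 3 + p) p 𝔟 (L x)) -
        kc X _ (Z0 p L (𝔟.G (m + 3 + p)))) -
      (kc X ((PP p 𝔞).hom (WA Sg (𝔟.G p) (m + 3))) (fun x => As b (m + 3) p (L x) (L' x)) -
        kc X _ (Z0 p L (WA Sg (𝔟.G p) (m + 3)))) +
      (kc X ((PP p 𝔞).hom (WA Sg (PP p 𝔟) m)) (fun x => Bs b m p (L x) (L' x)) -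
        kc X ((PP p 𝔞).hom (WA Sg (PP p 𝔟) m)) fun x => Bs' b m p (L x) (L' x)) := by
  have hB := piK_gS h hb (h'.isAB_KK 3).hin (isAB_KY h') (isAB_ZY h' hb) (fun _ _ => mulS_le_KK _)
    (M₀ := fun x _ => 𝔟.KK (L' x) p 3) (N₀ := fun x => Zf b p 𝔟 (L' x)) fun x hx z hz =>
      ⟨by rw [KY, (add_mem hb hx hz).2.1], ZZ_add _ hb hx hz⟩
  have hA := piK_gS h hb (𝔟.in_G p _) ((h'.ab p le_rfl).pull (Spc.fib_fst X _))
    (.bot (𝔟.in_G p _)) (fun _ _ => bot_le) (M₀ := fun x _ => 𝔟.pc (L' x) p) (N₀ := fun _ _ => ⊥)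
    fun x hx z hz => ⟨by rw [(add_mem hb hx hz).2.1], rfl⟩
  refine (hB.and (((tendsto_add_atTop_nat 3).eventually hA).and (((tendsto_add_atTop_nat p).comp
    (tendsto_add_atTop_nat 3)).eventually (ev_Vs (𝔟 := 𝔟) h hb)))).mono fun m ⟨H1, H2, H3⟩ => ?_
  obtain ⟨a1, a2, a3⟩ := H1 _ LinearMap.id (evz Sg b _ m) ((h'.isAB_KK 3).hin.tens (in_triv _))
    deg0_id Function.bijective_id fun _ _ => rfl
  obtain ⟨a4, -, a5⟩ := H2 _ LinearMap.id (evz Sg b _ (m + 3)) ((𝔟.in_G p _).tens (in_triv _))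
    deg0_id Function.bijective_id fun _ _ => rfl
  rw [kc_of_bot (L := fun _ => ⊥) fun _ _ => rfl, sub_zero,
    ← kc_pull (h'.ab p le_rfl) (Spc.fib_fst X _)] at a5
  refine ⟨a1, a2, a4, H3.1, ?_⟩
  rw [Hc, mul_Qc, map_add, map_sub]
  exact congrArg₂ _ (congrArg₂ _ H3.2 (a5.trans (congrArg _ (kc_congr fun x _ =>
    gS'_bot fun _ => eq_zero_of_evz b)))) a3


omit hb h' in
lemma isAB_Z0 {T : GV} (hT : T.In X.B) : IsAB X _ (Z0 p L T) := (h.isAB_KK 3).homMap (.bot hT)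
omit hb in
lemma isAB_Dn (hn : p ≤ n) : IsAB X (HN p 𝔞 𝔟 n) fun x => Dn p (L x) (L' x) n :=
  (h.isAB_KK 3).homMap (h'.ab n hn)
omit hb h h' in
lemma sup_le_Hn {L : XL Sg 𝔞.M} {L' : XL Sg 𝔟.M} :
    Hn p L (bot _ _) n ⊔ Dn p L L' n ≤ Hn p L L' n :=
  sup_le (fun _ H => mem_Hn.2 fun k t ht => by
    have := mem_Hn.1 H k t ht
    rw [pc_bot] at this
    exact bot_le (a := 𝔟.pc L' _) this)
    fun _ H => mem_Hn.2 fun _ _ ht => Amb.mul_mem_pc (rT_mem (mem_homMap.1 H) ht.1)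
/-- the Euler characteristic decides exactness at `Γ Hom(B, O')` -/
lemma ev_iff : ∀ᶠ m : ℕ in atTop, ∀ x (hx : x ∈ X.pts), Hn p (L x) (L' x) (m + 3 + p) ≤
    Hn p (L x) (bot _ _) (m + 3 + p) ⊔ Dn p (L x) (L' x) (m + 3 + p) →
    SqSurj (V := HN p 𝔞 𝔟 _) (W := HN p 𝔞 𝔟 _) (Vs b (m + 3 + p) p 𝔟 (L x))
      (Hn p (L x) (L' x) _) (Dn p (L x) (L' x) _) LinearMap.id ∧
    (SqEx (As b (m + 3) p (L x) (L' x)) (Vs b (m + 3 + p) p 𝔟 (L x)) (Z0 p L _ x)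
      (Dn p (L x) (L' x) _) (gA (m + 3) p 𝔞 𝔟) LinearMap.id ↔
    (finrank ℂ (Hn p (L x) (L' x) (m + 3 + p)) : ℤ) - finrank ℂ (Dn p (L x) (L' x) (m + 3 + p)) =
      K.rk hx (Hc b p X L L' (m + 3 + p : ℕ))) :=
  (ev_six h h' hb).mono fun m ⟨a1, a2, a3, a4, a5⟩ x hx H => by
    have s : SqSurj (V := HN p 𝔞 𝔟 _) (W := HN p 𝔞 𝔟 _) (Vs b (m + 3 + p) p 𝔟 (L x))
        (Hn p (L x) (L' x) _) (Dn p (L x) (L' x) _) LinearMap.id := by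
      rw [SqSurj, Submodule.map_id, Vs_eq (h.le x hx) (h.reg x hx)]
      exact le_antisymm sup_le_Hn H
    refine ⟨s, (fr4 (inj_B (h'.le x hx) (h'.reg x hx)) (ex_A (h.le x hx) (h.reg x hx) (h'.le x hx)
      (h'.reg x hx)) s le_V).trans ?_⟩
    rw [a5, map_add, map_sub, map_sub, map_sub, map_sub, rk_kc a1, rk_kc a2, rk_kc a3, rk_kc a4,
      rk_kc (isAB_Z0 h (𝔟.in_G _ _)), rk_kc (isAB_Z0 h ((𝔟.in_G _ _).tens (in_triv _)))]
    exact ⟨fun e => by linarith, fun e => by linarith⟩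
omit hb h in
lemma xfull {x : Pt} (hx : x ∈ X.pts) : XFull (L' x) :=
  xfull_of_HP (h'.le x hx) (h'.hp.choose_spec.choose_spec x hx)
lemma rk_Hc (hn : p + 2 ≤ n) {x : Pt} (hx : x ∈ X.pts) :
    (finrank ℂ (Hn p (L x) (L' x) n) : ℤ) - finrank ℂ (Dn p (L x) (L' x) n) =
      K.rk hx (Hc b p X L L' n) := by
  obtain ⟨m₀, hm⟩ := eventually_atTop.1 ((ev_iff h h' hb).and ((((tendsto_add_atTop_nat p).comp
    (tendsto_add_atTop_nat 3)).eventually (ev_S1 (L' := L' x) (h.le x hx) (h.reg x hx))).and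
    ((tendsto_add_atTop_nat 3).eventually
      (ev_V (b := b) (h.le x hx) (h.reg x hx) (h'.le x hx) (h'.reg x hx)))))
  refine RecN.eq_of (n₁ := m₀ + 3 + p) (fun n hn => (kosEx_Hn (h.le x hx) (h.reg x hx)
    (h'.le x hx) (h'.reg x hx) (xfull h' hx) h.two hn).num) (fun j => Rec3.map
    ((base_S Sg b).rec3 (piK X (Sg.S b) b) _ j) (K.rk hx).toAddMonoidHom) (fun n hn => ?_) n hn
  obtain ⟨m, rfl⟩ : ∃ m, n = m + 3 + p := ⟨n - 3 - p, by omega⟩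
  obtain ⟨h1, h2, h3⟩ := hm m (by omega)
  exact (h1 x hx h2).2.1 h3
theorem isAB_Hn (hn : p + 2 ≤ n) : IsAB X (HN p 𝔞 𝔟 n) fun x => Hn p (L x) (L' x) n := by
  have hD := isAB_Dn h h' (n := n) (by omega)
  have hR := fun k => (isAB_Rel h k).1.homMap (h'.ab (k + n) (by omega))
  have hC : CogA X fun x => Hn p (L x) (L' x) n := CogA.iInf fun k =>
    (hR k).cog.comap (IsRM.const (X := X) (deg0_Psi (PP p 𝔞) k)).reg
  refine ⟨hD.hin, hC.alg_of_usc (usc_iff.2 fun x => ((hD.alg.near_finrank x).and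
      (near_rk (Hc b p X L L' n) x)).mono fun y hy => ?_),
    Eqv.iInf fun k => (hR k).eqv'.comap (.const (deg0_Psi _ k))⟩
  have h1 := rk_Hc h h' hb hn x.2
  have h2 := rk_Hc h h' hb hn y.2
  change -(finrank ℂ (Hn p (L y) (L' y) n) : ℤ) ≤ -(finrank ℂ (Hn p (L x) (L' x) n) : ℤ)
  omega
theorem kq_Hn (hn : p + 2 ≤ n) : kc X (HN p 𝔞 𝔟 n) (fun x => Hn p (L x) (L' x) n) -
    kc X (HN p 𝔞 𝔟 n) (fun x => Dn p (L x) (L' x) n) = Hc b p X L L' n := by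
  obtain ⟨n₀, h₀⟩ := eventually_atTop.1 (ev_Vs (𝔟 := 𝔟) h hb)
  obtain ⟨n₁, h₁⟩ := unif_of_open (n₀ := n₀ + (p + 4)) (q := fun n x => Hn p (L x) (L' x) n ≤
    Hn p (L x) (bot _ _) n ⊔ Dn p (L x) (L' x) n) (fun n hn x H => by
      have h1 := (((h₀ n (by omega)).1.congr fun x hx => Vs_eq (h.le x hx) (h.reg x hx)).gen.sup
        (isAB_Dn h h' (n := n) (by omega)).gen).usc
      refine ((usc_iff.1 h1 x).and ((isAB_Hn h h' hb (n := n) (by omega)).alg.near_finrank x)).mono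
        fun y hy => (Submodule.eq_of_le_of_finrank_le sup_le_Hn ?_).ge
      have := Submodule.finrank_mono H
      omega) (fun n hn x => S1_succ
      (h.le x x.2) (h.reg x x.2) (h'.le x x.2) (h'.reg x x.2) (xfull h' x.2) h.two (by omega))
    fun x => ev_S1 (h.le x x.2) (h.reg x x.2)
  obtain ⟨m₀, hm⟩ := eventually_atTop.1 ((ev_iff h h' hb).and (ev_six h h' hb))
  refine RecN.eq_of (n₁ := m₀ + n₁ + 3 + p) (fun n hn => recN_kc (τ := tH p 𝔞 𝔟)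
    (fun n i => deg0_ll _ (deg0_tG n i)) (fun j hj => isAB_Hn h h' hb (by omega))
    (fun j hj => isAB_Dn h h' (by omega)) fun x hx => kosEx_Hn (h.le x hx) (h.reg x hx)
    (h'.le x hx) (h'.reg x hx) (xfull h' hx) h.two hn)
    ((base_S Sg b).rec3 (piK X (Sg.S b) b) _) (fun n hn => ?_) n hn
  obtain ⟨m, rfl⟩ : ∃ m, n = m + 3 + p := ⟨n - 3 - p, by omega⟩
  obtain ⟨H, a1, a2, a3, a4, a5⟩ := hm m (by omega)
  have := kq4 a1 a2 a3 (isAB_Z0 h ((𝔟.in_G _ _).tens (in_triv _))) a4 (isAB_Z0 h (𝔟.in_G _ _))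
    (isAB_Hn h h' hb (by omega)) (isAB_Dn h h' (by omega)) (.const (deg0_ll _ (deg0_mm _ 3 m)))
    (.const (deg0_ll _ (𝔟.deg0_mul p (m + 3)))) .id fun x hx =>
      have H1 := H x hx (h₁ _ (by omega) ⟨x, hx⟩)
      ⟨inj_B (h'.le x hx) (h'.reg x hx), ex_A (h.le x hx) (h.reg x hx) (h'.le x hx) (h'.reg x hx),
        H1.2.2 (rk_Hc h h' hb (by omega) hx), H1.1⟩
  exact Eq.trans (by linear_combination -this) a5.symm

end Crest.Agent.N265.M.Hx
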