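import Crest.Agent.N265.Fib.R1

/-!
# Row 265, fibrewise theory: `Hom(I, O/I) → Hom(Tor₁(I, ℂ_x), I|_x)` is onto, local part
-/

set_option autoImplicit false
set_option linter.unusedSectionVars false
noncomputable section

namespace Crest.Agent.N265.Fib

open Crest.Agent.R274
open Cx_781 Defs_781 Ses_781 Lat_781 Ser_781 SnapA_99 SnapB_99 SnapC_99 SnapD_99 SnapE_99 Gen7_750
open Xs1_781 Filter SkDefs_474 Module Pnt

universe u

section Loc
variable {k : Type u} [Field k] {F : Type u} [Field F] [Algebra k F] {n : ℕ}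
  {X : Defs_781.Var k F n}
  {V : Type u} [AddCommGroup V] [Module k V] [Module F V] [IsScalarTower k F V]
  {ι : Type} [Fintype ι] {x : Pnt X} {u : ι → V} {M : XLat X V}

/-- a functional on the fibre of a free module lifts -/
theorem FreeAt.exists_lift {b : Basis ι F V} (h : FreeAt x M b) (μ : x.loc M →ₗ[k] k)
    (hμ : ∀ v : x.loc M, v.1 ∈ x.m • x.loc M → μ v = 0) : ∃ ψ : V →ₗ[F] F,
      ∀ v (hv : v ∈ x.loc M), ψ v ∈ x.O ∧ x.val (ψ v) = μ ⟨v, hv⟩ := by
  refine ⟨b.constr F fun a => algebraMap k F (μ ⟨_, h.basis_mem a⟩), fun v hv => ?_⟩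
  have h1 := (h v).1 hv
  have h2 : ∀ a, b.equivFun v a • algebraMap k F (μ ⟨_, h.basis_mem a⟩) ∈ x.O := fun a =>
    mul_mem (h1 a) (x.O.algebraMap_mem _)
  have h3 := hμ (⟨v, hv⟩ - ∑ a, x.val (b.repr v a) • ⟨_, h.basis_mem a⟩) (by
    rw [Submodule.coe_sub, Submodule.coe_sum]
    conv => enter [2, 1]; rw [Subtype.coe_mk, ← b.sum_repr v]
    rw [← Finset.sum_sub_distrib]
    exact Submodule.sum_mem _ fun a _ => Pnt.smul_sub_mem (h1 a) (h.basis_mem a))
  rw [map_sub, sub_eq_zero, map_sum] at h3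
  rw [Basis.constr_apply_fintype, h3, val_sum _ h2]
  refine ⟨Subalgebra.sum_mem _ fun a _ => h2 a, Finset.sum_congr rfl fun a _ => ?_⟩
  rw [smul_eq_mul, Basis.equivFun_apply, val_mul (h1 a) (x.O.algebraMap_mem _), val_const,
    map_smul, smul_eq_mul]

/-- `Tor₁`: a vector with image in `𝔪 M` has the value of a syzygy -/
theorem Gens.exists_val (hg : Gens u M) {a : ι → F} (ha : ∀ l, a l ∈ x.O)
    (h : lc F u a ∈ x.m • x.loc M) : ∃ s ∈ x.loc (syz X u), ∀ l, x.val (s.1 l) = x.val (a l) := by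
  have key : ∀ v ∈ x.m • x.loc M, ∃ c : ι → F, (∀ l, c l ∈ x.O ∧ x.val (c l) = 0) ∧
      lc F u c = v := fun v hv => by
    refine Submodule.smul_induction_on (p := fun v => ∃ c : ι → F,
      (∀ l, c l ∈ x.O ∧ x.val (c l) = 0) ∧ lc F u c = v) hv (fun r hr w hw => ?_) ?_
    · obtain ⟨c, hc, rfl⟩ := (hg x w).1 hw
      exact ⟨r.1 • c, fun l => ⟨mul_mem r.2 (hc l), (val_mul r.2 (hc l)).trans
        (by rw [mem_m.1 hr, zero_mul])⟩, map_smul _ _ _⟩
    · rintro _ _ ⟨c, hc, rfl⟩ ⟨d, hd, rfl⟩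
      exact ⟨c + d, fun l => ⟨add_mem (hc l).1 (hd l).1, (val_add (hc l).1 (hd l).1).trans
        (by rw [(hc l).2, (hd l).2, add_zero])⟩, map_add _ _ _⟩
  obtain ⟨c, hc, e⟩ := key _ h
  exact ⟨⟨a - c, by rw [LinearMap.mem_ker, map_sub, e, sub_self]⟩,
    mem_loc_syz.2 fun l => sub_mem (ha l) (hc l).1,
    fun l => (val_sub (ha l) (hc l).1).trans (by rw [(hc l).2, sub_zero])⟩
end Loc

section Two
variable {k : Type u} [Field k] {F : Type u} [Field F] [Algebra k F] {S : SmV k F 2}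
  [IsAlgClosed k] {V : Type u} [AddCommGroup V] [Module k V] [Module F V] [IsScalarTower k F V]
  {ι : Type} [Fintype ι]

/-- sections of `M(p)` fill `M/N = ⊕_y M_y/N_y` -/
theorem FC.exists_glob {N M : XLat S.X V} (h : FC N M) {p : ℤ} (hr : RegL N.toLat p)
    (v : Pnt S.X → V) (hv : ∀ y : Pnt S.X, v y ∈ y.loc M) : ∃ g ∈ Gm M.toLat p,
      ∀ y : Pnt S.X, v y - S.X.t y.i ^ (-p) • g ∈ y.loc N := by
  generalize hl : len N M = l
  induction l generalizing N with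
  | zero => exact ⟨0, zero_mem _, fun y => by
      rw [smul_zero, sub_zero, loc_congr (h.eqv_of_len hl)]; exact hv y⟩
  | succ l ih =>
    obtain ⟨x, N', h1, h2, h3⟩ := h.exists_bot hl
    have hr' := h1.fc.regL hr
    obtain ⟨g, hg, H⟩ := ih h2 hr' h3
    obtain ⟨g', hg', H'⟩ := fib_surj (fun d hd => hr'.gen hd) x (H x)
    refine ⟨g + g', add_mem hg (Gm_mono h2.le p hg'), fun y => ?_⟩
    rw [smul_add, ← sub_sub]
    by_cases e : y = x
    · exact e ▸ h1.m H'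
    · exact h1.off y e (sub_mem (H y) (Gm_mem_loc hg'))

/-- the extension `a ↦ ψ (u₀ a - μ(a) e)` of `u₀ ψ`, made global -/
theorem Gens.exists_ks {I : XLat S.X F} {D : S.G} {p : ℤ} (h : FC I (OL S.T D))
    (hr : RegL I.toLat p) {u : ι → F} (hg : Gens u (twX I p)) (x : Pnt S.X) {e : ι → F}
    (he : ∀ l, e l ∈ x.O) {ψ : LinearMap.ker (lc F u) →ₗ[F] F}
    (hψ : ∀ s ∈ x.loc (syz S.X u), ψ s ∈ x.O) : ∃ φ : ι → F,
      (∀ l, φ l ∈ Gm (OL S.T D).toLat p) ∧
      (∀ (m : ℤ), ∀ s ∈ Gm (syz S.X u).toLat m, lc F φ s.1 ∈ Gm I.toLat (m + p)) ∧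
      ∀ s : LinearMap.ker (lc F u), (∀ l, s.1 l ∈ x.O ∧ x.val (s.1 l) = 0) →
        lc F φ s.1 - ψ s • lc F u e ∈ x.m • x.loc (twX I p) := by
  classical
  obtain ⟨g, -, hgen⟩ := exists_gen_OL x D
  have hc : ∀ a : ι → F, (∀ l, a l ∈ x.O) → g⁻¹ * (S.X.t x.i ^ (-p) * lc F u a) ∈ x.O :=
    fun a ha => (hgen _).1 (loc_mono h.le (mem_loc_twX.1 ((hg x _).2 ⟨a, ha, rfl⟩)))
  let K : (ι → F) →ₗ[F] LinearMap.ker (lc F u) :=
    (lc F u e • LinearMap.id - (lc F u).smulRight e).codRestrict _ fun a => by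
      simp [mul_comm]
  have hK : ∀ a l, (K a).1 l = lc F u e * a l - lc F u a * e l := fun _ _ => rfl
  have h1 : ∀ l, S.X.t x.i ^ (-p) • ψ (K (Pi.single l 1)) ∈ x.loc (OL S.T D) := fun l => by
    have ha : ∀ l', (Pi.single l 1 : ι → F) l' ∈ x.O := fun l' => by
      rw [Pi.single_apply]; split_ifs; exacts [one_mem _, zero_mem _]
    refine (hgen _).2 ?_
    rw [← smul_eq_mul, ← map_smul, ← map_smul]
    refine hψ _ (mem_loc_syz.2 fun l' => ?_)
    convert sub_mem (mul_mem (hc e he) (ha l')) (mul_mem (hc _ ha) (he l')) using 1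
    change g⁻¹ * (S.X.t x.i ^ (-p) * (K _).1 l') = _
    rw [hK]; ring
  choose φ hφ H using fun l => h.exists_glob hr
    (fun y => if y = x then S.X.t x.i ^ (-p) • ψ (K (Pi.single l 1)) else 0) fun y => by
      split_ifs with e
      exacts [e ▸ h1 l, zero_mem _]
  have h2 : ∀ l, φ l - ψ (K (Pi.single l 1)) ∈ x.loc (twX I p) := fun l => mem_loc_twX.2 (by
    have := neg_mem (H l x)
    rwa [if_pos rfl, neg_sub, ← smul_sub] at this)
  have h3 : ∀ s : LinearMap.ker (lc F u), lc F φ s.1 - ψ s • lc F u e =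
      lc F (fun l => φ l - ψ (K (Pi.single l 1))) s.1 := fun s => by
    have e1 : K s.1 = lc F u e • s := Subtype.ext (funext fun l => by
      rw [hK, LinearMap.mem_ker.1 s.2, zero_mul, sub_zero]; rfl)
    have e2 := (ψ ∘ₗ K).pi_apply_eq_sum_univ s.1
    rw [LinearMap.comp_apply, e1, map_smul, smul_eq_mul, mul_comm, ← smul_eq_mul] at e2
    rw [e2, lc_apply, lc_apply, ← Finset.sum_sub_distrib]
    refine Finset.sum_congr rfl fun l _ => ?_
    rw [smul_sub, LinearMap.comp_apply]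
    congr 4
    exact funext fun l' => by rw [Pi.single_apply]; exact if_congr eq_comm rfl rfl
  refine ⟨φ, hφ, fun m s hs => mem_Gm_of_loc fun y => ?_, fun s hs => ?_⟩
  · have h4 := Gm_mem_loc (x := y) hs
    rw [neg_add, add_comm, zpow_add₀ (S.X.t_ne _), mul_smul, ← map_smul]
    refine mem_loc_twX.1 ?_
    by_cases e : y = x
    · subst e
      have := add_mem ((h3 _).symm ▸ lc_mem_loc h2 (mem_loc_syz.1 h4))
        (smul_loc (hψ _ h4) ((hg y _).2 ⟨_, he, rfl⟩))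
      rwa [sub_add_cancel] at this
    · refine lc_mem_loc (fun l => mem_loc_twX.2 ?_) (mem_loc_syz.1 h4)
      have := neg_mem (H l y)
      rwa [if_neg e, zero_sub, neg_neg] at this
  · rw [h3, lc_apply]
    exact Submodule.sum_mem _ fun l _ => mem_m_smul (hs l).1 (hs l).2 (h2 l)
end Two

end Crest.Agent.N265.Fib
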