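import Crest.Agent.N265.Fib.Reg

/-!
# Row 265, fibrewise theory, part 3 (helper42): persistence

* `persist` : a growth condition `dim (A j • U) ≤ B j` for all `j` follows from finitely many `j`;
* `quot_points` : chains `U j` (`p ≤ j ≤ q`) of subspaces of `Γ(O^ι(j))` with `A₁ U j ≤ U (j+1)` and
  the right dimensions are the pieces of a unique subsheaf with the given Hilbert polynomial.
-/

set_option autoImplicit false
set_option linter.unusedSectionVars false
noncomputable section

namespace Crest.Agent.N265.Fib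

open Crest.Agent.R274
open Cx_781 Defs_781 Ses_781 Lat_781 Ser_781 SnapA_99 SnapB_99 SnapE_99 Gen7_750 Xs1_781 Filter
open Module (finrank)

universe u

section Lin

variable {k : Type*} [Field k] {V : Type*} [AddCommGroup V] [Module k V]

theorem finrank_le_iff_det {κ : Type*} (v : κ → V)
    [Module.Finite k (Submodule.span k (Set.range v))] (ρ : ℕ) :
    finrank k (Submodule.span k (Set.range v)) < ρ ↔ ∀ (s : Fin ρ → κ) (f : Fin ρ → V →ₗ[k] k),
      (Matrix.of fun i j => f i (v (s j))).det = 0 := by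
  refine ⟨fun h s f => by_contra fun hd => h.not_ge ?_, fun h => not_le.1 fun hle => ?_⟩
  · have h1 := Matrix.linearIndependent_cols_of_det_ne_zero hd
    have h2 : LinearIndependent k fun j => (⟨v (s j), Submodule.subset_span ⟨_, rfl⟩⟩ :
        Submodule.span k (Set.range v)) :=
      .of_comp ((LinearMap.pi f).comp (Submodule.subtype _)) h1
    simpa using h2.fintype_card_le_finrank
  · obtain ⟨κ', a, -, h1, h2⟩ := exists_linearIndependent' k v
    have : Finite κ' := by
      have : Module.Finite k (Submodule.span k (Set.range (v ∘ a))) := h1 ▸ inferInstance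
      exact (Module.Basis.span h2).linearIndependent.finite
    have := Fintype.ofFinite κ'
    rw [← h1, finrank_span_eq_card h2] at hle
    obtain ⟨e⟩ : Nonempty (Fin ρ ↪ κ') := Function.Embedding.nonempty_of_card_le (by simpa)
    have h3 := h2.comp e e.injective
    obtain ⟨g, hg⟩ := LinearMap.exists_leftInverse_of_injective
      (Fintype.linearCombination k ((v ∘ a) ∘ e))
      (LinearMap.ker_eq_bot.2 (linearIndependent_iff_injective_fintypeLinearCombination.1 h3))
    have h4 := h (a ∘ e) fun i => (LinearMap.proj i).comp g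
    rw [show (Matrix.of fun i j => ((LinearMap.proj i).comp g) (v ((a ∘ e) j))) = 1 from ?_,
      Matrix.det_one] at h4
    · exact one_ne_zero h4
    · ext i j
      have := congrFun (LinearMap.congr_fun hg (Pi.single j 1)) i
      simpa [Fintype.linearCombination_apply_single, Matrix.one_apply, Pi.single_apply] using this

theorem noeth_chain {σ : Type*} [Finite σ] (S : ℕ → Set (MvPolynomial σ k)) : ∃ q, ∀ x : σ → k,
    (∀ j ≤ q, ∀ f ∈ S j, MvPolynomial.eval x f = 0) → ∀ j, ∀ f ∈ S j, MvPolynomial.eval x f = 0 := by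
  obtain ⟨q, hq⟩ := monotone_stabilizes_iff_noetherian.2
    (inferInstance : IsNoetherian (MvPolynomial σ k) (MvPolynomial σ k))
    ⟨fun q => Ideal.span (⋃ j ≤ q, S j), fun a b hab =>
      Ideal.span_mono (Set.biUnion_subset_biUnion_left fun j (hj : j ≤ a) => hj.trans hab)⟩
  refine ⟨q, fun x hx j f hf => ?_⟩
  have h1 : f ∈ Ideal.span (⋃ j ≤ q, S j) := (hq (max q j) (le_max_left _ _)).ge
    (Ideal.subset_span (Set.mem_biUnion (le_max_right q j) hf))
  exact (Ideal.span_le (I := RingHom.ker (MvPolynomial.eval x))).2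
    (Set.iUnion₂_subset fun j hj f hf => hx j hj f hf) h1

theorem exists_poly_of_lin {σ : Type*} [Fintype σ] (g : (σ → k) →ₗ[k] k) :
    ∃ f : MvPolynomial σ k, ∀ x, MvPolynomial.eval x f = g x := by
  classical
  refine ⟨∑ i, MvPolynomial.C (g (Pi.single i 1)) * MvPolynomial.X i, fun x => ?_⟩
  rw [LinearMap.pi_apply_eq_sum_univ g x]
  simp only [map_sum, map_mul, MvPolynomial.eval_C, MvPolynomial.eval_X, smul_eq_mul, mul_comm]
  refine Finset.sum_congr rfl fun i _ => ?_
  congr 2
  funext j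
  simp [Pi.single_apply, eq_comm]

variable {F : Type*} [CommRing F] [Algebra k F] [Module F V] [IsScalarTower k F V]

theorem smul_span_eq {ι : Type*} (A : Submodule k F) (u : ι → V) :
    A • Submodule.span k (Set.range u) =
      Submodule.span k (Set.range fun p : A × ι => p.1.1 • u p.2) := by
  refine le_antisymm (Submodule.smul_le.2 fun a ha x hx => ?_) (Submodule.span_le.2 ?_)
  · induction hx using Submodule.span_induction with
    | mem x hx =>
      obtain ⟨i, rfl⟩ := hx
      exact Submodule.subset_span ⟨(⟨a, ha⟩, i), rfl⟩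
    | zero => rw [smul_zero]; exact zero_mem _
    | add _ _ _ _ h h' => rw [smul_add]; exact add_mem h h'
    | smul c x _ h => rw [smul_comm]; exact Submodule.smul_mem _ c h
  · rintro _ ⟨p, rfl⟩
    exact Submodule.smul_mem_smul p.1.2 (Submodule.subset_span ⟨p.2, rfl⟩)

instance finite_smul (A : Submodule k F) (U : Submodule k V) [hA : Module.Finite k A]
    [hU : Module.Finite k U] : Module.Finite k (A • U : Submodule k V) :=
  have := Module.Finite.iff_fg.2 (Submodule.FG.map₂ ((LinearMap.lsmul F V).restrictScalars₁₂ k k)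
    (Module.Finite.iff_fg.1 hA) (Module.Finite.iff_fg.1 hU))
  Submodule.finiteDimensional_of_le (Submodule.smul_le.2 fun _ ha _ hx =>
    Submodule.apply_mem_map₂ ((LinearMap.lsmul F V).restrictScalars₁₂ k k) ha hx)

/-- **persistence** -/
theorem persist (A : ℕ → Submodule k F) [∀ j, Module.Finite k (A j)] (W : Submodule k V)
    [Module.Finite k W] (B : ℕ → ℤ) : ∃ q, ∀ U ≤ W,
      (∀ j ≤ q, (finrank k (A j • U : Submodule k V) : ℤ) ≤ B j) →
        ∀ j, (finrank k (A j • U : Submodule k V) : ℤ) ≤ B j := by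
  classical
  let b := Module.finBasis k W
  let u (i : Fin (finrank k W)) : (Fin (finrank k W) × Fin (finrank k W) → k) →ₗ[k] V :=
    W.subtype ∘ₗ b.equivFun.symm.toLinearMap ∘ₗ LinearMap.funLeft k k fun j => (i, j)
  choose P hP using fun (a : F) (i : Fin (finrank k W)) (f : V →ₗ[k] k) =>
    exists_poly_of_lin (f ∘ₗ ((LinearMap.lsmul F V a).restrictScalars k) ∘ₗ u i)
  obtain ⟨q, hq⟩ := noeth_chain fun j => Set.range
    fun p : (Fin (B j + 1).toNat → A j × Fin (finrank k W)) × (Fin (B j + 1).toNat → V →ₗ[k] k) =>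
      (Matrix.of fun i l => P (p.1 l).1 (p.1 l).2 (p.2 i)).det
  refine ⟨q, fun U hU => ?_⟩
  have : Module.Finite k U := Submodule.finiteDimensional_of_le hU
  obtain ⟨x, hx⟩ : ∃ x, Submodule.span k (Set.range fun i => u i x) = U := by
    obtain ⟨v, hv⟩ : ∃ v : Fin (finrank k W) → U, Submodule.span k (Set.range v) = ⊤ := by
      have h1 : finrank k U ≤ finrank k W := Submodule.finrank_mono hU
      refine ⟨Function.extend (Fin.castLE h1) (Module.finBasis k U) 0, top_le_iff.1 ?_⟩
      rw [← (Module.finBasis k U).span_eq]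
      refine Submodule.span_mono (Set.range_subset_iff.2 fun i => ⟨Fin.castLE h1 i, ?_⟩)
      exact (Fin.castLE_injective h1).extend_apply _ _ i
    refine ⟨fun p => b.equivFun ⟨v p.1, hU (v p.1).2⟩ p.2, ?_⟩
    refine Eq.trans ?_ U.map_subtype_top
    rw [← hv, Submodule.map_span, ← Set.range_comp]
    congr 2
    funext i
    exact congrArg Subtype.val (b.equivFun.symm_apply_apply ⟨v i, hU (v i).2⟩)
  have key : ∀ j, (finrank k (A j • U : Submodule k V) : ℤ) ≤ B j ↔ ∀ f ∈ Set.range
      fun p : (Fin (B j + 1).toNat → A j × Fin (finrank k W)) × (Fin (B j + 1).toNat → V →ₗ[k] k) =>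
        (Matrix.of fun i l => P (p.1 l).1 (p.1 l).2 (p.2 i)).det, MvPolynomial.eval x f = 0 := by
    intro j
    have h1 := smul_span_eq (A j) fun i => u i x
    rw [hx] at h1
    have : Module.Finite k (Submodule.span k (Set.range fun p : A j × _ => p.1.1 • u p.2 x)) :=
      h1 ▸ inferInstance
    rw [← Int.lt_add_one_iff, ← Int.lt_toNat, h1, finrank_le_iff_det, Set.forall_mem_range,
      Prod.forall]
    refine forall₂_congr fun s f => ?_
    rw [RingHom.map_det]
    congr! 2
    ext i l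
    exact (hP _ _ _ x).symm
  simp only [key]
  exact hq x

end Lin

section Surf

variable (Sg : Br.Surf)

instance finite_AA {k : Type u} [Field k] {F : Type u} [Field F] [Algebra k F] {n : ℕ}
    (X : Defs_781.Var k F n) (e : ℤ) : Module.Finite k (AA X e) := finite_Gm _ _

theorem AA_succ (j : ℕ) : AA Sg.V.X (j + 1 : ℕ) = AA Sg.V.X 1 * AA Sg.V.X j := by
  rw [AA_eq_pow, AA_eq_pow, pow_succ', ← Nat.cast_one, AA_eq_pow, pow_one]

theorem AA_zero : AA Sg.V.X 0 = 1 := by rw [← Nat.cast_zero, AA_eq_pow, pow_zero]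

theorem smul_le_chain {V : Type} [AddCommGroup V] [Module ℂ V] [Module Sg.F V]
    [IsScalarTower ℂ Sg.F V] {U : ℤ → Submodule ℂ V} {p q : ℤ}
    (h : ∀ j, p ≤ j → j < q → AA Sg.V.X 1 • U j ≤ U (j + 1)) (j : ℕ) (hj : j + p ≤ q) :
    AA Sg.V.X j • U p ≤ U (j + p) := by
  induction j with
  | zero => rw [Nat.cast_zero, AA_zero, Submodule.one_smul, zero_add]
  | succ j ih =>
    rw [AA_succ, msmul, Nat.cast_succ, add_right_comm]
    push_cast at hj
    exact (smul_mono_right _ (ih (by omega))).trans (h _ (by omega) (by omega))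

/-- **the points of the Quot scheme** -/
theorem quot_points (ι : Type) [Fintype ι] (d : ℕ) (c0 : ℤ) : ∃ m0 : ℤ, 2 ≤ m0 ∧
    (∀ K : XLat Sg.V.X (ι → Sg.F), K.toFam.LE (OP Sg.V.X ι).toFam →
      (∀ᶠ e in atTop, cL K.toLat e = HP Sg (Fintype.card ι) d c0 e) →
      RegL K.toLat m0 ∧ cL K.toLat = HP Sg (Fintype.card ι) d c0) ∧
    ∀ p, m0 ≤ p → ∃ q0, p ≤ q0 ∧ ∀ q, q0 ≤ q → ∀ U : ℤ → Submodule ℂ (ι → Sg.F),
      (∀ j, p ≤ j → j ≤ q → U j ≤ Gm (OP Sg.V.X ι).toLat j ∧
        (finrank ℂ (U j) : ℤ) = HP Sg (Fintype.card ι) d c0 j) →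
      (∀ j, p ≤ j → j < q → AA Sg.V.X 1 • U j ≤ U (j + 1)) →
      ∃ K : XLat Sg.V.X (ι → Sg.F), K.toFam.LE (OP Sg.V.X ι).toFam ∧
        cL K.toLat = HP Sg (Fintype.card ι) d c0 ∧ ∀ j, p ≤ j → j ≤ q → Gm K.toLat j = U j := by
  obtain ⟨m0, hm0, H1, H2⟩ := reg_quot Sg ι d c0
  refine ⟨m0, hm0, H1, fun p hp => ?_⟩
  obtain ⟨q0, hq0⟩ := persist (fun j => AA Sg.V.X j) (Gm (OP Sg.V.X ι).toLat p)
    fun j => HP Sg (Fintype.card ι) d c0 (j + p)
  refine ⟨q0 + p, by omega, fun q hq U h1 h2 => ?_⟩
  have hf : ∀ j, p ≤ j → j ≤ q → Module.Finite ℂ (U j) := fun j hj hj' =>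
    Submodule.finiteDimensional_of_le (h1 j hj hj').1
  have := hf p le_rfl (by omega)
  have h3 := hq0 (U p) (h1 p le_rfl (by omega)).1 fun j hj => by
    have := hf (j + p) (by omega) (by omega)
    rw [← (h1 (j + p) (by omega) (by omega)).2]
    exact Nat.cast_le.2 (Submodule.finrank_mono (smul_le_chain Sg h2 j (by omega)))
  obtain ⟨h4, h5, h6⟩ := H2 p hp (U p) (h1 p le_rfl (by omega)).1 (h1 p le_rfl (by omega)).2.ge
    ((eventually_ge_atTop 0).mono fun j hj => by
      obtain ⟨j, rfl⟩ := Int.eq_ofNat_of_zero_le hj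
      exact h3 j)
  refine ⟨_, genS_le (h1 p le_rfl (by omega)).1, h5, fun j hj hj' => ?_⟩
  obtain ⟨i, rfl⟩ : ∃ i : ℕ, j = i + p := ⟨(j - p).toNat, by omega⟩
  have := hf _ hj hj'
  refine Submodule.eq_of_le_of_finrank_eq ((h6 i).le.trans (smul_le_chain Sg h2 i hj')) ?_
  exact Nat.cast_injective (R := ℤ) (by rw [h4.finrank_eq (by omega), h5, (h1 _ hj hj').2])

end Surf

/-- regular lattices with the same piece are equal -/
theorem eqv_of_Gm {k : Type u} [Field k] {F : Type u} [Field F] [Algebra k F] {n : ℕ}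
    {c : Coord k F n} {V : Type u} [AddCommGroup V] [Module k V] [Module F V] [IsScalarTower k F V]
    {K K' : Lat c V} {m p : ℤ} (h : RegL K m) (hp : m ≤ p) (hle : Gm K p ≤ Gm K' p) :
    K.toFam.LE K'.toFam := by
  refine le_of_Gm ((eventually_ge_atTop p).mono fun e he => ?_)
  induction e, he using Int.leInduction with
  | base => exact hle
  | succ e he ih =>
    rw [h.gen (hp.trans he)]
    exact (smul_mono_right _ ih).trans (smul_Gm_le _ _)

end Crest.Agent.N265.Fib
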