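import Crest.Agent.N265.Fib.R1

/-!
# Row 265, fibrewise theory (helper2): `Hom(B, M/N)` through generators; the two counts

* `MT u M N = {φ : ι → M | φ(B) ≤ N}`, `hq_MT`, `h0_MT_le`, `hq_HB`.
-/

set_option autoImplicit false
set_option linter.unusedSectionVars false
noncomputable section

namespace Crest.Agent.N265.Fib

open Crest.Agent.R274
open Cx_781 Defs_781 Ses_781 Lat_781 Ser_781 SnapA_99 SnapB_99 SnapC_99 SnapD_99 SnapE_99 Gen7_750
open Xs1_781 Filter SkDefs_474 Module Pnt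

universe u

variable {k : Type u} [Field k] {F : Type u} [Field F] [Algebra k F] {n : ℕ}
  {X : Defs_781.Var k F n}
  {V : Type u} [AddCommGroup V] [Module k V] [Module F V] [IsScalarTower k F V]
  {W : Type u} [AddCommGroup W] [Module k W] [Module F W] [IsScalarTower k F W]
  {ι : Type} [Fintype ι]

theorem h0_pair {N M : XLat X V} (h : N.toFam.LE M.toFam) (h1 : N.toFam.cech.h 1 = 0) :
    M.toFam.cech.h 0 = N.toFam.cech.h 0 + hq N M 0 := by
  have E := pairSES h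
  have := finH M 0
  have h2 := SES.finrank_exact (E.φ.H 0) (E.ψ.H 0) (E.exact_B 0)
  rwa [LinearMap.finrank_range_of_inj E.φH0_injective, LinearMap.range_eq_top.2
    (E.ψH_surjective 0 (h_eq_zero_iff.1 h1)), finrank_top] at h2

theorem h_Gm (M : XLat X V) : M.toFam.cech.h 0 = finrank k (Gm M.toLat 0) :=
  ((twX_zero M).H 0).finrank_eq.symm.trans (hL_zero M.toLat 0)

theorem eul_three (A : Cx k) : A.eul (2 + 1) = A.h 0 - A.h 1 + A.h 2 := by
  change ∑ p ∈ Finset.range 3, (-1 : ℤ) ^ p * (A.h p : ℤ) = _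
  rw [Finset.sum_range_succ, Finset.sum_range_succ, Finset.sum_range_one]
  ring

/-- maps `A → M` that send the syzygies into `N` -/
def MT (u : ι → V) (M N : XLat X W) : XLat X (ι → W) := preX (piX fun _ => M) (resH u W) (HB u N)

theorem mem_Gm_MT_of {u : ι → V} {M N : XLat X W} {e j : ℤ} {φ : ι → W}
    (hg : ∀ d, j ≤ d → Gm (syz X u).toLat (d + 1) = T1 X.toCoord • Gm (syz X u).toLat d)
    (h : ∀ a, φ a ∈ Gm M.toLat e)
    (h' : ∀ s ∈ Gm (syz X u).toLat j, lc F φ s.1 ∈ Gm N.toLat (e + j)) :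
    φ ∈ Gm (MT u M N).toLat e := mem_Gm_preX.2 ⟨Gm_pi.2 h, mem_Gm_homX_of_gen hg h'⟩

theorem mem_Gm_MT {u : ι → V} {M N : XLat X W} {e : ℤ} {φ : ι → W} :
    φ ∈ Gm (MT u M N).toLat e ↔ (∀ a, φ a ∈ Gm M.toLat e) ∧
      ∀ j : ℕ, ∀ s ∈ Gm (syz X u).toLat j, lc F φ s.1 ∈ Gm N.toLat (e + j) := by
  refine ⟨fun h => ⟨Gm_pi.1 (mem_Gm_preX.1 h).1, fun j s hs =>
    Gm_homX_apply (mem_Gm_preX.1 h).2 hs⟩, fun h => ?_⟩
  obtain ⟨g, hg⟩ := eventually_atTop.1 (ev_gen (syz X u).toLat)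
  exact mem_Gm_MT_of (j := g.toNat) (fun d hd => hg d (by omega)) h.1 (h.2 _)

theorem mem_loc_MT {x : Pnt X} {u : ι → V} {M N : XLat X W} {φ : ι → W} :
    φ ∈ x.loc (MT u M N) ↔ (∀ a, φ a ∈ x.loc M) ∧ ∀ s ∈ x.loc (syz X u), lc F φ s.1 ∈ x.loc N :=
  mem_loc_preX.trans (and_congr mem_loc_piX mem_loc_homX)

theorem pi_le_MT (u : ι → V) {M N : XLat X W} (h : N.toFam.LE M.toFam) :
    (piX fun _ : ι => N).toFam.LE (MT u M N).toFam := fun I hI φ hφ =>
  ⟨mem_piFam.2 fun a => h I hI (mem_piFam.1 hφ a), QB_le u N I hI ⟨φ, hφ, rfl⟩⟩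

theorem homX_tw {B : XLat X V} (hB : XFull B) (N : XLat X W) (e : ℤ) :
    Eqv (homX (twX B e) (xfull_twX hB e) (twX N e)).toFam (homX B hB N).toFam :=
  fun I ⟨i, hi⟩ => Submodule.ext fun φ => by
    simp only [mem_homX ⟨i, hi⟩, mem_twX hi, ← map_smul]
    refine ⟨fun h v hv => ?_, fun h v hv => h _ hv⟩
    have h1 : X.t i ^ (-e) • X.t i ^ e • v = v := by
      rw [smul_smul, ← zpow_add₀ (X.t_ne i), neg_add_cancel, zpow_zero, one_smul]
    exact h1 ▸ h _ (h1.symm ▸ hv)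

variable [IsAlgClosed k]

/-- **`Hom(B, M)/Hom(B, N)` through generators of `B`** -/
theorem hq_MT [FiniteDimensional F V] {B : XLat X V} (hB : XFull B) (hb : LocF B) {s : ι → V}
    (hg : Gens s B) {N M : XLat X W} (h : N.toFam.LE M.toFam) :
    hq (homX B hB N) (homX B hB M) = hq (piX fun _ : ι => N) (MT s M N) := by
  classical
  let L : (V →ₗ[F] W) →ₗ[F] (ι → W) := LinearMap.pi fun a => LinearMap.applyₗ (s a)
  have h1 : ∀ (ψ : V →ₗ[F] W) c, lc F (L ψ) c = ψ (lc F s c) := fun ψ c => by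
    simp [lc_apply, L]
  have h2 : ∀ P : XLat X W, (homX B hB P).toFam.Maps (piX fun _ : ι => P).toFam (kl k L) :=
    fun P => maps_of_loc fun x ψ hψ => mem_loc_piX.2 fun a => mem_loc_homX.1 hψ _ (hg.mem x a)
  refine hq_iso (homX_mono h) (pi_le_MT s h) (kl k L) (fun I hI ψ hψ => ⟨h2 M I hI ψ hψ, ?_⟩)
    (h2 N) (fun I hI ψ _ hψ => mem_of_loc hI fun x hx => mem_loc_homX.2 fun v hv => ?_)
    fun I hI φ hφ => ?_
  · have : resH (F := F) s W (L ψ) = 0 := LinearMap.ext fun c => by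
      rw [resH_apply, h1, show lc F s c.1 = 0 from c.2, map_zero, LinearMap.zero_apply]
    exact (congrArg (· ∈ (HB s N).M I) this).mpr (zero_mem _)
  · obtain ⟨c, hc, rfl⟩ := (hg x v).1 hv
    exact h1 ψ c ▸ lc_mem_loc (mem_loc_piX.1 (hx.mem_loc hI hψ)) hc
  · have h3 : (MT s M N).toFam.LE (supX (mapX L (homX B hB M)) (piX fun _ : ι => N)).toFam :=
      le_of_loc fun x φ hφ => by
        obtain ⟨h4, h5⟩ := mem_loc_MT.1 hφ
        obtain ⟨σ, h6, h7⟩ := hb.surj_homX hB (M := OP X ι) (g := lc F s) (fun x v hv =>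
          let ⟨c, hc, e⟩ := (hg x v).1 hv
          ⟨c, mem_loc_OP.2 hc, e⟩) x LinearMap.id (mem_loc_homX.2 fun _ hv => hv)
        have h8 : ∀ v ∈ x.loc B, ∀ a, σ v a ∈ x.O := fun v hv =>
          mem_loc_OP.1 (mem_loc_homX.1 h6 v hv)
        rw [loc_supX, ← add_sub_cancel (L (lc F φ ∘ₗ σ)) φ]
        refine Submodule.add_mem_sup (mem_loc_mapX.2 ⟨_, mem_loc_homX.2 fun v hv =>
          lc_mem_loc h4 (h8 v hv), rfl⟩) (mem_loc_piX.2 fun a => ?_)
        have h9 := h5 ⟨Pi.single a 1 - σ (s a), by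
          rw [LinearMap.mem_ker, map_sub, ← LinearMap.comp_apply _ σ, h7]; simp⟩
          (mem_loc_syz.2 fun b => sub_mem (by
            rw [Pi.single_apply]
            split_ifs
            exacts [one_mem _, zero_mem _]) (h8 _ (hg.mem x a) b))
        simpa [L] using h9
    obtain ⟨_, ⟨ψ, hψ, rfl⟩, b, hb, rfl⟩ := mem_supL.1 (h3 I hI hφ)
    exact ⟨ψ, hψ, by rwa [kl_apply, add_sub_cancel_left]⟩

variable {S : SmV k F 2} {w : ι → F} {I J O : XLat S.X F} {D E H : S.G}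

/-- **the tangent bound** -/
theorem h0_MT_le (hw : w ≠ 0) (hg : Gens w I) (hr : RegL I.toLat 0) (h : FC I (OL S.T D))
    (hO : Eqv O.toFam (OL S.T H).toFam) (h2 : S.hh 0 2 = 0) : ((MT w O I).toFam.cech.h 0 : ℤ) ≤
      S.hh (H - D) 0 + Fintype.card ι * I.toFam.chi - S.chi 0 + 2 * len I (OL S.T D) := by
  have E0 := exact_KB hw O
  have E1 : Exact (KB w hw O).toFam (MT w O I).toFam (mapX (resH w F) (MT w O I)).toFam
      (kl k (LinearMap.toSpanSingleton F _ w)) (kl k (resH w F)) :=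
    ⟨fun T hT c hc => ⟨hc, (congrArg (· ∈ (HB w I).M T) (E0.comp T hT c hc)).mpr (zero_mem _)⟩,
      fun _ _ x hx => ⟨x, hx, rfl⟩, E0.inj, E0.comp, fun T hT y hy => E0.ex T hT y hy.1,
      fun _ _ _ h => h⟩
  have h3 := (ne_exact E1).b_le 0
  have h4 := (ne_pair (N := mapX (resH w F) (MT w O I)) (M := HB w I)
    fun _ _ _ ⟨_, hφ, e⟩ => e ▸ hφ.2).a0
  have h8 : Eqv (KB w hw O).toFam (KB w hw (OL S.T H)).toFam := eqv_of_le
    ((FC.pi fun _ => .of_eqv hO).comapX _ _).le ((FC.pi fun _ => .of_eqv hO.symm).comapX _ _).le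
  have h5 : (KB w hw O).toFam.cech.h 0 = S.hh (H - D) 0 :=
    ((h8.trans (KB_OL hw hg h H)).H 0).finrank_eq
  have h6 := chi_HB hw hg hr h h
  have h7 := h1_HB hw hg hr h h (((twX_zero I).H 1).finrank_eq.symm.trans
    (hL_eq_zero_iff.2 (hr.van one_pos (by norm_num)))) (by rwa [sub_self])
  rw [Fam.chi, eul_three, h7, sub_self] at h6
  omega

/-- **`h⁰ Hom(B, O/J)`** -/
theorem hq_HB (hw : w ≠ 0) (hg : Gens w I) (hr : RegL I.toLat 0) (h : FC I (OL S.T D))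
    (h' : FC J (OL S.T E)) (le : J.toFam.LE O.toFam) (hO : Eqv O.toFam (OL S.T H).toFam)
    (j2 : J.toFam.cech.h 2 = 0) (o1 : O.toFam.cech.h 1 = 0) (o2 : O.toFam.cech.h 2 = 0)
    (h2 : S.hh (H - D) 2 = 0) : (hq (HB w J) (HB w O) 0 : ℤ) = Fintype.card ι *
      (O.toFam.chi - J.toFam.chi) - S.chi (H - D) + S.chi (E - D) - len J (OL S.T E) := by
  have h3 : (HB w J).toFam.LE (HB w O).toFam := homX_mono le
  have h4 := chi_pair h3 (finH _) (finH _)
  have h5 := (ne_pair h3).c_zero (h1_HB hw hg hr h (.of_eqv hO) o1 h2) (h2_HB hw hg hr h h' j2)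
  have h6 := (ne_pair h3).c_zero (h2_HB hw hg hr h (.of_eqv hO) o2)
    (h_eq_zero_iff.2 (H_subsingleton_of_lt _ (by omega)))
  rw [chi_HB hw hg hr h h', chi_HB hw hg hr h (.of_eqv hO), Fam.chiq, eul_three,
    (len_congr hO.le hO fun _ _ => rfl).trans (len_self _)] at h4
  unfold hq at h5 h6 ⊢
  rw [h5, h6] at h4
  push_cast at h4
  linear_combination -h4

end Crest.Agent.N265.Fib
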