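import Crest.Agent.N265.Fib.R2

/-!
# Row 265, fibrewise theory (helper2): lifting local sections modulo a sublattice of finite colength
-/

set_option autoImplicit false
set_option linter.unusedSectionVars false
noncomputable section

namespace Crest.Agent.N265.Fib

open Crest.Agent.R274
open Cx_781 Defs_781 Ses_781 Lat_781 Ser_781 SnapA_99 SnapB_99 SnapC_99 SnapD_99 SnapE_99 Gen7_750
open Xs1_781 Filter SkDefs_474 Module Pnt

universe u

variable {k : Type u} [Field k] {F : Type u} [Field F] [Algebra k F] {n : ℕ}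
  {X : Defs_781.Var k F n}
  {V : Type u} [AddCommGroup V] [Module k V] [Module F V] [IsScalarTower k F V] [IsAlgClosed k]

/-- if `H¹(N(e)) = 0` then `Γ(M(e)) → (M/N)_x` is onto -/
theorem FC.exists_sec {N M : XLat X V} (h : FC N M) {e : ℤ} (h1 : hL N.toLat e 1 = 0) (x : Pnt X)
    {v : V} (hv : v ∈ x.loc M) : ∃ g ∈ Gm M.toLat e, v - X.t x.i ^ (-e) • g ∈ x.loc N := by
  generalize hl : len N M = l
  induction l generalizing M v with
  | zero => exact ⟨0, zero_mem _, by simpa [loc_congr (h.eqv_of_len hl)] using hv⟩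
  | succ l ih =>
    obtain ⟨y, M', h2, h3, h4⟩ := h.exists_top hl
    obtain ⟨g, hg, h5⟩ : ∃ g ∈ Gm M.toLat e, v - X.t x.i ^ (-e) • g ∈ x.loc M' := by
      by_cases e0 : x = y
      · subst e0
        have h6 := h2.fc.finrank_eq (Nat.le_zero.1 ((h3.hL_le e one_pos).trans h1.le))
        obtain ⟨g, hg, h7⟩ := SetLike.exists_of_lt (lt_of_le_of_ne (Gm_mono h2.le e) fun h7 => by
          rw [h7, h2.len] at h6; omega)
        obtain ⟨μ, -, hk, -⟩ := h2.exists_fun
        have h8 : μ ⟨_, Gm_mem_loc hg⟩ ≠ 0 := fun h0 => h7 (h2.mem_Gm.2 ⟨hg, (hk _).1 h0⟩)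
        refine ⟨_, Submodule.smul_mem _ (μ ⟨v, hv⟩ / μ ⟨_, Gm_mem_loc hg⟩) hg, ?_⟩
        rw [smul_comm]
        exact (hk (⟨v, hv⟩ - (μ ⟨v, hv⟩ / μ ⟨_, Gm_mem_loc hg⟩) • ⟨_, Gm_mem_loc hg⟩)).1 (by
          rw [map_sub, map_smul, smul_eq_mul, div_mul_cancel₀ _ h8, sub_self])
      · exact ⟨0, zero_mem _, by simpa using h2.off x e0 hv⟩
    obtain ⟨g', hg', h6⟩ := ih h3 h5 h4
    exact ⟨g + g', add_mem hg (Gm_mono h2.le e hg'), by rwa [smul_add, ← sub_sub]⟩

end Crest.Agent.N265.Fib
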