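import Crest.Agent.N265.Fib.X0

/-!
# Row 265, fibrewise theory, part 2 (helper42): uniform regularity

* `exists_nzd` : a linear form which is a non-zero-divisor on `M/K`;
* `unif_reg`   : uniform bound for sublattices `K ≤ M` with `dim Γ(M(e))/Γ(K(e)) ≥ d e + c`;
* `unif_regL`, `reg_OP` : on the surface, with vanishing of cohomology.
-/

set_option autoImplicit false
set_option linter.unusedSectionVars false
noncomputable section

namespace Crest.Agent.N265.Fib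

open Crest.Agent.R274
open Cx_781 Defs_781 Ses_781 Lat_781 Ser_781 SnapA_99 SnapB_99 SnapE_99 Gen7_750 Xs1_781 Filter
open Module (finrank)

universe u

/-! ### numerics -/

theorem grow {f : ℤ → ℤ} {a s : ℤ} {b : ℤ} (hab : a ≤ b)
    (h : ∀ j, a ≤ j → j < b → f j + s ≤ f (j + 1)) : f a + s * (b - a) ≤ f b := by
  induction b, hab using Int.leInduction with
  | base => simp
  | succ b hb ih =>
    have h1 := ih fun j h1 h2 => h j h1 (by omega)
    have h2 := h b hb (by omega)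
    linarith

theorem stay {f : ℤ → ℤ} {a : ℤ} (h : ∀ j, a ≤ j → f j = 0 → f (j + 1) = 0) {j b : ℤ} (hj : a ≤ j)
    (h0 : f j = 0) (hb : j ≤ b) : f b = 0 := by
  induction b, hb using Int.leInduction with
  | base => exact h0
  | succ b hb ih => exact h b (by omega) ih

theorem num_reg (j0 : ℤ) (d : ℕ) (c : ℤ) : ∃ m0 : ℤ, j0 + 1 ≤ m0 ∧ ∀ h hb τ g : ℤ → ℤ,
    (∀ j, 0 ≤ h j) → (∀ j, 0 ≤ hb j) → (∀ j, 0 ≤ τ j) → (∀ j, 0 ≤ g j) →
    (∀ j, h (j + 1) = h j + hb (j + 1) + τ (j + 1)) → (∀ j, hb (j + 1) = hb j + g (j + 1)) →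
    (∀ j, j0 + 1 ≤ j → g j = 0 → g (j + 1) = 0) →
    (∀ j, j0 + 1 ≤ j → g j = 0 → τ j = 0 → τ (j + 1) = 0) →
    (∀ᶠ j in atTop, τ j = 0) → (∀ᶠ j in atTop, d * j + c ≤ h j) →
    (∀ j, m0 ≤ j → d * j + c < h j) ∨ ∀ j, m0 ≤ j → g j = 0 ∧ τ j = 0 ∧ hb j = d := by
  obtain ⟨J, hJ⟩ : ∃ J, J = j0 + d + 1 := ⟨_, rfl⟩
  have hd : (0 : ℤ) ≤ d := Int.natCast_nonneg d
  refine ⟨max J ((d + 1) * J + c + 1), by omega, ?_⟩
  intro h hb τ g h0 hb0 τ0 g0 hh hhb hg hτ evτ evh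
  have fin : ∀ j, max J ((d + 1) * J + c + 1) ≤ j →
      (∀ i, J ≤ i → i < j → d + 1 ≤ hb (i + 1) + τ (i + 1)) → d * j + c < h j := by
    intro j hj H
    have h1 := grow (f := h) (s := d + 1) (le_of_max_le_left hj) fun i h1 h2 => by
      have := H i h1 h2
      rw [hh]
      linarith
    have := le_of_max_le_right hj
    have := h0 J
    nlinarith
  have mono : ∀ j, J ≤ j → hb J ≤ hb j := fun j hj => by
    simpa using grow (f := hb) (s := 0) hj fun i _ _ => by rw [hhb]; linarith [g0 (i + 1)]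
  rcases le_or_gt ((d : ℤ) + 1) (hb J) with hB | hB
  · exact Or.inl fun j hj => fin j hj fun i hi _ => by linarith [mono (i + 1) (by omega), τ0 (i + 1)]
  have gJ : g J = 0 := by
    by_contra hne
    have h1 := grow (f := hb) (s := 1) (show j0 ≤ J by omega) fun i h1 h2 => by
      have : g (i + 1) ≠ 0 := fun h3 => hne (stay hg (by omega) h3 (by omega))
      have := g0 (i + 1)
      rw [hhb]
      omega
    have := hb0 j0
    omega
  have gz : ∀ j, J ≤ j → g j = 0 := fun j hj => stay hg (by omega) gJ hj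
  have hbc : ∀ j, J ≤ j → hb j = hb J := fun j hj => by
    induction j, hj using Int.leInduction with
    | base => rfl
    | succ j hj ih => rw [hhb, ih, gz _ (by omega), add_zero]
  have hbd : hb J = d := by
    refine le_antisymm (by omega) (not_lt.1 fun hlt => ?_)
    obtain ⟨T, hT⟩ := eventually_atTop.1 (evτ.and (evh.and (eventually_ge_atTop J)))
    obtain ⟨b, hb1, hb2⟩ : ∃ b, T ≤ b ∧ h T - d * T - c < b - T := ⟨max T (h T - d * T - c + T + 1),
      le_max_left _ _, by omega⟩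
    have h1 := grow (f := fun j => -h j) (s := 1 - d) hb1 fun i h1 _ => by
      have := (hT (i + 1) (by omega)).1
      have := hbc (i + 1) (hT (i + 1) (by omega)).2.2
      rw [hh]
      omega
    have := (hT b hb1).2.1
    nlinarith
  by_cases hex : ∃ i, J ≤ i ∧ i ≤ max J ((d + 1) * J + c + 1) ∧ τ i = 0
  · obtain ⟨i, h1, h2, h3⟩ := hex
    refine Or.inr fun j hj => ⟨gz j (by omega), ?_, (hbc j (by omega)).trans hbd⟩
    exact stay (a := J) (fun j hj => hτ j (by omega) (gz j hj)) h1 h3 (by omega)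
  · refine Or.inl fun j hj => ?_
    have h1 := fin _ le_rfl fun i h1 h2 => by
      have : τ (i + 1) ≠ 0 := fun h3 => hex ⟨i + 1, by omega, by omega, h3⟩
      have := τ0 (i + 1)
      rw [hbc (i + 1) (by omega)]
      omega
    have h2 := grow (f := h) (s := d) hj fun i h1 _ => by
      rw [hh, hbc (i + 1) (by omega)]
      linarith [τ0 (i + 1)]
    nlinarith

/-! ### non-zero-divisors -/

variable {k : Type u} [Field k] {F : Type u} [Field F] [Algebra k F] {n : ℕ} {c : Coord k F n}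
  {V : Type u} [AddCommGroup V] [Module k V] [Module F V] [IsScalarTower k F V]

/-- `ℓ` is a non-zero-divisor on `M/K` -/
def NZD (K M : Lat c V) (l : F) : Prop :=
  ∀ i, ∀ x ∈ M.M {i}, (l / c.t i) • x ∈ K.M {i} → x ∈ K.M {i}

theorem exists_nzd [Infinite k] (K M : Lat c V) : ∃ l ∈ T1 c, l ≠ 0 ∧ NZD K M l := by
  let Q (i : Fin (n + 1)) := toSub M (Finset.singleton_nonempty i) ⧸
    (toSub K (Finset.singleton_nonempty i)).submoduleOf (toSub M (Finset.singleton_nonempty i))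
  have hQ : ∀ i, Module.Finite (c.R {i}) (Q i) := fun i =>
    have := isNoetherian_toSub M (Finset.singleton_nonempty i)
    Module.Finite.quotient _ _
  have : ∀ i, Finite (associatedPrimes (c.R {i}) (Q i)) := fun i =>
    associatedPrimes.finite (c.R {i}) (Q i)
  let φ (i : Fin (n + 1)) : T1 c →ₗ[k] c.R {i} :=
    { toFun l := ⟨l.1 / c.t i, T1_div l.2 (Finset.mem_singleton_self i)⟩
      map_add' a b := Subtype.ext (add_div _ _ _)
      map_smul' a b := Subtype.ext (smul_div_assoc _ _ _) }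
  obtain ⟨l, hl⟩ := Submodule.exists_forall_notMem_of_forall_ne_top
    (ι := Option (Σ i, associatedPrimes (c.R {i}) (Q i))) (K := k) (M := T1 c)
    (fun o => o.elim ⊥ fun p => (p.2.1.restrictScalars k).comap (φ p.1)) (by
      rintro (_ | ⟨i, p⟩) h
      · have h1 : (⟨_, t_mem_T1 0⟩ : T1 c) ∈ (⊥ : Submodule k (T1 c)) := h.ge Submodule.mem_top
        exact c.t_ne 0 (congrArg Subtype.val ((Submodule.mem_bot k).1 h1))
      · have h1 : φ i ⟨_, t_mem_T1 i⟩ ∈ p.1 :=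
          h.ge (Submodule.mem_top (x := (⟨_, t_mem_T1 i⟩ : T1 c)))
        rw [show φ i ⟨_, t_mem_T1 i⟩ = 1 from Subtype.ext (div_self (c.t_ne i))] at h1
        exact p.2.isPrime.ne_top ((Ideal.eq_top_iff_one _).2 h1))
  refine ⟨l, l.2, fun h => hl none (Subtype.ext h), fun i x hx h => by_contra fun hx' => ?_⟩
  have h1 : φ i l ∈ ⋃ p ∈ associatedPrimes (c.R {i}) (Q i), (p : Set (c.R {i})) := by
    rw [biUnion_associatedPrimes_eq_zero_divisors]
    refine ⟨Submodule.Quotient.mk ⟨x, hx⟩, fun h2 => hx' ?_, ?_⟩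
    · rwa [Submodule.Quotient.mk_eq_zero] at h2
    · rw [← Submodule.Quotient.mk_smul, Submodule.Quotient.mk_eq_zero]
      exact h
  obtain ⟨p, hp, h2⟩ := Set.mem_iUnion₂.1 h1
  exact hl (some ⟨i, p, hp⟩) h2

theorem NZD.mem {K M : Lat c V} {l : F} (h : NZD K M l) {e : ℤ} {x : V} (hx : x ∈ Gm M e)
    (hl : l • x ∈ Gm K (e + 1)) : x ∈ Gm K e :=
  mem_Gm.2 fun i => h i _ (mem_Gm.1 hx i) (by rw [← zp_succ]; exact mem_Gm.1 hl i)

/-- `Γ(K(e+1)) + ℓ Γ(M(e))` -/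
def cutG (K M : Lat c V) (l : F) (e : ℤ) : Submodule k V :=
  Gm K e ⊔ (Gm M (e - 1)).map (mu k l)

theorem mem_cutG {K M : Lat c V} {l : F} {e : ℤ} {x : V} :
    x ∈ cutG K M l (e + 1) ↔ ∃ y ∈ Gm M e, x - l • y ∈ Gm K (e + 1) := by
  rw [cutG, add_sub_cancel_right, Submodule.mem_sup]
  constructor
  · rintro ⟨a, ha, _, ⟨y, hy, rfl⟩, rfl⟩
    exact ⟨y, hy, by rwa [mu_apply, add_sub_cancel_right]⟩
  · rintro ⟨y, hy, h⟩
    exact ⟨_, h, _, ⟨y, hy, rfl⟩, sub_add_cancel _ _⟩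

theorem cutG_le_cut (K M : Lat c V) (l : F) (e : ℤ) : cutG K M l e ≤ Gm (cut K M l) e := by
  refine sup_le (Gm_mono (le_cut K M l) e) ?_
  rintro _ ⟨y, hy, rfl⟩
  have := smul_mem_cut K l hy
  rwa [sub_add_cancel] at this

instance finite_cutG (K M : Lat c V) (l : F) (e : ℤ) : Module.Finite k (cutG K M l e) :=
  inferInstanceAs (Module.Finite k (_ ⊔ _ : Submodule k V))

theorem finrank_cutG {K M : Lat c V} (h : K.toFam.LE M.toFam) {l : F} (hl : l ∈ T1 c) (hl0 : l ≠ 0)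
    (hz : NZD K M l) (e : ℤ) : finrank k (cutG K M l (e + 1)) + finrank k (Gm K e) =
      finrank k (Gm K (e + 1)) + finrank k (Gm M e) := by
  have hi : Function.Injective (mu k l : V →ₗ[k] V) := smul_right_injective V hl0
  have h1 : Gm K (e + 1) ⊓ (Gm M e).map (mu k l) = (Gm K e).map (mu k l) := by
    refine le_antisymm ?_ (le_inf ?_ (Submodule.map_mono (Gm_mono h e)))
    · rintro _ ⟨h1, y, hy, rfl⟩
      exact ⟨y, hz.mem hy h1, rfl⟩
    · rintro _ ⟨y, hy, rfl⟩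
      exact smul_mem_Gm hl hy
  have h2 := Submodule.finrank_sup_add_finrank_inf_eq (Gm K (e + 1)) ((Gm M e).map (mu k l))
  rw [h1, ← (Submodule.equivMapOfInjective _ hi _).finrank_eq,
    ← (Submodule.equivMapOfInjective _ hi _).finrank_eq] at h2
  rw [cutG, add_sub_cancel_right, h2]

theorem step {K M : Lat c V} {l : F} {e : ℤ} {N : Submodule k V} (hN : N ≤ cutG K M l (e + 1))
    {x : V} (hx : x ∈ T1 c • N) : ∃ w ∈ Gm M (e + 1), x - l • w ∈ T1 c • Gm K (e + 1) := by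
  refine Submodule.smul_induction_on hx (fun a ha y hy => ?_) ?_
  · obtain ⟨z, hz, h⟩ := mem_cutG.1 (hN hy)
    refine ⟨a • z, smul_mem_Gm ha hz, ?_⟩
    rw [smul_comm l, ← smul_sub]
    exact Submodule.smul_mem_smul ha h
  · rintro x y ⟨w, hw, h⟩ ⟨w', hw', h'⟩
    refine ⟨w + w', add_mem hw hw', ?_⟩
    rw [smul_add, add_sub_add_comm]
    exact add_mem h h'

theorem step_cut {K M : Lat c V} {l : F} {e : ℤ} {N : Submodule k V} (hN : N ≤ cutG K M l (e + 1)) :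
    T1 c • N ≤ cutG K M l (e + 1 + 1) := fun _ hx =>
  let ⟨w, hw, h⟩ := step hN hx
  mem_cutG.2 ⟨w, hw, smul_Gm_le _ _ h⟩

theorem step_gen {K M : Lat c V} {l : F} (hl : l ∈ T1 c) (hz : NZD K M l) {e : ℤ}
    {N : Submodule k V} (hN : N ≤ cutG K M l (e + 1)) (h : Gm K (e + 1 + 1) ≤ T1 c • N) :
    Gm K (e + 1 + 1) = T1 c • Gm K (e + 1) := by
  refine le_antisymm (fun x hx => ?_) (smul_Gm_le _ _)
  obtain ⟨w, hw, h1⟩ := step hN (h hx)
  have h2 : l • w ∈ Gm K (e + 1 + 1) := by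
    have := sub_mem hx (smul_Gm_le _ _ h1)
    rwa [sub_sub_cancel] at this
  have := add_mem h1 (Submodule.smul_mem_smul hl (hz.mem hw h2))
  rwa [sub_add_cancel] at this

theorem le_of_fr {A B : Submodule k V} [Module.Finite k B] (h : A ≤ B)
    (h0 : (finrank k B : ℤ) - finrank k A = 0) : B ≤ A :=
  (Submodule.eq_of_le_of_finrank_eq h (by omega)).ge

theorem fr_of_le {A B : Submodule k V} (h : A ≤ B) (h' : B ≤ A) :
    (finrank k B : ℤ) - finrank k A = 0 := by rw [le_antisymm h h', sub_self]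

theorem fr_nonneg {A B : Submodule k V} [Module.Finite k B] (h : A ≤ B) :
    0 ≤ (finrank k B : ℤ) - finrank k A := sub_nonneg.2 (Nat.cast_le.2 (Submodule.finrank_mono h))

/-- `dim Γ(M(e)) - dim Γ(K(e))` -/
def qd (K M : Lat c V) (e : ℤ) : ℤ := finrank k (Gm M e) - finrank k (Gm K e)

/-- **uniform regularity** -/
theorem unif_reg [Infinite k] (j0 : ℤ) (d : ℕ) (c0 : ℤ) : ∃ m0 : ℤ, j0 + 1 ≤ m0 ∧
    ∀ (K M : Lat c V), (∀ e, j0 ≤ e → Gm M (e + 1) = T1 c • Gm M e) → K.toFam.LE M.toFam →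
    (∀ᶠ e in atTop, d * e + c0 ≤ qd K M e) → (∀ e, m0 ≤ e → d * e + c0 < qd K M e) ∨
      ∀ e, m0 ≤ e → Gm K (e + 1) = T1 c • Gm K e ∧ qd K M (e + 1) = qd K M e + d := by
  obtain ⟨m0, hm0, H⟩ := num_reg j0 d c0
  refine ⟨m0, hm0, fun K M hM h hev => ?_⟩
  obtain ⟨l, hl, hl0, hz⟩ := exists_nzd K M
  have h' := cut_le h hl
  obtain ⟨l', hl', hl0', hz'⟩ := exists_nzd (cut K M l) M
  have c1 := fun e => cutG_le_cut K M l e
  have c2 := fun e => (cutG_le_cut (cut K M l) M l' e).trans (Gm_mono (cut_le h' hl') e)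
  have g1 : ∀ e, j0 ≤ e → Gm M (e + 1) ≤ cutG (cut K M l) M l' (e + 1) →
      Gm (cut K M l) (e + 1 + 1) = T1 c • Gm (cut K M l) (e + 1) := fun e he h1 =>
    step_gen hl' hz' h1 ((Gm_mono h' _).trans (hM _ (by omega)).le)
  have e1 : ∀ j, qd K M (j + 1) = qd K M j + qd (cut K M l) M (j + 1) +
      ((finrank k (Gm (cut K M l) (j + 1)) : ℤ) - finrank k (cutG K M l (j + 1))) := fun j => by
    have := finrank_cutG h hl hl0 hz j
    unfold qd
    omega
  refine (H (qd K M) (qd (cut K M l) M)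
    (fun e => finrank k (Gm (cut K M l) e) - finrank k (cutG K M l e))
    (fun e => finrank k (Gm M e) - finrank k (cutG (cut K M l) M l' e))
    (fun e => fr_nonneg (Gm_mono h e)) (fun e => fr_nonneg (Gm_mono h' e))
    (fun e => fr_nonneg (c1 e)) (fun e => fr_nonneg (c2 e)) e1 (fun j => ?_) (fun j hj h0 => ?_)
    (fun j hj h0 h1 => ?_) ?_ hev).imp_right fun H e he => ⟨?_, ?_⟩
  · have := finrank_cutG h' hl' hl0' hz' j
    unfold qd
    omega
  · obtain ⟨e, rfl⟩ : ∃ e, j = e + 1 := ⟨j - 1, by ring⟩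
    exact fr_of_le (c2 _) ((hM _ (by omega)).le.trans (step_cut (le_of_fr (c2 _) h0)))
  · obtain ⟨e, rfl⟩ : ∃ e, j = e + 1 := ⟨j - 1, by ring⟩
    exact fr_of_le (c1 _) ((g1 e (by omega) (le_of_fr (c2 _) h0)).le.trans
      (step_cut (le_of_fr (c1 _) h1)))
  · refine ((tendsto_atTop_add_const_right _ (-1) tendsto_id).eventually (Gm_cut K M l)).mono
      fun e he => ?_
    obtain ⟨e, rfl⟩ : ∃ e', e = e' + 1 := ⟨e - 1, by ring⟩
    rw [id, add_neg_cancel_right] at he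
    exact fr_of_le (c1 _) fun z hz => mem_cutG.2 (he z hz)
  · obtain ⟨e, rfl⟩ : ∃ e', e = e' + 1 := ⟨e - 1, by ring⟩
    exact step_gen hl hz (le_of_fr (c1 _) (H _ he).2.1) ((Gm_mono (le_cut K M l) _).trans
      (g1 e (by omega) (le_of_fr (c2 _) (H _ he).1)).le)
  · have := H (e + 1) (by omega)
    rw [e1, this.2.1, this.2.2, add_zero]

/-- uniform regularity, second form -/
theorem unif_reg' [Infinite k] (j0 : ℤ) (d : ℕ) (c0 : ℤ) : ∃ m0 : ℤ, j0 + 1 ≤ m0 ∧
    ∀ (K M : Lat c V), (∀ e, j0 ≤ e → Gm M (e + 1) = T1 c • Gm M e) → K.toFam.LE M.toFam →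
    (∀ᶠ e in atTop, d * e + c0 ≤ qd K M e) → (∃ p, m0 ≤ p ∧ qd K M p ≤ d * p + c0) →
      ∀ e, m0 ≤ e → Gm K (e + 1) = T1 c • Gm K e ∧ qd K M e = d * e + c0 := by
  obtain ⟨m0, hm0, H⟩ := unif_reg (c := c) (V := V) j0 d c0
  refine ⟨m0, hm0, fun K M hM h hev ⟨p, hp, hp'⟩ e he => ?_⟩
  have H := (H K M hM h hev).resolve_left fun h => (h p hp).not_ge hp'
  have key : ∀ e, m0 ≤ e → qd K M e - d * e = qd K M m0 - d * m0 := fun e he => by
    induction e, he using Int.leInduction with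
    | base => rfl
    | succ e he ih => rw [(H e he).2, ← ih]; ring
  obtain ⟨b, h1, h2⟩ := (hev.and (eventually_ge_atTop m0)).exists
  refine ⟨(H e he).1, ?_⟩
  linarith [key e he, key p hp, key b h2]

/-! ### the surface -/

section Surf

variable (Sg : Br.Surf) {V : Type} [AddCommGroup V] [Module ℂ V] [Module Sg.F V]
  [IsScalarTower ℂ Sg.F V]

theorem top_of_surj {W : Type u} [AddCommGroup W] [Module k W] [Module F W] [IsScalarTower k F W]
    {V : Type u} [AddCommGroup V] [Module k V] [Module F V] [IsScalarTower k F V]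
    (g : V →ₗ[F] W) (M : Lat c V) {e : ℤ} (h : Subsingleton ((tw M e).H n)) :
    Subsingleton ((tw (mapL g M) e).H n) :=
  (exact_tw (exact_ker (M := M) (N := mapL g M) (g := g) (fun _ _ x hx => ⟨x, hx, rfl⟩)
    fun _ _ _ hz => hz) e).ses.subsingleton_C n h (H_subsingleton_of_lt _ n.lt_succ_self)

theorem van_tw {V : Type u} [AddCommGroup V] [Module k V] [Module F V] [IsScalarTower k F V]
    {M : Lat c V} {e f : ℤ} {p : ℕ} (h : Subsingleton ((tw M (e + f)).H p)) :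
    Subsingleton ((tw (tw M e) f).H p) :=
  (Eqv.H (fun _ hI => tw_tw M e f hI) p).toEquiv.subsingleton

theorem van2_genX {ι : Type} [Fintype ι] (u : ι → V) {p e : ℤ} (he : p ≤ e) :
    Subsingleton ((tw (genX Sg.V.X u p).toLat e).H 2) :=
  top_of_surj _ _ (van_tw (van_OP Sg ι (by omega) two_pos))

theorem eqv_genS {K : XLat Sg.V.X V} {p : ℤ}
    (h : ∀ e, p ≤ e → Gm K.toLat (e + 1) = T1 Sg.V.X.toCoord • Gm K.toLat e) :
    Eqv K.toFam (genS Sg.V.X (Gm K.toLat p) p).toFam :=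
  eqv_of_le (le_genS_of_gen h) (genS_le le_rfl)

theorem van2_of_gen {K : XLat Sg.V.X V} {p e : ℤ}
    (h : ∀ e, p ≤ e → Gm K.toLat (e + 1) = T1 Sg.V.X.toCoord • Gm K.toLat e) (he : p ≤ e) :
    Subsingleton ((tw K.toLat e).H 2) :=
  have : Subsingleton ((tw (genS Sg.V.X (Gm K.toLat p) p).toLat e).H 2) := van2_genX Sg _ he
  ((eqv_tw (eqv_genS Sg h) e).H 2).toEquiv.subsingleton

theorem regL_of_gen {K : XLat Sg.V.X V} {p : ℤ}
    (h : ∀ e, p ≤ e → Gm K.toLat (e + 1) = T1 Sg.V.X.toCoord • Gm K.toLat e)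
    (h1 : cL K.toLat (p + 1) = finrank ℂ (Gm K.toLat (p + 1))) : RegL K.toLat (p + 2) := by
  refine regL_iff.2 ⟨hL_eq_zero_iff.1 ?_, van2_of_gen Sg h (by omega)⟩
  rw [cL_two, hL_zero, hL_eq_zero_iff.2 (van2_of_gen Sg h (by omega))] at h1
  rw [show p + 2 - 1 = p + 1 by ring]
  omega

/-- the Hilbert polynomial of a subsheaf of `O^ι` whose cokernel has Hilbert polynomial `d e + c` -/
def HP (r d : ℕ) (c0 : ℤ) (e : ℤ) : ℤ := r * Sg.V.chi (e • Sg.V.h) - (d * e + c0)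

theorem HP_rec (r d : ℕ) (c0 e : ℤ) : HP Sg r d c0 e =
    3 * HP Sg r d c0 (e + 1) - 3 * HP Sg r d c0 (e + 2) + HP Sg r d c0 (e + 3) := by
  have := cL_rec (OX Sg.V.X).toLat e
  simp only [cL_OX] at this
  simp only [HP, this]
  ring

/-- **uniform regularity on the surface** -/
theorem reg_sub (ι : Type) [Fintype ι] (d : ℕ) (c0 : ℤ) : ∃ m0 : ℤ, 2 ≤ m0 ∧
    ∀ K : XLat Sg.V.X (ι → Sg.F), K.toFam.LE (OP Sg.V.X ι).toFam →
      (∀ᶠ e in atTop, (finrank ℂ (Gm K.toLat e) : ℤ) ≤ HP Sg (Fintype.card ι) d c0 e) →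
      (∃ p, m0 ≤ p ∧ HP Sg (Fintype.card ι) d c0 p ≤ finrank ℂ (Gm K.toLat p)) →
      RegL K.toLat m0 ∧ cL K.toLat = HP Sg (Fintype.card ι) d c0 := by
  obtain ⟨m0, hm0, H⟩ := unif_reg' (c := Sg.V.X.toCoord) (V := ι → Sg.F) 2 d c0
  have hq : ∀ K : XLat Sg.V.X (ι → Sg.F), ∀ e, 0 ≤ e → qd K.toLat (OP Sg.V.X ι).toLat e =
      HP Sg (Fintype.card ι) d c0 e + (d * e + c0) - finrank ℂ (Gm K.toLat e) := fun K e he => by
    rw [qd, finrank_Gm_OP Sg ι he, HP, sub_add_cancel]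
  refine ⟨m0 + 2, by omega, fun K hK hev ⟨p, hp, hp'⟩ => ?_⟩
  have H := H K.toLat _ (fun e he => (reg_OP Sg ι).gen he) hK
    ((hev.and (eventually_ge_atTop 0)).mono fun e he => by rw [hq K e he.2]; linarith [he.1])
    ⟨p, by omega, by rw [hq K p (by omega)]; linarith⟩
  have h1 : ∀ e, m0 ≤ e → (finrank ℂ (Gm K.toLat e) : ℤ) = HP Sg (Fintype.card ι) d c0 e :=
    fun e he => by linarith [(H e he).2, hq K e (by omega)]
  have h2 : cL K.toLat = HP Sg (Fintype.card ι) d c0 := eq_of_rec (cL_rec _) (HP_rec Sg _ d c0)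
    (((ev_cL K.toLat).and (eventually_ge_atTop m0)).mono fun e he => he.1.trans (h1 e he.2))
  exact ⟨regL_of_gen Sg (fun e he => (H e he).1) (by rw [h2, h1 _ (by omega)]), h2⟩

theorem RegL.finrank_eq {V : Type u} [AddCommGroup V] [Module k V] [Module F V]
    [IsScalarTower k F V] {M : Lat c V} {m e : ℤ} (h : RegL M m) (he : m ≤ e + 1) :
    (finrank k (Gm M e) : ℤ) = cL M e :=
  (cL_eq_of_van fun _ hp => h.van hp (by omega)).symm

/-- subsheaves of `O^ι` with a given Hilbert polynomial are uniformly regular, and subspaces of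
`Γ(O^ι(p))` of the right dimension and growth come from such subsheaves -/
theorem reg_quot (ι : Type) [Fintype ι] (d : ℕ) (c0 : ℤ) : ∃ m0 : ℤ, 2 ≤ m0 ∧
    (∀ K : XLat Sg.V.X (ι → Sg.F), K.toFam.LE (OP Sg.V.X ι).toFam →
      (∀ᶠ e in atTop, cL K.toLat e = HP Sg (Fintype.card ι) d c0 e) →
      RegL K.toLat m0 ∧ cL K.toLat = HP Sg (Fintype.card ι) d c0) ∧
    ∀ p, m0 ≤ p → ∀ (U : Submodule ℂ (ι → Sg.F)) [Module.Finite ℂ U],
      U ≤ Gm (OP Sg.V.X ι).toLat p → HP Sg (Fintype.card ι) d c0 p ≤ finrank ℂ U →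
      (∀ᶠ j in atTop, (finrank ℂ (AA Sg.V.X j • U : Submodule ℂ _) : ℤ) ≤
        HP Sg (Fintype.card ι) d c0 (j + p)) →
      RegL (genS Sg.V.X U p).toLat m0 ∧ cL (genS Sg.V.X U p).toLat = HP Sg (Fintype.card ι) d c0 ∧
        ∀ j : ℕ, Gm (genS Sg.V.X U p).toLat (j + p) = AA Sg.V.X j • U := by
  obtain ⟨m0, hm0, H⟩ := reg_sub Sg ι d c0
  refine ⟨m0, hm0, fun K hK hev => ?_, fun p hp U _ hU h1 hev => ?_⟩
  · have h1 := ((ev_cL K.toLat).and hev).mono fun e he => he.1.symm.trans he.2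
    obtain ⟨p, hp⟩ := (h1.and (eventually_ge_atTop m0)).exists
    exact H K hK (h1.mono fun _ h => h.le) ⟨p, hp.2, hp.1.ge⟩
  · have h2 := h1.trans (Nat.cast_le.2 (Submodule.finrank_mono (le_Gm_genS (X := Sg.V.X) (p := p))))
    obtain ⟨h3, h4⟩ := H _ (genS_le hU) (((tendsto_atTop_add_const_right _ (-p) tendsto_id).eventually
      (hev.and (ev_Gm_genS (X := Sg.V.X) (U := U) (p := p)))).mono fun e he => by
        rw [← he.2, id, neg_add_cancel_right] at he
        exact he.1) ⟨p, hp, h2⟩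
    refine ⟨h3, h4, fun j => ?_⟩
    rw [← h4, ← h3.finrank_eq (by omega)] at h1
    rw [gen_AA (fun e he => h3.gen he) hp,
      ← Submodule.eq_of_le_of_finrank_le le_Gm_genS (Nat.cast_le.1 h1)]

end Surf

end Crest.Agent.N265.Fib
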