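import Crest.Agent.N265.Fib.R1
import Crest.Agent.N265.Fib.P5

/-!
# Row 265, fibrewise theory: `Soc (O/I)_x = Tor₁(I, ℂ_x)`, local part
-/

set_option autoImplicit false
set_option linter.unusedSectionVars false
noncomputable section

namespace Crest.Agent.N265.Fib

open Crest.Agent.R274
open Cx_781 Defs_781 Ses_781 Lat_781 Ser_781 SnapA_99 SnapB_99 SnapC_99 SnapD_99 SnapE_99 Gen7_750
open Xs1_781 Filter SkDefs_474 Module Pnt Br N MvPolynomial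

universe u

section Loc
variable {k : Type u} [Field k] {F : Type u} [Field F] [Algebra k F] {n : ℕ}
  {X : Defs_781.Var k F n}
  {V : Type u} [AddCommGroup V] [Module k V] [Module F V] [IsScalarTower k F V]
  {ι : Type} [Fintype ι] {x : Pnt X} {a b e : F} {u : ι → V} {M : XLat X V}

/-- two generators of the maximal ideal are parameters -/
theorem par_of_gen (hn : 0 < n) (hs : S2At x (OX X)) (ha : a ∈ x.O) (hb : b ∈ x.O)
    (va : x.val a = 0) (vb : x.val b = 0)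
    (gen : ∀ f ∈ x.O, x.val f = 0 → ∃ c ∈ x.O, ∃ d ∈ x.O, f = c * a + d * b) : Par x a b := by
  have s2 : ∀ w, a * w ∈ x.O → b * w ∈ x.O → w ∈ x.O := fun w h1 h2 =>
    mem_loc_OX.1 (hs w fun f hf h0 => mem_loc_OX.2 (by
      obtain ⟨c, hc, d, hd, rfl⟩ := gen f hf h0
      rw [smul_eq_mul, add_mul, mul_assoc, mul_assoc]
      exact add_mem (mul_mem hc h1) (mul_mem hd h2)))
  have h0 : ¬ (a = 0 ∧ b = 0) := fun h => by
    obtain ⟨f, hf, h1, h2⟩ := x.exists_m_ne hn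
    obtain ⟨c, -, d, -, e⟩ := gen f hf h1
    exact h2 (by rw [e, h.1, h.2, mul_zero, mul_zero, add_zero])
  refine ⟨ha, hb, va, vb, fun h => ?_, fun h => ?_, gen, s2⟩
  · have b0 : b ≠ 0 := fun h' => h0 ⟨h, h'⟩
    exact val_ne_of_inv hb b0 (s2 _ (by rw [h, zero_mul]; exact zero_mem _)
      (by rw [mul_inv_cancel₀ b0]; exact one_mem _)) vb
  · have a0 : a ≠ 0 := fun h' => h0 ⟨h', h⟩
    exact val_ne_of_inv ha a0 (s2 _ (by rw [mul_inv_cancel₀ a0]; exact one_mem _)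
      (by rw [h, zero_mul]; exact zero_mem _)) va

/-- if the Koszul syzygy of `w` is in `𝔪 B` then `w` is in `M` -/
theorem Par.soc_inj (h : Par x a b) (hu : ∀ l, u l ∈ x.loc M) (he : x.val e ≠ 0) {ξ η : ι → F}
    (hξ : ∀ l, ξ l ∈ x.O) (hη : ∀ l, η l ∈ x.O) {w : V} (e₁ : lc F u ξ = a • w)
    {κ : LinearMap.ker (lc F u)} (hκ : κ ∈ x.m • x.loc (syz X u))
    (e₂ : κ.1 = e • (b • ξ - a • η)) : w ∈ x.loc M := by
  obtain ⟨p, hp, q, hq, rfl⟩ := h.mem_m_iff.1 hκ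
  have he' := mem_of_val he
  obtain ⟨ω, hω, -, h3⟩ := h.rel (M := OP X ι) (S2At.piX fun _ => h.s2_OX)
    (p := e • η + p.1) (q := e • ξ - q.1)
    (mem_loc_OP.2 fun l => add_mem (mul_mem he' (hη l)) (mem_loc_syz.1 hp l))
    (mem_loc_OP.2 fun l => sub_mem (mul_mem he' (hξ l)) (mem_loc_syz.1 hq l)) (by
      have : a • p.1 + b • q.1 = e • (b • ξ - a • η) := e₂
      rw [smul_add, smul_sub, eq_sub_iff_add_eq, add_assoc, this]
      module)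
  have h4 := congrArg (lc F u) h3
  rw [map_sub, LinearMap.mem_ker.1 q.2, sub_zero, map_smul, map_smul, e₁, smul_comm] at h4
  refine of_smul_mem he ?_
  rw [smul_right_injective V h.a0 h4]
  exact lc_mem_loc hu (mem_loc_OP.1 hω)

/-- a syzygy that vanishes at `x` is a Koszul syzygy -/
theorem Par.exists_kos (h : Par x a b) (he : x.val e ≠ 0) {c : ι → F}
    (hc : ∀ l, c l ∈ x.O ∧ x.val (c l) = 0) (h0 : lc F u c = 0) : ∃ (ξ η : ι → F) (w : V),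
      (∀ l, ξ l ∈ x.O) ∧ (∀ l, η l ∈ x.O) ∧ lc F u ξ = a • w ∧ lc F u η = b • w ∧
      c = e • (b • ξ - a • η) := by
  choose p hp q hq hpq using fun l => h.gen (c l) (hc l).1 (hc l).2
  have e0 := ne_of_val he
  have h1 : c = e • (b • e⁻¹ • q - a • (-e⁻¹) • p) := _root_.funext fun l => by
    simp only [Pi.smul_apply, Pi.sub_apply, smul_eq_mul, hpq l]
    field_simp
    ring
  refine ⟨e⁻¹ • q, (-e⁻¹) • p, a⁻¹ • lc F u (e⁻¹ • q), fun l => mul_mem (inv_mem he) (hq l),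
    fun l => mul_mem (neg_mem (inv_mem he)) (hp l), (smul_inv_smul₀ h.a0 _).symm, ?_, h1⟩
  rw [h1, map_smul, smul_eq_zero_iff_right e0, map_sub, sub_eq_zero, map_smul _ b,
    map_smul _ a] at h0
  rw [smul_comm, h0, inv_smul_smul₀ h.a0]

/-- the Koszul syzygy modulo `𝔪 B` depends only on `w` modulo `M` -/
theorem Par.kos_sub (h : Par x a b) (hg : Gens u M) (he : e ∈ x.O) {ξ η ξ' η' : ι → F}
    (hξ : ∀ l, ξ l ∈ x.O) (hη : ∀ l, η l ∈ x.O) (hξ' : ∀ l, ξ' l ∈ x.O) (hη' : ∀ l, η' l ∈ x.O)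
    {w w' : V} (e₁ : lc F u ξ = a • w) (e₂ : lc F u η = b • w) (e₁' : lc F u ξ' = a • w')
    (e₂' : lc F u η' = b • w') (hw : w - w' ∈ x.loc M) {κ : LinearMap.ker (lc F u)}
    (hκ : κ.1 = e • (b • ξ - a • η) - e • (b • ξ' - a • η')) : κ ∈ x.m • x.loc (syz X u) := by
  obtain ⟨ω, hω, e₃⟩ := (hg x _).1 hw
  refine h.mem_m_iff.2 ⟨⟨-e • (η - η' - b • ω), ?_⟩, mem_loc_syz.2 fun l => ?_,
    ⟨e • (ξ - ξ' - a • ω), ?_⟩, mem_loc_syz.2 fun l => ?_, Subtype.ext ?_⟩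
  · rw [LinearMap.mem_ker, map_smul, map_sub, map_sub, map_smul, e₂, e₂', e₃]; module
  · exact mul_mem (neg_mem he) (sub_mem (sub_mem (hη l) (hη' l)) (mul_mem h.hb (hω l)))
  · rw [LinearMap.mem_ker, map_smul, map_sub, map_sub, map_smul, e₁, e₁', e₃]; module
  · exact mul_mem he (sub_mem (sub_mem (hξ l) (hξ' l)) (mul_mem h.ha (hω l)))
  · rw [hκ]
    show _ = a • -e • (η - η' - b • ω) + b • e • (ξ - ξ' - a • ω)
    module

/-- a vector that is killed by `V_x` lies in `M` away from `x` -/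
theorem NG.mem_Gm_of_van [IsAlgClosed k] (h : NG X) {p : ℤ} {w : V}
    (h1 : ∀ l ∈ van x 1, l • w ∈ Gm M.toLat (1 + p)) (h2 : X.t x.i ^ (-p) • w ∈ x.loc M) :
    w ∈ Gm M.toLat p := by
  refine mem_Gm_of_loc fun y => ?_
  by_cases hy : y = x
  · exact hy ▸ h2
  obtain ⟨l, hl, hl'⟩ := SetLike.not_le_iff_exists.1 fun H => hy (h.eq_of_van H)
  refine of_smul_mem (a := X.t y.i ^ (-1 : ℤ) * l)
    (fun H => hl' (mem_van.2 ⟨van_le _ _ hl, H⟩)) ?_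
  have := Gm_mem_loc (x := y) (h1 l hl)
  rwa [smul_smul, neg_add, zpow_add₀ (X.t_ne _), mul_right_comm, mul_smul] at this
end Loc

section Two
variable {k : Type u} [Field k] {F : Type u} [Field F] [Algebra k F] {S : SmV k F 2}
  [IsAlgClosed k]

/-- socle vectors come from sections -/
theorem exists_soc_sec {I : XLat S.X F} (hI : I.toFam.LE (OX S.X).toFam) {p : ℤ}
    (hr : RegL I.toLat p) {x : Pnt S.X} {v : F}
    (hm : ∀ a ∈ x.O, x.val a = 0 → a • v ∈ x.loc I) : ∃ g ∈ AA S.X p,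
      (∀ l ∈ van x 1, l • g ∈ Gm I.toLat (p + 1)) ∧ v - S.X.t x.i ^ (-p) • g ∈ x.loc I := by
  by_cases hv : v ∈ x.loc I
  · exact ⟨0, zero_mem _, fun l _ => by rw [smul_zero]; exact zero_mem _, by simpa using hv⟩
  obtain ⟨M, h1, h2⟩ := exists_up two_pos hv hm
  obtain ⟨g, hg, h3⟩ := fib_surj (fun d hd => (h1.fc.regL hr).gen hd) x h2
  exact ⟨g, map_Gm_le (h1.fc.maps_of_s2 s2_OX (g := LinearMap.id) fun J hJ y hy => hI J hJ hy) hg,
    fun l hl => h1.van_smul_le p (Submodule.smul_mem_smul hl hg), h1.m h3⟩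
end Two

variable {Sg : Surf} {b : ℕ}

/-- **local parameters on the cone are local parameters** -/
theorem par_pnt {z : (Sg.S b).pts} {l₁ l₂ : SA Sg 1} (h1 : l₁ ∈ mP Sg b 1 z.1)
    (h2 : l₂ ∈ mP Sg b 1 z.1) (h : LocGen (Sg.S b) b z (evS Sg b 1 l₁) (evS Sg b 1 l₂)) :
    Par (pnt Sg b z.1 z.2) (Sg.V.X.t (pnt Sg b z.1 z.2).i ^ (-1 : ℤ) * l₁.1)
      (Sg.V.X.t (pnt Sg b z.1 z.2).i ^ (-1 : ℤ) * l₂.1) := by
  obtain ⟨c, hc, hx⟩ := evP_pnt z.2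
  have h3 := (mem_van.1 ((mem_mP_iff (hz := z.2)).1 h1)).2
  have h4 := (mem_van.1 ((mem_mP_iff (hz := z.2)).1 h2)).2
  have h5 := fun (m : ℕ) (f : SA Sg m) => mem_mP_iff (hz := z.2) (f := f)
  generalize pnt Sg b z.1 z.2 = x at hx h3 h4 h5 ⊢
  have hA : ∀ (m : ℕ) (f : SA Sg m), Sg.V.X.t x.i ^ (-(m : ℤ)) * f.1 ∈ x.O := fun m f =>
    AA_mem_O ((AA_nat Sg.V m).ge f.2)
  refine par_of_gen two_pos (s2_OX x) (hA 1 l₁) (hA 1 l₂) h3 h4 fun f hf h0 => ?_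
  set s : Sg.F := c • Sg.V.X.t x.i ^ (-1 : ℤ) with hs
  have hT : ∀ v, (s • Sg.T b) v ∈ x.O := fun v => by
    rw [Pi.smul_apply, hs, smul_assoc, smul_eq_mul]
    exact x.O.smul_mem (hA 1 ⟨_, T_mem Sg b v⟩) c
  have h6 : aeval (s • Sg.T b) = x.O.val.comp (aeval fun v => (⟨_, hT v⟩ : x.O)) :=
    algHom_ext fun v => by simp
  have h7 : ∀ r : R, aeval (s • Sg.T b) r ∈ x.O := fun r => by rw [h6]; exact Subtype.prop _
  have h8 : ∀ r : R, x.val (aeval (s • Sg.T b) r) = eval z.1 r := fun r => by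
    have : aeval z.1 = x.ev.comp (aeval fun v => (⟨_, hT v⟩ : x.O)) := algHom_ext fun v => by
      rw [aeval_X, AlgHom.comp_apply, aeval_X, ev_apply, ← evP_T z.2, hx, pow_one]
      show _ = x.val (s * Sg.T b v)
      rw [hs, smul_mul_assoc]
      exact (val_smul c (hA 1 ⟨_, T_mem Sg b v⟩)).symm
    rw [← coe_aeval_eq_eval]
    show _ = aeval z.1 r
    rw [this, h6]
    rfl
  have h9 : ∀ (m : ℕ) (g : SA Sg m), ∃ r : R, (∀ y, evS Sg b m g y = eval y.1 r) ∧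
      aeval (s • Sg.T b) r = c ^ m • (Sg.V.X.t x.i ^ (-(m : ℤ)) * g.1) := fun m g => by
    obtain ⟨r, hr, hr', e⟩ := Sg.exists_hmg b g.2
    refine ⟨r, evS_spec Sg b g hr e, (aeval_smul_hom _ s hr').trans ?_⟩
    rw [e, hs, smul_pow, smul_mul_assoc, ← zpow_natCast (_ ^ _), ← zpow_mul, neg_one_mul]
  obtain ⟨β, hβ, hβ0, hβf⟩ := x.in_i.exists_den (Finset.singleton_nonempty _) (mem_loc_OX.2 hf)
  obtain ⟨m, g, hg, e⟩ := exists_AA (i := x.i) (a := β • f) hβf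
  have hg' : g ∈ SA Sg m := (AA_nat Sg.V m).le hg
  obtain ⟨ρ, ⟨ρ', hρ⟩, α, ⟨α', hα⟩, γ, ⟨γ', hγ⟩, h10, h11⟩ := h m _ (evS_mem Sg b ⟨g, hg'⟩)
    ((mem_mP Sg b).1 ((h5 m ⟨g, hg'⟩).2 (mem_van.2 ⟨hg, by
      rw [← e, smul_eq_mul, val_mul (mem_of_val hβ0) hf, h0, mul_zero]⟩)))
  obtain ⟨r, hr, er⟩ := h9 m ⟨g, hg'⟩
  obtain ⟨r₁, hr₁, er₁⟩ := h9 1 l₁
  obtain ⟨r₂, hr₂, er₂⟩ := h9 1 l₂
  have h12 : ρ' * r - (α' * r₁ + γ' * r₂) ∈ cI (Sg.T b) := Sg.S_I b ▸ fun y hy => by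
    have := congrFun h11 ⟨y, hy⟩
    simp only [Pi.mul_apply, Pi.add_apply, hρ, hα, hγ, hr, hr₁, hr₂] at this
    simp only [map_sub, map_add, map_mul, this, sub_self]
  have h13 := aeval_of_mem h12 s
  rw [map_sub, map_add, map_mul, map_mul, map_mul, er, er₁, er₂, sub_eq_zero, ← e] at h13
  have h14 : x.val (aeval (s • Sg.T b) ρ' * (c ^ m • β)) ≠ 0 := val_mul_ne
    (by rw [h8, ← hρ]; exact h10)
    (by rw [val_smul _ (mem_of_val hβ0)]; exact mul_ne_zero (pow_ne_zero _ hc) hβ0)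
  refine ⟨_, mul_mem (inv_mem h14) (x.O.smul_mem (h7 α') c), _,
    mul_mem (inv_mem h14) (x.O.smul_mem (h7 γ') c), ?_⟩
  rw [mul_assoc, mul_assoc _⁻¹, ← mul_add, eq_inv_mul_iff_mul_eq₀ (ne_of_val h14)]
  simp only [pow_one, Nat.cast_one, smul_eq_mul, mul_smul_comm, smul_mul_assoc] at h13 ⊢
  rw [← h13, mul_assoc]

end Crest.Agent.N265.Fib
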